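import Vale.Agent.P224.UE.Half2

/-!
The critical power of the chordal distance in every dimension.
-/

namespace Vale.Agent.P224.UE

open MeasureTheory Set Filter Function
open Vale.Agent.P224.SM2 hiding ker
open scoped Topology RealInnerProductSpace ENNReal ContDiff

set_option linter.unusedSectionVars false

/-- the general integrals of the kernels -/
noncomputable def phG (m a q : ℕ) (s : ℝ) : ℝ :=
  ∫ τ in (0 : ℝ)..1, kp τ ^ (m - 2) * (τ ^ a * SM2.ker τ q s)

lemma hasDerivAt_phG (m a q : ℕ) {s : ℝ} (hs : s < 1) :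
    HasDerivAt (phG m a q) (q * phG m (a + 1) (q + 1) s) s := by
  have hv : ∀ s ∈ Iio (1 : ℝ), ∀ τ ∈ Icc (0 : ℝ) 1, 1 - τ * s ≠ 0 := fun s hs τ hτ =>
    (v_pos hτ hs).ne'
  have hk : ∀ q : ℕ, ContinuousOn (uncurry fun (s τ : ℝ) => SM2.ker τ q s)
      (Iio 1 ×ˢ Icc 0 1) := by
    intro q
    unfold SM2.ker Function.uncurry
    refine ContinuousOn.inv₀ (by fun_prop) ?_
    rintro ⟨s, τ⟩ ⟨h1, h2⟩
    exact pow_ne_zero _ (hv s h1 τ h2)
  have hkp : ContinuousOn (uncurry fun (_ τ : ℝ) => kp τ ^ (m - 2)) (Iio 1 ×ˢ Icc 0 1) :=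
    ((continuous_kp.comp continuous_snd).pow _).continuousOn
  have hpw : ∀ a : ℕ, ContinuousOn (uncurry fun (_ τ : ℝ) => τ ^ a) (Iio 1 ×ˢ Icc 0 1) :=
    fun a => (continuous_snd.pow a).continuousOn
  have key := SM2.deriv_interval (b := 1) zero_le_one (S := Iio 1) isOpen_Iio
    (g := fun s τ => kp τ ^ (m - 2) * (τ ^ a * SM2.ker τ q s))
    (g' := fun s τ => kp τ ^ (m - 2) * (τ ^ a * (q * τ * SM2.ker τ (q + 1) s)))
    (hkp.mul ((hpw a).mul (hk q)))
    (hkp.mul ((hpw a).mul ((continuousOn_const.mul continuousOn_snd).mul (hk (q + 1)))))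
    (fun s hs τ hτ => ((hasDerivAt_ker (q := q) (hv s hs τ hτ)).const_mul _).const_mul _)
    (T₀ := s) hs
  refine key.congr_deriv ?_
  unfold phG
  rw [← intervalIntegral.integral_const_mul]
  refine intervalIntegral.integral_congr fun τ _ => ?_
  ring

lemma contDiffOn_phG (m n : ℕ) : ∀ a q : ℕ, ContDiffOn ℝ n (phG m a q) (Iio 1) := by
  induction n with
  | zero =>
    intro a q
    rw [Nat.cast_zero, contDiffOn_zero]
    exact fun s hs => (hasDerivAt_phG m a q hs).continuousAt.continuousWithinAt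
  | succ n ih =>
    intro a q
    have h1 := (contDiffOn_succ_iff_deriv_of_isOpen (𝕜 := ℝ) (n := n) (f := phG m a q)
      (isOpen_Iio (a := (1 : ℝ)))).2
    push_cast
    refine h1 ⟨fun s hs => (hasDerivAt_phG m a q hs).differentiableAt.differentiableWithinAt,
      by simp, ?_⟩
    exact ((contDiffOn_const (c := (q : ℝ))).mul (ih (a + 1) (q + 1))).congr fun s hs =>
      (hasDerivAt_phG m a q hs).deriv

lemma contDiffAt_phG (m a q : ℕ) {s : ℝ} (hs : s < 1) : ContDiffAt ℝ ∞ (phG m a q) s := by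
  rw [contDiffAt_infty]
  intro n
  exact (contDiffOn_phG m n a q).contDiffAt (isOpen_Iio.mem_nhds hs)

lemma ph_eq (m : ℕ) : ph m 1 = phG m 0 m := by
  funext s
  simp [ph, phG]

lemma ph'_eq (m : ℕ) : ph' m 1 = fun s => m * phG m 1 (m + 1) s := by
  funext s
  unfold ph' phG
  rw [← intervalIntegral.integral_const_mul]
  refine intervalIntegral.integral_congr fun τ _ => ?_
  simp only [pow_one]
  ring

/-- the constant of the critical profile -/
noncomputable def cI (m : ℕ) : ℝ := ∫ x in (-1 : ℝ)..1, kp x ^ (m - 2)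

lemma kp_pos2 {x : ℝ} (hx : x ∈ Ioo (-1 : ℝ) 1) : 0 < kp x :=
  Real.sqrt_pos.2 (by nlinarith [hx.1, hx.2])

lemma kp_sq' {x : ℝ} (hx : x ∈ Icc (-1 : ℝ) 1) : kp x ^ 2 = 1 - x ^ 2 :=
  Real.sq_sqrt (by nlinarith [hx.1, hx.2])

lemma ii_kp (q : ℕ) (a b : ℝ) : IntervalIntegrable (fun x => kp x ^ q) volume a b :=
  (continuous_kp.pow q).intervalIntegrable a b

lemma cI_pos (m : ℕ) : 0 < cI m := by
  unfold cI
  refine intervalIntegral.intervalIntegral_pos_of_pos_on (ii_kp _ _ _) ?_ (by norm_num)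
  intro x hx
  exact pow_pos (kp_pos2 hx) _

lemma hasDerivAt_kp_pow2 {m : ℕ} (hm : 2 ≤ m) {x : ℝ} (hx : x ∈ Ioo (-1 : ℝ) 1) :
    HasDerivAt (fun x => kp x ^ m) (-(m * x * kp x ^ (m - 2))) x := by
  have h0 := kp_pos2 hx
  have hpos : 0 < 1 - x ^ 2 := by nlinarith [hx.1, hx.2]
  have h1 : HasDerivAt (fun T : ℝ => 1 - T ^ 2) (-(2 * x)) x := by
    simpa using (hasDerivAt_pow 2 x).const_sub 1
  have h2 : HasDerivAt (fun s => kp s ^ m) (m * kp x ^ (m - 1) * (-(2 * x) / (2 * kp x))) x :=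
    (h1.sqrt hpos.ne').fun_pow m
  refine h2.congr_deriv ?_
  obtain ⟨m', rfl⟩ : ∃ m', m = m' + 2 := ⟨m - 2, by omega⟩
  have e1 : kp x ^ (m' + 2 - 1) = kp x ^ m' * kp x := by
    rw [show m' + 2 - 1 = m' + 1 by omega, pow_succ]
  rw [e1, show m' + 2 - 2 = m' by omega]
  field_simp

/-- the first integral of the equation of the critical profile -/
lemma kp_ph {m : ℕ} (hm : 2 ≤ m) {s : ℝ} (hs : s ∈ Ico (-1 : ℝ) 1) :
    kp s ^ m * ph m 1 s = ∫ x in (-1 : ℝ)..s, kp x ^ (m - 2) := by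
  have hcont : ContinuousOn (fun s => kp s ^ m * ph m 1 s) (Icc (-1) s) := by
    intro x hx
    have h1 := (hasDerivAt_ph m (hx.2.trans_lt hs.2)).continuousAt.continuousWithinAt
      (s := Icc (-1 : ℝ) s)
    exact (continuous_kp.continuousAt.continuousWithinAt.pow m).mul h1
  have hder : ∀ x ∈ Ioo (-1 : ℝ) s,
      HasDerivAt (fun s => kp s ^ m * ph m 1 s) (kp x ^ (m - 2)) x := by
    intro x hx
    have hx1 : x < 1 := hx.2.trans hs.2
    have h2 := hasDerivAt_kp_pow2 hm ⟨hx.1, hx1⟩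
    have h3 := h2.fun_mul (hasDerivAt_ph m hx1)
    refine h3.congr_deriv ?_
    have h4 := ph_ode hm (T := 1) ⟨zero_le_one, le_rfl⟩ hx.1.le hx1
    have h5 : cv m 1 x = 0 := by
      unfold cv
      rw [show kp 1 = 0 by simp [kp], zero_pow (by omega), zero_mul]
    rw [h5, sub_zero] at h4
    have h6 := kp_sq' (x := x) ⟨hx.1.le, hx1.le⟩
    have e1 : kp x ^ m = kp x ^ (m - 2) * (1 - x ^ 2) := by
      rw [← h6, ← pow_add, Nat.sub_add_cancel hm]
    rw [e1]
    linear_combination (kp x ^ (m - 2)) * h4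
  have key := intervalIntegral.integral_eq_sub_of_hasDerivAt_of_le hs.1 hcont hder
    (ii_kp _ _ _)
  rw [key]
  have h1 : kp (-1) = 0 := by simp [kp]
  rw [h1, zero_pow (by omega), zero_mul, sub_zero]

lemma kp_ph_bound {m : ℕ} (hm : 2 ≤ m) {s : ℝ} (hs : s ∈ Ico (0 : ℝ) 1) :
    |kp s ^ m * ph m 1 s - cI m| ≤ 2 ^ m * √(1 - s) ^ m := by
  have hs' : s ∈ Ico (-1 : ℝ) 1 := ⟨by linarith [hs.1], hs.2⟩
  rw [kp_ph hm hs']
  have h1 : cI m = (∫ x in (-1 : ℝ)..s, kp x ^ (m - 2)) + ∫ x in s..1, kp x ^ (m - 2) := by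
    unfold cI
    rw [intervalIntegral.integral_add_adjacent_intervals (ii_kp _ _ _) (ii_kp _ _ _)]
  have h2 : (∫ x in (-1 : ℝ)..s, kp x ^ (m - 2)) - cI m = -∫ x in s..1, kp x ^ (m - 2) := by
    rw [h1]
    ring
  rw [h2, abs_neg]
  have hr : 0 ≤ √(1 - s) := Real.sqrt_nonneg _
  have hr2 : √(1 - s) ^ 2 = 1 - s := Real.sq_sqrt (by linarith [hs.2])
  have h3 : ∀ x ∈ Icc s 1, kp x ^ (m - 2) ≤ (2 * √(1 - s)) ^ (m - 2) := by
    intro x hx
    refine pow_le_pow_left₀ (kp_nonneg x) ?_ _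
    unfold kp
    rw [Real.sqrt_le_left (by positivity), mul_pow, hr2]
    nlinarith [hx.1, hx.2, hs.1]
  have h4 : 0 ≤ ∫ x in s..1, kp x ^ (m - 2) :=
    intervalIntegral.integral_nonneg hs.2.le fun x _ => pow_nonneg (kp_nonneg x) _
  rw [abs_of_nonneg h4]
  have h5 := intervalIntegral.integral_mono_on hs.2.le (ii_kp (m - 2) s 1)
    intervalIntegrable_const h3
  rw [intervalIntegral.integral_const, smul_eq_mul] at h5
  obtain ⟨m', rfl⟩ : ∃ m', m = m' + 2 := ⟨m - 2, by omega⟩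
  simp only [Nat.add_sub_cancel] at h5 ⊢
  calc _ ≤ (1 - s) * (2 * √(1 - s)) ^ m' := h5
    _ = √(1 - s) ^ 2 * (2 * √(1 - s)) ^ m' := by rw [hr2]
    _ = 2 ^ m' * √(1 - s) ^ (m' + 2) := by rw [mul_pow]; ring
    _ ≤ 2 ^ (m' + 2) * √(1 - s) ^ (m' + 2) := by
        refine mul_le_mul_of_nonneg_right ?_ (by positivity)
        exact pow_le_pow_right₀ (by norm_num) (by omega)

/-- the difference of the critical profiles near the diagonal -/
lemma dif_bound {m : ℕ} (hm : 2 ≤ m) {s : ℝ} (hs : s ∈ Ico (0 : ℝ) 1) :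
    |ph m 1 s - cI m / 2 ^ m * rh (-m) s|
      ≤ (2 ^ m + cI m * m * 2 ^ m) * (√(1 - s) ^ (m - 2))⁻¹ := by
  have hI := cI_pos m
  have hb := kp_ph_bound hm hs
  set r := √(1 - s) with hr
  have hr0 : 0 < r := Real.sqrt_pos.2 (by linarith [hs.2])
  have hr1 : r ≤ 1 := by
    rw [hr, Real.sqrt_le_one]
    linarith [hs.1]
  have hr2 : r ^ 2 = 1 - s := Real.sq_sqrt (by linarith [hs.2])
  set σ := √(1 + s) with hσ
  have hσ1 : 1 ≤ σ := by
    rw [hσ, Real.one_le_sqrt]
    linarith [hs.1]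
  have hσ2 : σ ^ 2 = 1 + s := Real.sq_sqrt (by linarith [hs.1])
  have hq2 : √(2 : ℝ) ^ 2 = 2 := Real.sq_sqrt (by norm_num)
  have hq1 : (1 : ℝ) ≤ √2 := by
    rw [Real.one_le_sqrt]
    norm_num
  have hq3 : √(2 : ℝ) ≤ 2 := by
    rw [Real.sqrt_le_left (by norm_num)]
    norm_num
  have hkp : kp s = r * σ := by
    rw [hr, hσ, ← Real.sqrt_mul (by linarith [hs.2])]
    unfold kp
    congr 1
    ring
  have hrh : rh (-m) s = √2 ^ m * (r ^ m)⁻¹ := by
    unfold rh
    rw [zpow_neg, zpow_natCast, rr_eq, div_pow, inv_div, div_eq_mul_inv]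
  have h22 : (2 : ℝ) ^ m = √2 ^ m * √2 ^ m := by
    rw [← mul_pow, ← sq, hq2]
  -- the identity
  have key : r ^ m * σ ^ m * (ph m 1 s - cI m / 2 ^ m * rh (-m) s)
      = (kp s ^ m * ph m 1 s - cI m) + cI m * ((√2 ^ m - σ ^ m) / √2 ^ m) := by
    rw [hkp, hrh, h22, mul_pow]
    have : √(2 : ℝ) ^ m ≠ 0 := by positivity
    field_simp
    ring
  have hσr : |√2 - σ| ≤ r ^ 2 := by
    have h1 : (√2 - σ) * (√2 + σ) = r ^ 2 := by
      rw [hr2]
      linear_combination hq2 - hσ2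
    have h2 : σ ≤ √2 := by
      rw [hσ]
      exact Real.sqrt_le_sqrt (by linarith [hs.2])
    rw [abs_of_nonneg (by linarith)]
    nlinarith
  have hpw : |√2 ^ m - σ ^ m| ≤ r ^ 2 * m * 2 ^ m := by
    have h1 := abs_pow_sub_pow_le (√2) σ m
    have h2 : σ ≤ √2 := by
      rw [hσ]
      exact Real.sqrt_le_sqrt (by linarith [hs.2])
    have h3 : max |√2| |σ| ≤ 2 := by
      rw [abs_of_nonneg (by positivity), abs_of_nonneg (by positivity), max_eq_left h2]
      exact hq3
    calc _ ≤ |√2 - σ| * m * max |√2| |σ| ^ (m - 1) := h1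
      _ ≤ r ^ 2 * m * 2 ^ (m - 1) := by
        have h4 : (0 : ℝ) ≤ max |√2| |σ| := le_max_of_le_left (abs_nonneg _)
        gcongr
      _ ≤ r ^ 2 * m * 2 ^ m := by
        refine mul_le_mul_of_nonneg_left ?_ (by positivity)
        exact pow_le_pow_right₀ (by norm_num) (by omega)
  have h5 : |(kp s ^ m * ph m 1 s - cI m) + cI m * ((√2 ^ m - σ ^ m) / √2 ^ m)|
      ≤ (2 ^ m + cI m * m * 2 ^ m) * r ^ 2 := by
    have h6 : |cI m * ((√2 ^ m - σ ^ m) / √2 ^ m)| ≤ cI m * (r ^ 2 * m * 2 ^ m) := by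
      rw [abs_mul, abs_of_pos hI, abs_div, abs_of_nonneg (a := √2 ^ m) (by positivity)]
      refine mul_le_mul_of_nonneg_left ?_ hI.le
      refine (div_le_self (abs_nonneg _) (one_le_pow₀ hq1)).trans hpw
    have h7 : r ^ m ≤ r ^ 2 := pow_le_pow_of_le_one hr0.le hr1 hm
    have h8 : (2 : ℝ) ^ m * r ^ m ≤ 2 ^ m * r ^ 2 := mul_le_mul_of_nonneg_left h7 (by positivity)
    refine (abs_add_le _ _).trans ?_
    calc _ ≤ 2 ^ m * r ^ m + cI m * (r ^ 2 * m * 2 ^ m) := add_le_add hb h6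
      _ ≤ 2 ^ m * r ^ 2 + cI m * (r ^ 2 * m * 2 ^ m) := by linarith
      _ = _ := by ring
  rw [← key, abs_mul, abs_of_nonneg (a := r ^ m * σ ^ m) (by positivity)] at h5
  have h9 : 1 ≤ σ ^ m := one_le_pow₀ hσ1
  have h10 : r ^ m * |ph m 1 s - cI m / 2 ^ m * rh (-m) s|
      ≤ (2 ^ m + cI m * m * 2 ^ m) * r ^ 2 := by
    refine le_trans ?_ h5
    refine mul_le_mul_of_nonneg_right ?_ (abs_nonneg _)
    have : 0 < r ^ m := by positivity
    nlinarith
  have h11 : r ^ m = r ^ (m - 2) * r ^ 2 := by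
    rw [← pow_add, Nat.sub_add_cancel hm]
  rw [h11] at h10
  rw [← div_eq_mul_inv, le_div_iff₀ (by positivity)]
  have h12 : (r ^ 2) * (|ph m 1 s - cI m / 2 ^ m * rh (-m) s| * r ^ (m - 2))
      ≤ r ^ 2 * (2 ^ m + cI m * m * 2 ^ m) := by linarith
  exact le_of_mul_le_mul_left h12 (by positivity)

/-- the critical profile and the critical power -/
lemma prof_dif {m : ℕ} (hm : 2 ≤ m) : ∃ Φ, Prof (m - 2) Φ
    (fun s => ph m 1 s - cI m / 2 ^ m * rh (-m) s)
    (fun s => ph' m 1 s - cI m / 2 ^ m * rh' (-m) s) := by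
  have hI := cI_pos m
  set c := cI m / 2 ^ m with hc
  have hc0 : 0 < c := by positivity
  set P : ℝ := m * 2 ^ (3 * m + 8) with hP
  set Q : ℝ := (|((-m : ℤ) : ℝ)| + 1) * 2 ^ (m + 2) with hQ
  set R : ℝ := 2 ^ m + cI m * m * 2 ^ m with hR
  have hP0 : 0 ≤ P := by positivity
  have hQ0 : 0 ≤ Q := by positivity
  have hR0 : 0 ≤ R := by positivity
  have hm0 : (0 : ℝ) ≤ m := Nat.cast_nonneg m
  set Φ : ℝ := P + c * Q + R + (m * R + 1 + c * m * 2 ^ m) with hΦ
  have hpr := prof_rh (e := -m) (b := m) (by simp)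
  refine ⟨Φ, ?_⟩
  have hx : 0 ≤ m * R + 1 + c * m * 2 ^ m := by positivity
  have hy : 0 ≤ P + c * Q := by positivity
  refine ⟨by positivity, ?_, ?_, ?_, ?_, ?_, ?_, ?_, ?_⟩
  · intro s hs
    rw [ph_eq]
    exact (contDiffAt_phG m 0 m hs.2).sub (contDiffAt_const.mul (contDiffAt_rh _ hs.2))
  · intro s hs
    exact (hasDerivAt_ph m hs.2).sub ((hasDerivAt_rh _ hs.2).const_mul c)
  · intro s hs
    exact ((hasDerivAt_ph m hs.2).sub
      ((hasDerivAt_rh (-m) hs.2).const_mul c)).continuousAt.continuousWithinAt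
  · intro s hs
    have h1 : ContinuousAt (ph' m 1) s := by
      rw [ph'_eq]
      exact continuousAt_const.mul (hasDerivAt_phG m 1 (m + 1) hs.2).continuousAt
    exact h1.continuousWithinAt.sub (continuousWithinAt_const.mul (hpr.cont' s hs))
  · exact (measurable_ph m 1).sub ((measurable_rh _).const_mul c)
  · exact (measurable_ph' m 1).sub ((measurable_rh' _).const_mul c)
  · intro s hs
    by_cases h0 : 0 ≤ s
    · have h1 := dif_bound hm ⟨h0, hs.2⟩
      rw [← hR] at h1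
      refine h1.trans (mul_le_mul_of_nonneg_right (by linarith) (by positivity))
    · push Not at h0
      have hr1 : 1 ≤ √(1 - s) := by
        rw [Real.one_le_sqrt]
        linarith
      have h1 := (ph_bound hm (T := 1) ⟨zero_le_one, le_rfl⟩ hs.1 hs.2).1
      have h2 := hpr.bd s hs
      rw [← hP] at h1
      rw [← hQ] at h2
      have h3 : (√(1 - s) ^ m)⁻¹ ≤ (√(1 - s) ^ (m - 2))⁻¹ :=
        inv_anti₀ (by positivity) (pow_le_pow_right₀ hr1 (by omega))
      have h4 := abs_sub (ph m 1 s) (c * rh (-m) s)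
      rw [abs_mul c, abs_of_pos hc0] at h4
      calc _ ≤ |ph m 1 s| + c * |rh (-m) s| := h4
        _ ≤ P * (√(1 - s) ^ m)⁻¹ + c * (Q * (√(1 - s) ^ m)⁻¹) := by
          have := mul_le_mul_of_nonneg_left h2 hc0.le
          linarith
        _ = (P + c * Q) * (√(1 - s) ^ m)⁻¹ := by ring
        _ ≤ (P + c * Q) * (√(1 - s) ^ (m - 2))⁻¹ := mul_le_mul_of_nonneg_left h3 hy
        _ ≤ Φ * (√(1 - s) ^ (m - 2))⁻¹ :=
          mul_le_mul_of_nonneg_right (by linarith) (by positivity)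
  · intro s hs
    rw [Nat.sub_add_cancel hm]
    by_cases h0 : 0 ≤ s
    · have h1 := dif_bound hm ⟨h0, hs.2⟩
      rw [← hR] at h1
      have hode := ph_ode hm (T := 1) ⟨zero_le_one, le_rfl⟩ hs.1 hs.2
      have h5 : cv m 1 s = 0 := by
        unfold cv
        rw [show kp 1 = 0 by simp [kp], zero_pow (by omega), zero_mul]
      rw [h5, sub_zero] at hode
      have hrr := rr_pos hs.2
      have hrr2 := rr_sq hs.2
      have hode2 : (1 - s ^ 2) * rh' (-m) s - m * s * rh (-m) s = m * rh (2 - m) s := by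
        unfold rh' rh
        have e1 : rr s ^ (-(m : ℤ)) = rr s ^ (-(m : ℤ) - 2) * rr s ^ 2 := by
          rw [← zpow_natCast, ← zpow_add₀ hrr.ne']
          congr 1
          push_cast
          ring
        have e2 : rr s ^ (2 - (m : ℤ)) = rr s ^ (-(m : ℤ) - 2) * (rr s ^ 2) ^ 2 := by
          rw [← pow_mul, ← zpow_natCast, ← zpow_add₀ hrr.ne']
          congr 1
          push_cast
          ring
        rw [e1, e2, hrr2]
        push_cast
        ring
      set d := ph m 1 s - c * rh (-m) s with hd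
      set d' := ph' m 1 s - c * rh' (-m) s with hd'
      have h6 : (1 - s ^ 2) * d' = m * s * d + 1 - c * m * rh (2 - m) s := by
        rw [hd, hd']
        linear_combination hode - c * hode2
      have h7 := rh_le (e := 2 - m) (b := m - 2) (by omega) hs
      have h8 := rh_nonneg (2 - m) s
      set r := √(1 - s) with hr
      have hr0 : 0 < r := Real.sqrt_pos.2 (by linarith [hs.2])
      have hr1 : r ≤ 1 := by
        rw [hr, Real.sqrt_le_one]
        linarith
      have hr2 : r ^ 2 = 1 - s := Real.sq_sqrt (by linarith [hs.2])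
      have h9 : 1 ≤ (r ^ (m - 2))⁻¹ := (one_le_inv₀ (by positivity)).2 (pow_le_one₀ hr0.le hr1)
      have h10 : |(1 - s ^ 2) * d'| ≤ (m * R + 1 + c * m * 2 ^ m) * (r ^ (m - 2))⁻¹ := by
        rw [h6]
        have a1 : |m * s * d| ≤ m * (R * (r ^ (m - 2))⁻¹) := by
          rw [abs_mul, abs_mul, Nat.abs_cast, abs_of_nonneg h0]
          calc (m : ℝ) * s * |d| ≤ m * 1 * (R * (r ^ (m - 2))⁻¹) := by
                refine mul_le_mul ?_ h1 (abs_nonneg _) (by positivity)
                exact mul_le_mul_of_nonneg_left hs.2.le hm0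
            _ = _ := by ring
        have a2 : |c * m * rh (2 - m) s| ≤ c * m * (2 ^ m * (r ^ (m - 2))⁻¹) := by
          rw [abs_mul, abs_of_nonneg (a := c * m) (by positivity), abs_of_nonneg h8]
          refine mul_le_mul_of_nonneg_left (h7.trans ?_) (by positivity)
          refine mul_le_mul_of_nonneg_right ?_ (by positivity)
          exact pow_le_pow_right₀ (by norm_num) (by omega)
        have a3 := abs_sub (m * s * d + 1) (c * m * rh (2 - m) s)
        have a4 := abs_add_le (m * s * d) 1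
        rw [abs_one] at a4
        linarith
      have h11 : r ^ 2 ≤ 1 - s ^ 2 := by
        rw [hr2]
        nlinarith [hs.2]
      have h12 : r ^ 2 * |d'| ≤ (m * R + 1 + c * m * 2 ^ m) * (r ^ (m - 2))⁻¹ := by
        rw [abs_mul, abs_of_nonneg (a := 1 - s ^ 2) (by nlinarith [hs.2])] at h10
        exact (mul_le_mul_of_nonneg_right h11 (abs_nonneg _)).trans h10
      have h13 : (r ^ (m - 2))⁻¹ = r ^ 2 * (r ^ m)⁻¹ := by
        have : r ^ m = r ^ (m - 2) * r ^ 2 := by rw [← pow_add, Nat.sub_add_cancel hm]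
        rw [this]
        field_simp
      rw [h13] at h12
      have h14 : r ^ 2 * |d'| ≤ r ^ 2 * ((m * R + 1 + c * m * 2 ^ m) * (r ^ m)⁻¹) := by
        linarith
      refine (le_of_mul_le_mul_left h14 (by positivity)).trans ?_
      exact mul_le_mul_of_nonneg_right (by linarith) (by positivity)
    · push Not at h0
      have hr1 : 1 ≤ √(1 - s) := by
        rw [Real.one_le_sqrt]
        linarith
      have h1 := (ph_bound hm (T := 1) ⟨zero_le_one, le_rfl⟩ hs.1 hs.2).2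
      have h2 := hpr.bd' s hs
      rw [← hP] at h1
      rw [← hQ] at h2
      have h3 : (√(1 - s) ^ (m + 2))⁻¹ ≤ (√(1 - s) ^ m)⁻¹ :=
        inv_anti₀ (by positivity) (pow_le_pow_right₀ hr1 (by omega))
      have h4 := abs_sub (ph' m 1 s) (c * rh' (-m) s)
      rw [abs_mul c, abs_of_pos hc0] at h4
      calc _ ≤ |ph' m 1 s| + c * |rh' (-m) s| := h4
        _ ≤ P * (√(1 - s) ^ (m + 2))⁻¹ + c * (Q * (√(1 - s) ^ (m + 2))⁻¹) := by
          have := mul_le_mul_of_nonneg_left h2 hc0.le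
          linarith
        _ = (P + c * Q) * (√(1 - s) ^ (m + 2))⁻¹ := by ring
        _ ≤ (P + c * Q) * (√(1 - s) ^ m)⁻¹ := mul_le_mul_of_nonneg_left h3 hy
        _ ≤ Φ * (√(1 - s) ^ m)⁻¹ :=
          mul_le_mul_of_nonneg_right (by linarith) (by positivity)

/-! ### the constants -/

lemma cI_two : cI 2 = 2 := by
  unfold cI
  simp
  norm_num

lemma cI_three : cI 3 = Real.pi / 2 := by
  unfold cI kp
  simp only [Nat.reduceSub, pow_one]
  exact integral_sqrt_one_sub_sq

lemma cI_rec {m : ℕ} (hm : 2 ≤ m) : (m + 1) * cI (m + 2) = m * cI m := by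
  have hcont : ContinuousOn (fun x => x * kp x ^ m) (Icc (-1) 1) :=
    (continuous_id.mul (continuous_kp.pow m)).continuousOn
  have hder : ∀ x ∈ Ioo (-1 : ℝ) 1,
      HasDerivAt (fun x => x * kp x ^ m) ((m + 1) * kp x ^ m - m * kp x ^ (m - 2)) x := by
    intro x hx
    have h2 := (hasDerivAt_id x).fun_mul (hasDerivAt_kp_pow2 hm hx)
    refine h2.congr_deriv ?_
    have h6 := kp_sq' (x := x) ⟨hx.1.le, hx.2.le⟩
    have e1 : kp x ^ m = kp x ^ (m - 2) * (1 - x ^ 2) := by
      rw [← h6, ← pow_add, Nat.sub_add_cancel hm]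
    simp only [id]
    rw [e1]
    ring
  have hii1 := (ii_kp m (-1) 1).const_mul (m + 1 : ℝ)
  have hii2 := (ii_kp (m - 2) (-1) 1).const_mul (m : ℝ)
  have key := intervalIntegral.integral_eq_sub_of_hasDerivAt_of_le (by norm_num) hcont hder
    (hii1.sub hii2)
  rw [intervalIntegral.integral_sub hii1 hii2, intervalIntegral.integral_const_mul,
    intervalIntegral.integral_const_mul] at key
  have h1 : kp 1 = 0 := by simp [kp]
  have h2 : kp (-1) = 0 := by simp [kp]
  rw [h1, h2, zero_pow (by omega), mul_zero, mul_zero, sub_zero] at key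
  unfold cI
  rw [Nat.add_sub_cancel]
  linarith

/-- the constant of the critical rows -/
noncomputable def KH (m : ℕ) : ℝ := 2 ^ m / cI m

lemma KH_pos (m : ℕ) : 0 < KH m := by
  have := cI_pos m
  unfold KH
  positivity

lemma KH_rec {m : ℕ} (hm : 2 ≤ m) : KH (m + 2) = 4 * (m + 1) / m * KH m := by
  have h1 := cI_rec hm
  have h2 := cI_pos m
  have h3 := cI_pos (m + 2)
  have hm0 : (0 : ℝ) < m := by exact_mod_cast (by omega : 0 < m)
  unfold KH
  have h4 : cI (m + 2) = m / (m + 1) * cI m := by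
    field_simp
    linarith
  rw [h4, pow_add]
  field_simp
  norm_num

lemma KH_two : KH 2 = 2 := by
  unfold KH
  rw [cI_two]
  norm_num

lemma KH_three : KH 3 = 16 / Real.pi := by
  unfold KH
  rw [cI_three]
  have := Real.pi_pos
  field_simp
  norm_num

lemma KH_four : KH 4 = 12 := by
  have := KH_rec (m := 2) le_rfl
  rw [KH_two] at this
  norm_num at this
  exact this

lemma KH_five : KH 5 = 256 / (3 * Real.pi) := by
  have := KH_rec (m := 3) (by norm_num)
  rw [KH_three] at this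
  norm_num at this
  rw [this]
  have := Real.pi_pos
  field_simp
  norm_num

lemma KH_six : KH 6 = 60 := by
  have := KH_rec (m := 4) (by norm_num)
  rw [KH_four] at this
  norm_num at this
  exact this

lemma KH_seven : KH 7 = 2048 / (5 * Real.pi) := by
  have := KH_rec (m := 5) (by norm_num)
  rw [KH_five] at this
  norm_num at this
  rw [this]
  have := Real.pi_pos
  field_simp
  norm_num

end Vale.Agent.P224.UE
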