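import Vale.Agent.P224.UE.Tail

/-!
The law obtained from a static certificate and the tail of the flow.
-/

namespace Vale.Agent.P224.UE

open Matrix MeasureTheory Module Function Set Filter Vale.Agent.P224 Vale.Agent.P224.FV
open Vale.Agent.P224.SM2 hiding ker
open scoped RealInnerProductSpace Topology ContDiff Manifold

set_option linter.unusedSectionVars false
set_option linter.unusedSimpArgs false

/-- the row for a function `φ (s) t ^ i x1 ^ j` -/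
noncomputable def rG (k : Fin 6) (m : ℝ) (φ φ' : ℝ → ℝ) (i j : ℕ) (d : R9) : ℝ :=
  rowE k m (d 0) (d 1) (d 2) (d 3) (d 4) (d 5) (d 6) (d 7) (d 8)
    (d 6 ^ j * (d 1 ^ i * φ (d 0)))
    (d 6 ^ j * (d 1 ^ i * φ' (d 0)))
    (d 6 ^ j * (i * d 1 ^ (i - 1) * φ (d 0)))
    (j * d 6 ^ (j - 1) * (d 1 ^ i * φ (d 0)))

section

variable {X : Type*} [MeasurableSpace X] {E : Type*} [NormedAddCommGroup E]
  [InnerProductSpace ℝ E] [MeasurableSpace E] [BorelSpace E] [SecondCountableTopology E]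

/-- the data of the two point method with a fixed vector and general functions of `s` -/
structure TwoG (μ : Measure X) (m : ℕ) (p n : X → E) : Prop extends TwoE μ m p n where
  rowG : ∀ (z : X) (e : E) (φ φ' : ℝ → ℝ),
    (∀ s ∈ Icc (-1 : ℝ) 1, ContDiffAt ℝ ∞ φ s ∧ HasDerivAt φ (φ' s) s) →
    ∀ (k : Fin 6) (i j : ℕ), ∫ x, rG k m φ φ' i j (dat p n e (x, z)) ∂μ = 0

variable {μ : Measure X} [IsFiniteMeasure μ] {m : ℕ} {p n : X → E}

lemma measurable_rG (k : Fin 6) (m : ℝ) {φ φ' : ℝ → ℝ} (hφ : Measurable φ) (hφ' : Measurable φ')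
    (i j : ℕ) : Measurable (rG k m φ φ' i j) := by
  unfold rG rowE
  fin_cases k <;> simp only <;> fun_prop

lemma contOn_rG (k : Fin 6) (m : ℝ) {φ φ' : ℝ → ℝ} (hφ : ContinuousOn φ (Icc (-1) 1))
    (hφ' : ContinuousOn φ' (Icc (-1) 1)) (i j : ℕ) (B : ℝ) :
    ContinuousOn (rG k m φ φ' i j) (KE B) := by
  have h1 : ContinuousOn (fun d : R9 => φ (d 0)) (KE B) :=
    hφ.comp (continuous_apply 0).continuousOn fun d hd => hd.2
  have h2 : ContinuousOn (fun d : R9 => φ' (d 0)) (KE B) :=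
    hφ'.comp (continuous_apply 0).continuousOn fun d hd => hd.2
  unfold rG rowE
  fin_cases k <;> simp only <;> fun_prop

/-- the general rows with weights depending on the second point -/
theorem TwoG.null_G (h : TwoG μ m p n) (e : E) {φ φ' : ℝ → ℝ}
    (hd : ∀ s ∈ Icc (-1 : ℝ) 1, ContDiffAt ℝ ∞ φ s ∧ HasDerivAt φ (φ' s) s)
    (hφ : Measurable φ) (hφ' : Measurable φ') (hc' : ContinuousOn φ' (Icc (-1) 1))
    (k : Fin 6) (i j : ℕ) {w : ℝ → ℝ → ℝ} (hw : Continuous (uncurry w)) :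
    Null μ p n e (fun d => w (d 5) (d 7) * rG k m φ φ' i j d) := by
  have hc : ContinuousOn φ (Icc (-1) 1) := fun s hs => (hd s hs).2.continuousAt.continuousWithinAt
  have hwc := cont_psi hw
  have hint : Integrable (fun q' => w (dat p n e q' 5) (dat p n e q' 7)
      * rG k m φ φ' i j (dat p n e q')) (μ.prod μ) :=
    integrable_param (μ.prod μ) (measurable_dat h.toPts e) (isCompact_KE (bE e))
      (dat_mem h.toPts e) (f := fun d => w (d 5) (d 7) * rG k m φ φ' i j d)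
      (hwc.measurable.mul (measurable_rG k m hφ hφ' i j))
      (hwc.continuousOn.mul (contOn_rG k m hc hc' i j _))
  refine ⟨hint, ?_⟩
  rw [integral_prod_symm _ hint]
  have hz : ∀ z, ∫ x, w (dat p n e (x, z) 5) (dat p n e (x, z) 7)
      * rG k m φ φ' i j (dat p n e (x, z)) ∂μ = 0 := by
    intro z
    have e1 : ∀ x, w (dat p n e (x, z) 5) (dat p n e (x, z) 7) = w ⟪n z, e⟫ ⟪p z, e⟫ := by
      intro x
      rfl
    simp only [e1]
    rw [integral_const_mul, h.rowG z e φ φ' hd k i j, mul_zero]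
  simp only [hz, integral_zero]

/-- the function `s ^ a (1 - T s)⁻ᵠ` -/
noncomputable def sk (T : ℝ) (a q : ℕ) (s : ℝ) : ℝ := s ^ a * SM2.ker T q s

noncomputable def sk' (T : ℝ) (a q : ℕ) (s : ℝ) : ℝ :=
  a * s ^ (a - 1) * SM2.ker T q s + s ^ a * (q * T * SM2.ker T (q + 1) s)

/-- the rows for `s ^ a (1 - T s)⁻ᵠ` -/
theorem TwoG.null_sk (h : TwoG μ m p n) (e : E) {T : ℝ} (hT : T ∈ Ico (0 : ℝ) 1) (a q : ℕ)
    (k : Fin 6) (i j : ℕ) {w : ℝ → ℝ → ℝ} (hw : Continuous (uncurry w)) :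
    Null μ p n e (fun d => w (d 5) (d 7) * rG k m (sk T a q) (sk' T a q) i j d) := by
  have h1 := measurable_ker T q
  have h2 := measurable_ker T (q + 1)
  have hc : ∀ q, ContinuousOn (SM2.ker T q) (Icc (-1) 1) := by
    intro q s hs
    unfold SM2.ker
    refine ContinuousAt.continuousWithinAt (ContinuousAt.inv₀ (by fun_prop) ?_)
    exact pow_ne_zero _ (one_sub_pos' hT hs.2).ne'
  refine h.null_G e (fun s hs => ⟨?_, ?_⟩) ?_ ?_ ?_ k i j hw
  · exact (contDiffAt_id.pow a).mul (contDiffAt_ker (one_sub_pos' hT hs.2).ne')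
  · exact (hasDerivAt_pow a s).mul (hasDerivAt_ker (one_sub_pos' hT hs.2).ne')
  · unfold sk; fun_prop
  · unfold sk'; fun_prop
  · have := hc q
    have := hc (q + 1)
    unfold sk'
    fun_prop

lemma TwoE.conf (h : TwoE μ m p n) (hm : 0 < m) : ConfRow μ m p n := by
  intro z T hT
  have h1 := h.row z 0 T hT 0 m 0 0
  have hm' : (m : ℝ) ≠ 0 := by exact_mod_cast hm.ne'
  have e1 : ∀ x, rT 0 m T m 0 0 (dat p n 0 (x, z)) = (-(m : ℝ)) * (SM2.ker T (m + 1) ⟪p x, p z⟫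
      * (⟪p x, p z⟫ - T + T * ⟪n x, p z⟫ ^ 2)) := by
    intro x
    have hs : dat p n 0 (x, z) 0 ∈ Icc (-1 : ℝ) 1 := (dat_mem h.toPts 0 (x, z)).2
    rw [rT0_eq (one_sub_pos' ⟨hT.1.le, hT.2⟩ hs.2).ne']
    change (m : ℝ) * SM2.ker T (m + 1) ⟪p x, p z⟫ * (T - ⟪p x, p z⟫ - T * ⟪n x, p z⟫ ^ 2) = _
    ring
  simp only [e1] at h1
  rw [integral_const_mul] at h1
  rcases mul_eq_zero.1 h1 with h2 | h2
  · exact absurd (neg_eq_zero.1 h2) hm'
  · exact h2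

end

section

variable {V W M : Type*} [NormedAddCommGroup V] [InnerProductSpace ℝ V] [FiniteDimensional ℝ V]
  [NormedAddCommGroup W] [InnerProductSpace ℝ W] [FiniteDimensional ℝ W]
  [TopologicalSpace M] [ChartedSpace V M]
  [MeasurableSpace V] [BorelSpace V] [MeasurableSpace M] [BorelSpace M]
  [IsManifold 𝓘(ℝ, V) ∞ M] [CompactSpace M] [T2Space M]

/-- the general function -/
lemma kernel_dataG {F : M → W} (hF : SphImm V F) (N : M → W)
    (z : M) (e : W) {φ φ' : ℝ → ℝ}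
    (hφ : ∀ s ∈ Icc (-1 : ℝ) 1, ContDiffAt ℝ ∞ φ s ∧ HasDerivAt φ (φ' s) s) (i j : ℕ) :
    ContMDiff 𝓘(ℝ, V) 𝓘(ℝ, ℝ) ∞
      (fun x => ⟪F x, e⟫ ^ j * (⟪F x, N z⟫ ^ i * φ ⟪F x, F z⟫)) ∧
    ∀ a x, dl V F a (fun x => ⟪F x, e⟫ ^ j * (⟪F x, N z⟫ ^ i * φ ⟪F x, F z⟫)) x
      = (⟪F x, e⟫ ^ j * (⟪F x, N z⟫ ^ i * φ' ⟪F x, F z⟫))
          * dl V F a (fun q => ⟪F q, F z⟫) x
      + (⟪F x, e⟫ ^ j * (i * ⟪F x, N z⟫ ^ (i - 1) * φ ⟪F x, F z⟫))
          * dl V F a (fun q => ⟪F q, N z⟫) x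
      + (j * ⟪F x, e⟫ ^ (j - 1) * (⟪F x, N z⟫ ^ i * φ ⟪F x, F z⟫))
          * dl V F a (fun q => ⟪F q, e⟫) x := by
  have hsm : ∀ x, ⟪F x, F z⟫ ∈ Icc (-1 : ℝ) 1 := fun x => abs_le.1 (abs_FF_le hF x z)
  have hs := smooth_inner hF.smooth (F z)
  have ht := smooth_inner hF.smooth (N z)
  have he := smooth_inner hF.smooth e
  have h1 := smooth_comp hs (w := φ) (fun x => (hφ _ (hsm x)).1)
  have h2 := smooth_comp ht (w := fun u => u ^ i) (fun x => contDiffAt_id.pow i)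
  have h3 := smooth_comp he (w := fun u => u ^ j) (fun x => contDiffAt_id.pow j)
  have h21 : ContMDiff 𝓘(ℝ, V) 𝓘(ℝ, ℝ) ∞ (fun x => ⟪F x, N z⟫ ^ i * φ ⟪F x, F z⟫) :=
    h2.mul h1
  refine ⟨h3.mul h21, ?_⟩
  intro a x
  rw [dl_mul a h3 h21, dl_mul a h2 h1, dl_comp a hs x (hφ _ (hsm x)).2,
    dl_comp (w := fun u => u ^ i) a ht x (hasDerivAt_pow i _),
    dl_comp (w := fun u => u ^ j) a he x (hasDerivAt_pow j _)]
  ring

/-- the data of a minimal immersion with a normal field -/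
theorem twoG_of_min [MeasurableSpace W] [BorelSpace W] (hW : finrank ℝ W = finrank ℝ V + 2)
    {F : M → W}
    (hF : SphImm V F) (hmin : ∀ x n, IsUnitNormal V F x n → meanCurv V F x n = 0)
    {N : M → W} (hNs : ContMDiff 𝓘(ℝ, V) 𝓘(ℝ, W) ∞ N) (hN : ∀ x, IsUnitNormal V F x (N x)) :
    TwoG (volM V F) (finrank ℝ V) F N :=
  { twoE_of_min hW hF hmin hNs hN with
    rowG := by
      intro z e φ φ' hφ k i j
      obtain ⟨h1, h2⟩ := kernel_dataG hF N z e hφ i j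
      exact row_E hW hF hmin hNs hN z e h1 h2 k }

/-- the value of the tail functional in the limit is a lower bound -/
theorem tail_law [MeasurableSpace W] [BorelSpace W] (hm : 0 < finrank ℝ V)
    (hW : finrank ℝ W = finrank ℝ V + 2)
    {F : M → W} (hF : SphImm V F) (hmin : ∀ x n, IsUnitNormal V F x n → meanCurv V F x n = 0)
    {N : M → W} (hNs : ContMDiff 𝓘(ℝ, V) 𝓘(ℝ, W) ∞ N) (hN : ∀ x, IsUnitNormal V F x (N x))
    (hinj : Injective F) (e : W) {β χ T₁ : ℝ} (hT₁ : T₁ ∈ Ico (0 : ℝ) 1)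
    (hβ0 : 0 ≤ β) (hβ : β ≤ T₁) (hχ0 : 0 ≤ χ)
    (hχ : ∀ N w : W, ‖N‖ = 1 → ‖w‖ = 1 →
      ⟪N - w, e⟫ ^ 2 ≤ 2 * χ * ‖e‖ ^ 2 * (‖N - e‖ ^ 2 + ‖w - e‖ ^ 2))
    {ψ : ℝ → ℝ → ℝ} (hψ : Continuous (uncurry ψ)) (hψ0 : ∀ a b, 0 ≤ ψ a b) :
    sphereVol (finrank ℝ V) * ∫ y, ((1 + β) * ‖N y - e‖ ^ 2 + χ * ‖e‖ ^ 2 * (1 - β)
        + ψ ⟪N y, e⟫ ⟪F y, e⟫) ∂(volM V F)
      ≤ ∫ q, cv (finrank ℝ V) T₁ (dat F N e q 0) * tw β χ ψ (dat F N e q)
        ∂((volM V F).prod (volM V F)) := by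
  have hfin : IsFiniteMeasure (volM V F) := isFiniteMeasure_volM hF
  have h2 := twoE_of_min hW hF hmin hNs hN
  have hcF : Continuous F := hF.smooth.continuous
  have hcN : Continuous N := hNs.continuous
  have htail := h2.tail e hT₁ hβ0 hβ hχ0 hχ hψ hψ0
  have hdc : Continuous (dat F N e) := by
    refine continuous_pi fun i => ?_
    have f1 : Continuous (fun q : M × M => F q.1) := hcF.comp continuous_fst
    have f2 : Continuous (fun q : M × M => F q.2) := hcF.comp continuous_snd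
    have n1 : Continuous (fun q : M × M => N q.1) := hcN.comp continuous_fst
    have n2 : Continuous (fun q : M × M => N q.2) := hcN.comp continuous_snd
    fin_cases i
    · exact f1.inner f2
    · exact f1.inner n2
    · exact n1.inner f2
    · exact n1.inner n2
    · exact n1.inner continuous_const
    · exact n2.inner continuous_const
    · exact f1.inner continuous_const
    · exact f2.inner continuous_const
    · exact continuous_const
  have htw := cont_tw β χ hψ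
  have hlim := two_point_tendsto_inj hm hW hF hinj hcN.measurable (fun x => (hN x).1)
    (h2.conf hm) (Q := fun q => tw β χ ψ (dat F N e q)) (htw.comp hdc)
    (htw.measurable.comp (measurable_dat h2.toPts e))
  have hdiag : ∀ y, tw β χ ψ (dat F N e (y, y)) = (1 + β) * ‖N y - e‖ ^ 2
      + χ * ‖e‖ ^ 2 * (1 - β) + ψ ⟪N y, e⟫ ⟪F y, e⟫ := by
    intro y
    have hnn : ⟪N y, N y⟫ = 1 := by rw [real_inner_self_eq_norm_sq, (hN y).1]; norm_num
    have hee : ⟪e, e⟫ = ‖e‖ ^ 2 := real_inner_self_eq_norm_sq e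
    have hx : ‖N y - e‖ ^ 2 = 1 + ‖e‖ ^ 2 - 2 * ⟪N y, e⟫ := by
      rw [norm_sub_sq_real, (hN y).1]
      ring
    change (1 + β * ⟪N y, N y⟫) * (1 + ⟪e, e⟫ - 2 * ⟪N y, e⟫)
      + χ * ⟪e, e⟫ * (1 - β * ⟪N y, N y⟫) + ψ ⟪N y, e⟫ ⟪F y, e⟫ = _
    rw [hnn, hee, hx]
    ring
  simp only [hdiag] at hlim
  refine le_of_tendsto hlim ?_
  have h0 : ∀ᶠ T in 𝓝[<] (1 : ℝ), T ∈ Ioo T₁ 1 := Ioo_mem_nhdsLT hT₁.2
  filter_upwards [h0] with T hT
  have h3 := htail ⟨le_rfl, hT₁.2⟩ ⟨hT.1.le, hT.2⟩ hT.1.le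
  refine le_trans (le_of_eq ?_) h3
  refine integral_congr_ae (Eventually.of_forall fun q => ?_)
  change tw β χ ψ (dat F N e q) * cv (finrank ℝ V) T (dat F N e q 0) = _
  ring

/-- a static certificate gives a law -/
theorem static_law [MeasurableSpace W] [BorelSpace W] (hm : 0 < finrank ℝ V)
    (hW : finrank ℝ W = finrank ℝ V + 2)
    {F : M → W} (hF : SphImm V F) (hmin : ∀ x n, IsUnitNormal V F x n → meanCurv V F x n = 0)
    {N : M → W} (hNs : ContMDiff 𝓘(ℝ, V) 𝓘(ℝ, W) ∞ N) (hN : ∀ x, IsUnitNormal V F x (N x))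
    (hinj : Injective F) (e : W) {α β χ T₁ : ℝ} (hT₁ : T₁ ∈ Ico (0 : ℝ) 1) (hα : 0 ≤ α)
    (hβ0 : 0 ≤ β) (hβ : β ≤ T₁) (hχ0 : 0 ≤ χ)
    (hχ : ∀ N w : W, ‖N‖ = 1 → ‖w‖ = 1 →
      ⟪N - w, e⟫ ^ 2 ≤ 2 * χ * ‖e‖ ^ 2 * (‖N - e‖ ^ 2 + ‖w - e‖ ^ 2))
    {ψ : ℝ → ℝ → ℝ} (hψ : Continuous (uncurry ψ)) (hψ0 : ∀ a b, 0 ≤ ψ a b)
    {W₀ R : R9 → ℝ} (hW₀ : Continuous W₀) (hR : Null (volM V F) F N e R)
    (hpos : ∀ x N y w : W, ‖x‖ = 1 → ‖N‖ = 1 → ‖y‖ = 1 → ‖w‖ = 1 → ⟪x, N⟫ = 0 → ⟪y, w⟫ = 0 →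
      α * (cv (finrank ℝ V) T₁ ⟪x, y⟫ * tw β χ ψ (dv x N y w e)) + R (dv x N y w e)
        ≤ W₀ (dv x N y w e)) :
    α * (sphereVol (finrank ℝ V) * ∫ y, ((1 + β) * ‖N y - e‖ ^ 2 + χ * ‖e‖ ^ 2 * (1 - β)
        + ψ ⟪N y, e⟫ ⟪F y, e⟫) ∂(volM V F))
      ≤ ∫ q, W₀ (dat F N e q) ∂((volM V F).prod (volM V F)) := by
  have hfin : IsFiniteMeasure (volM V F) := isFiniteMeasure_volM hF
  have h2 := twoE_of_min hW hF hmin hNs hN
  have hl := tail_law hm hW hF hmin hNs hN hinj e hT₁ hβ0 hβ hχ0 hχ hψ hψ0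
  refine (mul_le_mul_of_nonneg_left hl hα).trans ?_
  have htw := cont_tw β χ hψ
  have hi1 : Integrable (fun q => cv (finrank ℝ V) T₁ (dat F N e q 0) * tw β χ ψ (dat F N e q))
      ((volM V F).prod (volM V F)) := by
    refine integrable_param _ (measurable_dat h2.toPts e) (isCompact_KE (bE e))
      (dat_mem h2.toPts e) (f := fun d => cv (finrank ℝ V) T₁ (d 0) * tw β χ ψ d)
      (((measurable_cv _ T₁).comp (measurable_pi_apply 0)).mul htw.measurable) ?_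
    have h1 := contOn_kerE hT₁ (finrank ℝ V) (bE e)
    unfold cv
    exact (continuousOn_const.mul h1).mul htw.continuousOn
  have hi2 : Integrable (fun q => W₀ (dat F N e q)) ((volM V F).prod (volM V F)) :=
    integrable_param _ (measurable_dat h2.toPts e) (isCompact_KE (bE e))
      (dat_mem h2.toPts e) hW₀.measurable hW₀.continuousOn
  rw [← integral_const_mul]
  have e1 : ∫ q, α * (cv (finrank ℝ V) T₁ (dat F N e q 0) * tw β χ ψ (dat F N e q))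
        ∂((volM V F).prod (volM V F))
      = ∫ q, (α * (cv (finrank ℝ V) T₁ (dat F N e q 0) * tw β χ ψ (dat F N e q))
        + R (dat F N e q)) ∂((volM V F).prod (volM V F)) := by
    rw [integral_add (hi1.const_mul α) hR.1, hR.2, add_zero]
  rw [e1]
  refine integral_mono ((hi1.const_mul α).add hR.1) hi2 fun q => ?_
  exact hpos _ _ _ _ (hF.unit _) (hN _).1 (hF.unit _) (hN _).1 (hN _).2.1 (hN _).2.1

end

end Vale.Agent.P224.UE
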