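import Vale.Agent.P224.Bdl.B2

/-!
Near pairs of points of an embedded closed hypersurface: the inner product of the normal at one
point with the other point, and the change of the normal, are controlled by the distance.
-/

namespace Vale.Agent.P224.UE

open MeasureTheory Filter Set Function Module Vale.Agent.P224
open scoped RealInnerProductSpace ContDiff ENNReal Manifold Topology NNReal

section

variable {V W : Type*} [NormedAddCommGroup V] [InnerProductSpace ℝ V] [FiniteDimensional ℝ V]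
  [NormedAddCommGroup W] [InnerProductSpace ℝ W] [FiniteDimensional ℝ W]

/-- an immersion is locally expanding -/
lemma exists_expanding {f : V → W} {u₀ : V} (hf : ContDiffAt ℝ 1 f u₀)
    (hinj : Injective (fderiv ℝ f u₀)) :
    ∃ K : ℝ, 0 < K ∧ ∃ s ∈ 𝓝 u₀, ∀ x ∈ s, ∀ y ∈ s, ‖x - y‖ ≤ K * ‖f x - f y‖ := by
  have hs := hf.hasStrictFDerivAt one_ne_zero
  obtain ⟨K, K0, hK⟩ := (fderiv ℝ f u₀).toLinearMap.exists_antilipschitzWith
    (LinearMap.ker_eq_bot.2 hinj)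
  have hc : (0 : ℝ≥0) < (2 * K)⁻¹ := by positivity
  obtain ⟨s, hsn, happ⟩ := hs.approximates_deriv_on_nhds (Or.inr hc)
  refine ⟨2 * K, by positivity, s, hsn, fun x hx y hy => ?_⟩
  have h1 := happ x hx y hy
  have h2 : ‖x - y‖ ≤ K * ‖fderiv ℝ f u₀ (x - y)‖ := by
    have h3 := hK.le_mul_dist x y
    rw [dist_eq_norm, dist_eq_norm] at h3
    have h4 : (fderiv ℝ f u₀).toLinearMap x - (fderiv ℝ f u₀).toLinearMap y
        = fderiv ℝ f u₀ (x - y) := (map_sub (fderiv ℝ f u₀) x y).symm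
    rwa [h4] at h3
  have h5 : ‖fderiv ℝ f u₀ (x - y)‖ ≤ ‖f x - f y‖ + ‖f x - f y - fderiv ℝ f u₀ (x - y)‖ := by
    have := norm_sub_le (f x - f y) (f x - f y - fderiv ℝ f u₀ (x - y))
    rwa [sub_sub_cancel] at this
  have hK0 : (0 : ℝ) < K := by exact_mod_cast K0
  have h6 : (((2 * K)⁻¹ : ℝ≥0) : ℝ) = (2 * (K : ℝ))⁻¹ := by push_cast; rfl
  rw [h6] at h1
  have h7 : (K : ℝ) * ((2 * (K : ℝ))⁻¹ * ‖x - y‖) = ‖x - y‖ / 2 := by
    field_simp
  have h8 := mul_le_mul_of_nonneg_left (h5.trans (add_le_add_right h1 ‖f x - f y‖)) hK0.le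
  rw [mul_add, h7] at h8
  nlinarith [h2, h8]

/-- The local estimate. -/
lemma exists_near_local {f n : V → W} {T : Set V} (hT : IsOpen T) (hf : ContDiffOn ℝ ∞ f T)
    (hinj : ∀ u ∈ T, Injective (fderiv ℝ f u)) (hn : ContDiffOn ℝ ∞ n T)
    (h0 : ∀ u ∈ T, ⟪n u, f u⟫ = 0) (h1 : ∀ u ∈ T, ∀ w, ⟪n u, fderiv ℝ f u w⟫ = 0)
    {u₀ : V} (hu : u₀ ∈ T) :
    ∃ C : ℝ, 0 ≤ C ∧ ∃ s ∈ 𝓝 u₀, ∀ x ∈ s, ∀ y ∈ s,
      |⟪n x, f y⟫| ≤ C * ‖f x - f y‖ ^ 2 ∧ ‖n x - n y‖ ^ 2 ≤ C * ‖f x - f y‖ ^ 2 := by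
  have hTn : T ∈ 𝓝 u₀ := hT.mem_nhds hu
  have hf1 : ContDiffAt ℝ 1 f u₀ := (hf.contDiffAt hTn).of_le (by norm_num)
  have hn1 : ContDiffAt ℝ 1 n u₀ := (hn.contDiffAt hTn).of_le (by norm_num)
  obtain ⟨K, K0, s, hs, hexp⟩ := exists_expanding hf1 (hinj u₀ hu)
  obtain ⟨L, t, ht, hlip⟩ := hn1.exists_lipschitzOnWith
  -- the derivative is bounded nearby
  have hcont : ContinuousAt (fun u => ‖fderiv ℝ f u‖) u₀ := by
    have h2 : ContinuousOn (fderiv ℝ f) T := hf.continuousOn_fderiv_of_isOpen hT (by norm_num)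
    exact (h2.continuousAt hTn).norm
  have hB : ∀ᶠ u in 𝓝 u₀, ‖fderiv ℝ f u‖ < ‖fderiv ℝ f u₀‖ + 1 :=
    hcont.eventually_lt_const (by linarith)
  set B : ℝ := ‖fderiv ℝ f u₀‖ + 1 with hBdef
  have hB0 : 0 ≤ B := by positivity
  have hall : s ∩ t ∩ T ∩ {u | ‖fderiv ℝ f u‖ < B} ∈ 𝓝 u₀ :=
    inter_mem (inter_mem (inter_mem hs ht) hTn) hB
  obtain ⟨r, hr, hball⟩ := Metric.mem_nhds_iff.1 hall
  have hL0 : (0 : ℝ) ≤ L := L.2
  refine ⟨L * B * K ^ 2 + (L * K) ^ 2, by positivity, Metric.ball u₀ r,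
    Metric.ball_mem_nhds u₀ hr, fun x hx y hy => ?_⟩
  obtain ⟨⟨⟨hxs, hxt⟩, hxT⟩, hxB⟩ := hball hx
  obtain ⟨⟨⟨hys, hyt⟩, hyT⟩, hyB⟩ := hball hy
  have hxy := hexp x hxs y hys
  have hnxy : ∀ z ∈ Metric.ball u₀ r, ‖n x - n z‖ ≤ L * ‖x - z‖ := by
    intro z hz
    obtain ⟨⟨⟨-, hzt⟩, -⟩, -⟩ := hball hz
    have := hlip.dist_le_mul x hxt z hzt
    rwa [dist_eq_norm, dist_eq_norm] at this
  have hF0 : 0 ≤ ‖f x - f y‖ := norm_nonneg _
  have hsq : ‖x - y‖ ^ 2 ≤ K ^ 2 * ‖f x - f y‖ ^ 2 := by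
    rw [← mul_pow]
    exact pow_le_pow_left₀ (norm_nonneg _) hxy 2
  have hsq0 : 0 ≤ ‖f x - f y‖ ^ 2 := sq_nonneg _
  constructor
  · -- the inner product
    have hseg : segment ℝ x y ⊆ Metric.ball u₀ r :=
      (convex_ball u₀ r).segment_subset hx hy
    have hder : ∀ z ∈ segment ℝ x y, HasFDerivWithinAt (fun v => ⟪n x, f v⟫)
        ((innerSL ℝ (n x)).comp (fderiv ℝ f z)) (segment ℝ x y) z := by
      intro z hz
      obtain ⟨⟨⟨-, -⟩, hzT⟩, -⟩ := hball (hseg hz)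
      have hd : HasFDerivAt f (fderiv ℝ f z) z :=
        (((hf.contDiffAt (hT.mem_nhds hzT)).differentiableAt (by norm_num))).hasFDerivAt
      exact ((innerSL ℝ (n x)).hasFDerivAt.comp z hd).hasFDerivWithinAt
    have hbd : ∀ z ∈ segment ℝ x y, ‖(innerSL ℝ (n x)).comp (fderiv ℝ f z)‖
        ≤ L * ‖x - y‖ * B := by
      intro z hz
      obtain ⟨⟨⟨-, -⟩, hzT⟩, hzB⟩ := hball (hseg hz)
      refine ContinuousLinearMap.opNorm_le_bound _ (by positivity) fun w => ?_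
      have e1 : ((innerSL ℝ (n x)).comp (fderiv ℝ f z)) w = ⟪n x - n z, fderiv ℝ f z w⟫ := by
        rw [inner_sub_left, h1 z hzT w, sub_zero]
        rfl
      rw [e1]
      have e2 := norm_inner_le_norm (𝕜 := ℝ) (n x - n z) (fderiv ℝ f z w)
      have e3 := hnxy z (hseg hz)
      have e4 : ‖x - z‖ ≤ ‖x - y‖ := by
        have := norm_sub_le_of_mem_segment hz
        rw [norm_sub_rev x z, norm_sub_rev x y]
        exact this
      have e5 := (fderiv ℝ f z).le_opNorm w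
      have hzB' : ‖fderiv ℝ f z‖ ≤ B := le_of_lt hzB
      calc ‖⟪n x - n z, fderiv ℝ f z w⟫‖ ≤ ‖n x - n z‖ * ‖fderiv ℝ f z w‖ := e2
        _ ≤ (L * ‖x - y‖) * (B * ‖w‖) := by
            apply mul_le_mul (e3.trans (mul_le_mul_of_nonneg_left e4 hL0))
              (e5.trans (mul_le_mul_of_nonneg_right hzB' (norm_nonneg w))) (norm_nonneg _)
              (by positivity)
        _ = L * ‖x - y‖ * B * ‖w‖ := by ring
    have hmv := Convex.norm_image_sub_le_of_norm_hasFDerivWithin_le hder hbd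
      (convex_segment x y) (left_mem_segment ℝ x y) (right_mem_segment ℝ x y)
    simp only [h0 x hxT, sub_zero] at hmv
    rw [Real.norm_eq_abs, norm_sub_rev y x] at hmv
    calc |⟪n x, f y⟫| ≤ L * ‖x - y‖ * B * ‖x - y‖ := hmv
      _ = (L * B) * ‖x - y‖ ^ 2 := by ring
      _ ≤ (L * B) * (K ^ 2 * ‖f x - f y‖ ^ 2) := by
          exact mul_le_mul_of_nonneg_left hsq (by positivity)
      _ ≤ (L * B * K ^ 2 + (L * K) ^ 2) * ‖f x - f y‖ ^ 2 := by
          have : 0 ≤ (L * K) ^ 2 * ‖f x - f y‖ ^ 2 := by positivity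
          linarith
  · have h3 := hnxy y hy
    have h4 : ‖n x - n y‖ ^ 2 ≤ (L * ‖x - y‖) ^ 2 := pow_le_pow_left₀ (norm_nonneg _) h3 2
    calc ‖n x - n y‖ ^ 2 ≤ (L * ‖x - y‖) ^ 2 := h4
      _ = (L : ℝ) ^ 2 * ‖x - y‖ ^ 2 := by ring
      _ ≤ (L : ℝ) ^ 2 * (K ^ 2 * ‖f x - f y‖ ^ 2) := mul_le_mul_of_nonneg_left hsq (by positivity)
      _ ≤ (L * B * K ^ 2 + (L * K) ^ 2) * ‖f x - f y‖ ^ 2 := by
          have : 0 ≤ L * B * K ^ 2 * ‖f x - f y‖ ^ 2 := by positivity
          linarith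

end

section

variable {V W M : Type*} [NormedAddCommGroup V] [InnerProductSpace ℝ V] [FiniteDimensional ℝ V]
  [NormedAddCommGroup W] [InnerProductSpace ℝ W] [FiniteDimensional ℝ W]
  [TopologicalSpace M] [ChartedSpace V M] {F : M → W}

/-- The inner product of the normal at one point with the other point, and the change of the
normal, are controlled by the distance. -/
theorem near_of_inj [IsManifold 𝓘(ℝ, V) ∞ M] [CompactSpace M] [T2Space M]
    (hF : SphImm V F) (hinj : Injective F) {N : M → W}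
    (hNs : ContMDiff 𝓘(ℝ, V) 𝓘(ℝ, W) ∞ N) (hN : ∀ x, IsUnitNormal V F x (N x)) :
    ∃ C : ℝ, ∀ x y, |⟪N x, F y⟫| ≤ C * (1 - ⟪F x, F y⟫) ∧
      ‖N x - N y‖ ^ 2 ≤ C * (1 - ⟪F x, F y⟫) := by
  have hFc : Continuous F := hF.1.continuous
  have hN1 : ∀ x, ‖N x‖ = 1 := fun x => (hN x).1
  have hone : ∀ x y, ‖F x - F y‖ ^ 2 = 2 * (1 - ⟪F x, F y⟫) := by
    intro x y
    rw [norm_sub_sq_real, hF.unit, hF.unit]
    ring
  have hnn : ∀ x y, 0 ≤ 1 - ⟪F x, F y⟫ := by
    intro x y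
    have := sq_nonneg ‖F x - F y‖
    rw [hone] at this
    linarith
  set P : ℝ → M × M → Prop := fun C q => |⟪N q.1, F q.2⟫| ≤ C * (1 - ⟪F q.1, F q.2⟫) ∧
      ‖N q.1 - N q.2‖ ^ 2 ≤ C * (1 - ⟪F q.1, F q.2⟫) with hP
  have hmono : ∀ C C' q, C ≤ C' → P C q → P C' q := by
    intro C C' q hC h
    have h1 := mul_le_mul_of_nonneg_right hC (hnn q.1 q.2)
    exact ⟨h.1.trans h1, h.2.trans h1⟩
  have key : ∃ C : ℝ, ∀ q ∈ (univ : Set (M × M)), P C q := by
    refine isCompact_univ.induction_on (p := fun s : Set (M × M) => ∃ C : ℝ, ∀ q ∈ s, P C q)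
      ⟨0, fun q hq => hq.elim⟩ ?_ ?_ ?_
    · rintro s t hst ⟨C, hC⟩
      exact ⟨C, fun q hq => hC q (hst hq)⟩
    · rintro s t ⟨C, hC⟩ ⟨C', hC'⟩
      refine ⟨max C C', fun q hq => ?_⟩
      rcases hq with hq | hq
      · exact hmono _ _ _ (le_max_left _ _) (hC q hq)
      · exact hmono _ _ _ (le_max_right _ _) (hC' q hq)
    · rintro ⟨a, b⟩ -
      rw [nhdsWithin_univ]
      by_cases hab : a = b
      · subst hab
        set φ := chartAt V a with hφ
        have hI := immV_rep hF a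
        have haT : φ a ∈ φ.target := φ.map_source (mem_chart_source _ a)
        have hns : ContDiffOn ℝ ∞ (rep (V := V) N a) φ.target := by
          rw [← contMDiffOn_iff_contDiffOn]
          exact hNs.comp_contMDiffOn contMDiffOn_chart_symm
        obtain ⟨C, hC0, s, hs, hloc⟩ := exists_near_local (f := rep (V := V) F a)
          (n := rep (V := V) N a) hI.isOpen hI.smooth hI.inj hns
          (fun u _ => by
            have := (hN (φ.symm u)).2.1
            rw [real_inner_comm]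
            exact this)
          (fun u hu w => by
            rw [real_inner_comm]
            exact FV.normal_rep hF hN a hu w) haT
        have hO : φ.source ∩ φ ⁻¹' s ∈ 𝓝 a :=
          inter_mem (chart_source_mem_nhds V a)
            ((φ.continuousAt (mem_chart_source V a)).preimage_mem_nhds hs)
        refine ⟨(φ.source ∩ φ ⁻¹' s) ×ˢ (φ.source ∩ φ ⁻¹' s), prod_mem_nhds hO hO, 2 * C, ?_⟩
        rintro ⟨x, y⟩ ⟨⟨hx1, hx2⟩, ⟨hy1, hy2⟩⟩
        have h1 := hloc (φ x) hx2 (φ y) hy2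
        have ex : rep (V := V) F a (φ x) = F x := by
          unfold rep
          rw [← hφ, φ.left_inv hx1]
        have ey : rep (V := V) F a (φ y) = F y := by
          unfold rep
          rw [← hφ, φ.left_inv hy1]
        have nx : rep (V := V) N a (φ x) = N x := by
          unfold rep
          rw [← hφ, φ.left_inv hx1]
        have ny : rep (V := V) N a (φ y) = N y := by
          unfold rep
          rw [← hφ, φ.left_inv hy1]
        rw [ex, ey, nx, ny, hone] at h1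
        refine ⟨h1.1.trans (le_of_eq ?_), h1.2.trans (le_of_eq ?_)⟩ <;> simp only <;> ring
      · have hlt : ⟪F a, F b⟫ < 1 := by
          rcases (real_inner_le_norm (F a) (F b)).lt_or_eq with h | h
          · rwa [hF.unit, hF.unit, mul_one] at h
          · exfalso
            rw [hF.unit, hF.unit, mul_one] at h
            exact hab (hinj ((inner_eq_one_iff_of_norm_eq_one (hF.unit _) (hF.unit _)).mp h))
        set η : ℝ := (1 - ⟪F a, F b⟫) / 2 with hη
        have hη0 : 0 < η := by rw [hη]; linarith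
        have hcont : Continuous fun q : M × M => ⟪F q.1, F q.2⟫ :=
          (hFc.comp continuous_fst).inner (hFc.comp continuous_snd)
        have hev : ∀ᶠ q in 𝓝 (a, b), ⟪F q.1, F q.2⟫ < 1 - η :=
          hcont.continuousAt.eventually_lt_const (by simp only; rw [hη]; linarith)
        refine ⟨_, hev, 4 / η, fun q hq => ?_⟩
        have hq' : ⟪F q.1, F q.2⟫ < 1 - η := hq
        have h4 : 4 ≤ 4 / η * (1 - ⟪F q.1, F q.2⟫) := by
          rw [div_mul_eq_mul_div, le_div_iff₀ hη0]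
          linarith
        have h5 : |⟪N q.1, F q.2⟫| ≤ 1 := by
          have := abs_real_inner_le_norm (N q.1) (F q.2)
          rwa [hN1, hF.unit, mul_one] at this
        have h6 : ‖N q.1 - N q.2‖ ^ 2 ≤ 4 := by
          have h7 := norm_sub_le (N q.1) (N q.2)
          rw [hN1, hN1] at h7
          have h8 := norm_nonneg (N q.1 - N q.2)
          nlinarith
        exact ⟨by linarith, by linarith⟩
  obtain ⟨C, hC⟩ := key
  exact ⟨C, fun x y => hC (x, y) (mem_univ _)⟩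

end

end Vale.Agent.P224.UE
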