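import Vale.Agent.P224.UE.Sing5
import Vale.Agent.P224.UE.Near

/-!
The critical rows and their values.
-/

namespace Vale.Agent.P224.UE

open MeasureTheory Set Filter Function Module Vale.Agent.P224
open Vale.Agent.P224.SM2 hiding ker
open scoped Topology RealInnerProductSpace ENNReal ContDiff Manifold

set_option linter.unusedSectionVars false

section

variable {X : Type*} [MeasurableSpace X] {E : Type*} [NormedAddCommGroup E]
  [InnerProductSpace ℝ E] [MeasurableSpace E] [BorelSpace E] [SecondCountableTopology E]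

/-- functions of pair data with a known double integral -/
def Val (μ : Measure X) (p n : X → E) (e : E) (f : R9 → ℝ) (v : ℝ) : Prop :=
  Integrable (fun q => f (dat p n e q)) (μ.prod μ) ∧ ∫ q, f (dat p n e q) ∂(μ.prod μ) = v

variable {μ : Measure X} [IsFiniteMeasure μ] {m : ℕ} {p n : X → E}

lemma Null.val {e : E} {f : R9 → ℝ} (hf : Null μ p n e f) : Val μ p n e f 0 := hf

lemma Val.null {e : E} {f : R9 → ℝ} (hf : Val μ p n e f 0) : Null μ p n e f := hf

lemma Val.congr {e : E} {f : R9 → ℝ} {a b : ℝ} (hf : Val μ p n e f a) (h : a = b) :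
    Val μ p n e f b := h ▸ hf

lemma Val.add {e : E} {f g : R9 → ℝ} {a b : ℝ} (hf : Val μ p n e f a) (hg : Val μ p n e g b) :
    Val μ p n e (fun d => f d + g d) (a + b) :=
  ⟨hf.1.add hg.1, by rw [integral_add hf.1 hg.1, hf.2, hg.2]⟩

lemma Val.sub {e : E} {f g : R9 → ℝ} {a b : ℝ} (hf : Val μ p n e f a) (hg : Val μ p n e g b) :
    Val μ p n e (fun d => f d - g d) (a - b) :=
  ⟨hf.1.sub hg.1, by rw [integral_sub hf.1 hg.1, hf.2, hg.2]⟩

lemma Val.const_mul {e : E} {f : R9 → ℝ} {a : ℝ} (hf : Val μ p n e f a) (r : ℝ) :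
    Val μ p n e (fun d => r * f d) (r * a) :=
  ⟨hf.1.const_mul r, by rw [integral_const_mul, hf.2]⟩

lemma Val.sum {ι : Type*} {e : E} (s : Finset ι) {f : ι → R9 → ℝ} {a : ι → ℝ}
    (hf : ∀ i ∈ s, Val μ p n e (f i) (a i)) :
    Val μ p n e (fun d => ∑ i ∈ s, f i d) (∑ i ∈ s, a i) := by
  classical
  induction s using Finset.induction_on with
  | empty =>
    simp only [Finset.sum_empty]
    exact (Null.zero e).val
  | insert i s hi ih =>
    simp only [Finset.sum_insert hi]
    exact (hf i (Finset.mem_insert_self i s)).add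
      (ih fun j hj => hf j (Finset.mem_insert_of_mem hj))

lemma Val.swap {e : E} {f : R9 → ℝ} {a : ℝ} (hf : Val μ p n e f a) :
    Val μ p n e (fun d => f (sw9 d)) a := by
  refine ⟨?_, ?_⟩
  · simp only [sw_dat]
    exact hf.1.swap
  · simp only [sw_dat]
    rw [← hf.2]
    exact integral_prod_swap (μ := μ) (ν := μ) (fun q => f (dat p n e q))

/-- pair data almost everywhere -/
lemma Val.congr_ae {e : E} {f g : R9 → ℝ} {a : ℝ} (hf : Val μ p n e f a)
    (h : ∀ᵐ q ∂(μ.prod μ), g (dat p n e q) = f (dat p n e q)) : Val μ p n e g a := by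
  have h' : (fun q => f (dat p n e q)) =ᵐ[μ.prod μ] (fun q => g (dat p n e q)) := by
    filter_upwards [h] with q hq
    exact hq.symm
  exact ⟨hf.1.congr h', by rw [← hf.2]; exact (integral_congr_ae h').symm⟩

/-- the data of an embedded closed minimal hypersurface -/
structure EmbD (μ : Measure X) (m : ℕ) (p n : X → E) (C S : ℝ) : Prop extends TwoG μ m p n where
  contact : Contact p n C
  flux : ∀ (e : E) (Q : R9 → ℝ), Continuous Q →
    Tendsto (fun T => ∫ q, Q (dat p n e q) * cv m T (dat p n e q 0) ∂(μ.prod μ)) (𝓝[<] 1)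
      (𝓝 (S * ∫ y, Q (dat p n e (y, y)) ∂μ))

variable {C S : ℝ}

/-- the value of the critical rows -/
noncomputable def fluxV (μ : Measure X) (p n : X → E) (e : E) (w : ℝ → ℝ → ℝ) (k : Fin 6)
    (j : ℕ) : ℝ :=
  ∫ y, w ⟪n y, e⟫ ⟪p y, e⟫ * (sgm k (dat p n e (y, y)) * ⟪p y, e⟫ ^ j) ∂μ

lemma continuous_sgm (k : Fin 6) : Continuous (sgm k) := by
  unfold sgm
  fin_cases k <;> simp only <;> fun_prop

theorem EmbD.crit (h : EmbD μ 4 p n C S) (e : E) {k : Fin 6} (hk : k = 0 ∨ k = 3 ∨ k = 4)
    (j : ℕ) {w : ℝ → ℝ → ℝ} (hw : Continuous (uncurry w)) :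
    Val μ p n e (fun d => w (d 5) (d 7) * rG k 4 (cphi 1) (cphi' 1) 0 j d)
      (S * fluxV μ p n e w k j) := by
  have hm : 0 < 4 := by norm_num
  have hG := h.toTwoG
  obtain ⟨Cw, hCw0, hCw⟩ := weight_bound hw (bE e)
  have hB1 := one_le_bC (le_max_right C 1) e
  obtain ⟨D, hD0, hD⟩ := Zc_dom hB1 k hk j
  have hwc := cont_psi hw
  have hsc := continuous_sgm k
  -- the bounded part
  set g : R9 → ℝ := fun d => w (d 5) (d 7) * (sgm k d * d 6 ^ j) with hg
  have hgc : Continuous g := by
    simp only [hg]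
    fun_prop
  have hgi : Integrable (fun y => g (dat p n e y)) (μ.prod μ) :=
    integrable_param _ (measurable_dat h.toPts e) (isCompact_KE (bE e))
      (dat_mem h.toPts e) hgc.measurable hgc.continuousOn
  -- the dominated part
  set f : ℝ → X × X → ℝ := fun T y => w (dat p n e y 5) (dat p n e y 7)
    * Zc k j T (dat p n e y) with hf
  have hmk : ∀ T q, Measurable (SM2.ker T q) := fun T q => measurable_ker T q
  have hmφ : ∀ T, Measurable (cphi T) := by
    intro T
    have h1 := hmk T 1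
    have h2 := hmk T 2
    have h3 := hmk T 3
    unfold cphi
    fun_prop
  have hmφ' : ∀ T, Measurable (cphi' T) := by
    intro T
    have h1 := hmk T 4
    have h2 := hmk T 2
    have h3 := hmk T 3
    unfold cphi'
    fun_prop
  have hZm : ∀ T, Measurable (Zc k j T) := by
    intro T
    have h1 := measurable_rG k 4 (hmφ T) (hmφ' T) 0 j
    have h2 := hmk T 4
    have h3 := hsc.measurable
    unfold Zc
    fun_prop
  have hfm : ∀ T, AEStronglyMeasurable (f T) (μ.prod μ) := fun T =>
    ((hwc.measurable.mul (hZm T)).comp (measurable_dat h.toPts e)).aestronglyMeasurable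
  have hdom : ∀ T ∈ Icc (0 : ℝ) 1, ∀ᵐ y ∂(μ.prod μ),
      ‖f T y‖ ≤ Cw * D * sg 3 (dat p n e y 0) := by
    intro T hT
    filter_upwards [hG.ae_lt hm e] with y hy
    have hcb := h.contact.cb h.toPts e hy
    have h2 := hD T hT _ hcb
    have h3 := hCw _ (dat_mem h.toPts e y)
    rw [Real.norm_eq_abs, abs_mul]
    calc _ ≤ Cw * (D * sg 3 (dat p n e y 0)) := mul_le_mul h3 h2 (abs_nonneg _) hCw0
      _ = _ := by ring
  have hint : Integrable (fun y => Cw * D * sg 3 (dat p n e y 0)) (μ.prod μ) :=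
    (hG.integrable_sg hm e (by norm_num)).const_mul _
  have h01 : (1 : ℝ) ∈ Icc (0 : ℝ) 1 := ⟨zero_le_one, le_rfl⟩
  have hf1 : Integrable (f 1) (μ.prod μ) := hint.mono' (hfm 1) (hdom 1 h01)
  have h0 : ∀ᶠ T in 𝓝[<] (1 : ℝ), T ∈ Ioo (0 : ℝ) 1 := Ioo_mem_nhdsLT one_pos
  have hlim : Tendsto (fun T => ∫ y, f T y ∂(μ.prod μ)) (𝓝[<] 1) (𝓝 (∫ y, f 1 y ∂(μ.prod μ))) := by
    refine tendsto_integral_filter_of_dominated_convergence _
      (Eventually.of_forall hfm) ?_ hint ?_
    · filter_upwards [h0] with T hT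
      exact hdom T ⟨hT.1.le, hT.2.le⟩
    · filter_upwards [hG.ae_lt hm e] with y hy
      have c1 := contAt_ker hy 1
      have c2 := contAt_ker hy 2
      have c3 := contAt_ker hy 3
      have c4 := contAt_ker hy 4
      have cφ : ContinuousAt (fun T => cphi T (dat p n e y 0)) 1 := by
        unfold cphi
        fun_prop
      have cφ' : ContinuousAt (fun T => cphi' T (dat p n e y 0)) 1 := by
        unfold cphi'
        fun_prop
      have cR : ContinuousAt (fun T => rG k 4 (cphi T) (cphi' T) 0 j (dat p n e y)) 1 := by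
        unfold rG rowE
        fin_cases k <;> simp only <;> fun_prop
      have cZ : ContinuousAt (fun T => Zc k j T (dat p n e y)) 1 := by
        unfold Zc
        fun_prop
      exact (cZ.tendsto.mono_left (nhdsWithin_le_nhds (s := Iio (1 : ℝ)))).const_mul _
  -- the flux
  have hfl := h.flux e g hgc
  have hdiag : ∀ y, g (dat p n e (y, y)) = w ⟪n y, e⟫ ⟪p y, e⟫
      * (sgm k (dat p n e (y, y)) * ⟪p y, e⟫ ^ j) := fun y => rfl
  simp only [hdiag] at hfl
  -- the identity for `T < 1`
  have hz : ∀ᶠ T in 𝓝[<] (1 : ℝ), ∫ q, g (dat p n e q) * cv 4 T (dat p n e q 0) ∂(μ.prod μ)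
      = ∫ q, g (dat p n e q) ∂(μ.prod μ) + ∫ y, f T y ∂(μ.prod μ) := by
    filter_upwards [h0] with T hT
    have hT' : T ∈ Ico (0 : ℝ) 1 := ⟨hT.1.le, hT.2⟩
    have hv : ∀ s ∈ Icc (-1 : ℝ) 1, 1 - T * s ≠ 0 := fun s hs => (one_sub_pos' hT' hs.2).ne'
    have hcc : ContinuousOn (cphi' T) (Icc (-1) 1) := by
      have hc : ∀ q, ContinuousOn (SM2.ker T q) (Icc (-1) 1) := by
        intro q s hs
        unfold SM2.ker
        refine ContinuousAt.continuousWithinAt (ContinuousAt.inv₀ (by fun_prop) ?_)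
        exact pow_ne_zero _ (hv s hs)
      have h1 := hc 4
      have h2 := hc 3
      have h3 := hc 2
      unfold cphi'
      fun_prop
    have hnull := hG.null_G e (φ := cphi T) (φ' := cphi' T) (fun s hs => ⟨by
        have h1 := contDiffAt_ker (q := 1) (hv s hs)
        have h2 := contDiffAt_ker (q := 2) (hv s hs)
        have h3 := contDiffAt_ker (q := 3) (hv s hs)
        have : ContDiffAt ℝ ∞ (fun s => T / 3 * ((1 - T ^ 2) * SM2.ker T 3 s + SM2.ker T 2 s
            + SM2.ker T 1 s)) s :=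
          contDiffAt_const.mul (((contDiffAt_const.mul h3).add h2).add h1)
        exact this, hasDerivAt_cphi (hv s hs)⟩) (hmφ T) (hmφ' T) hcc k 0 j hw
    have hcvi : Integrable (fun q => g (dat p n e q) * cv 4 T (dat p n e q 0)) (μ.prod μ) := by
      refine integrable_param _ (measurable_dat h.toPts e) (isCompact_KE (bE e))
        (dat_mem h.toPts e) (f := fun d => g d * cv 4 T (d 0))
        (hgc.measurable.mul ((measurable_cv 4 T).comp (measurable_pi_apply 0))) ?_
      have h1 := contOn_kerE hT' 4 (bE e)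
      unfold cv
      exact hgc.continuousOn.mul (continuousOn_const.mul h1)
    have hfi : Integrable (f T) (μ.prod μ) := hint.mono' (hfm T) (hdom T ⟨hT.1.le, hT.2.le⟩)
    have e1 : ∀ q, w (dat p n e q 5) (dat p n e q 7) * rG k 4 (cphi T) (cphi' T) 0 j (dat p n e q)
        = (g (dat p n e q) + f T q) - g (dat p n e q) * cv 4 T (dat p n e q 0) := by
      intro q
      simp only [hg, hf, Zc, cv]
      have : kp T ^ 4 = (1 - T ^ 2) ^ 2 := by
        rw [← kp_sq hT']
        ring
      rw [this]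
      ring
    have h2 := hnull.2
    simp only [Nat.cast_ofNat, e1] at h2
    have hsum : Integrable (fun q => g (dat p n e q) + f T q) (μ.prod μ) := hgi.add hfi
    rw [integral_sub hsum hcvi, integral_add hgi hfi] at h2
    linarith
  have hlim2 := (hlim.const_add (∫ q, g (dat p n e q) ∂(μ.prod μ)))
  have heq := tendsto_nhds_unique (hfl.congr' hz) hlim2
  have e2 : ∀ q, w (dat p n e q 5) (dat p n e q 7) * rG k 4 (cphi 1) (cphi' 1) 0 j (dat p n e q)
      = g (dat p n e q) + f 1 q := by
    intro q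
    simp only [hg, hf, Zc]
    ring
  refine ⟨?_, ?_⟩
  · simp only [e2]
    exact hgi.add hf1
  · simp only [e2]
    rw [integral_add hgi hf1, ← heq]
    rfl

lemma rG_lin (k : Fin 6) (m : ℝ) (φ φ' χ χ' : ℝ → ℝ) (a b : ℝ) (i j : ℕ) (d : R9) :
    a * rG k m φ φ' i j d + b * rG k m χ χ' i j d
      = rG k m (fun s => a * φ s + b * χ s) (fun s => a * φ' s + b * χ' s) i j d := by
  unfold rG rowE
  fin_cases k <;> simp only <;> ring

lemma rG_congr (k : Fin 6) (m : ℝ) {φ φ' χ χ' : ℝ → ℝ} (i j : ℕ) {d : R9}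
    (h : φ (d 0) = χ (d 0)) (h' : φ' (d 0) = χ' (d 0)) :
    rG k m φ φ' i j d = rG k m χ χ' i j d := by
  unfold rG
  rw [h, h']

lemma sk_succ {a q : ℕ} {s : ℝ} (hs : s < 1) :
    sk 1 (a + 1) (q + 1) s = 1 * sk 1 a (q + 1) s + (-1) * sk 1 a q s ∧
    sk' 1 (a + 1) (q + 1) s = 1 * sk' 1 a (q + 1) s + (-1) * sk' 1 a q s := by
  have hv : 1 - 1 * s ≠ 0 := by
    have : 0 < 1 - 1 * s := by linarith
    exact this.ne'
  have e1 := ker_eq hv q
  have e2 := ker_eq hv (q + 1)
  constructor
  · unfold sk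
    rw [e1]
    ring
  · unfold sk'
    rcases a with _ | a
    · rw [e1, e2]
      simp only [Nat.cast_zero, zero_mul, zero_add, pow_zero, Nat.sub_self, Nat.cast_one]
      push_cast
      ring
    · rw [e1, e2]
      simp only [Nat.add_sub_cancel]
      push_cast
      ring

/-- The rows with the critical profile `s ^ a (1 - s)⁻²`. -/
theorem EmbD.crit_S (h : EmbD μ 4 p n C S) (e : E) {k : Fin 6} (hk : k = 0 ∨ k = 3 ∨ k = 4)
    (a j : ℕ) {w : ℝ → ℝ → ℝ} (hw : Continuous (uncurry w)) :
    Val μ p n e (fun d => w (d 5) (d 7) * rG k 4 (sk 1 a 2) (sk' 1 a 2) 0 j d)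
      (3 * (S * fluxV μ p n e w k j)) := by
  have hm : 0 < 4 := by norm_num
  have hG := h.toTwoG
  have hnull : ∀ a q, q ≤ 1 → Null μ p n e
      (fun d => w (d 5) (d 7) * rG k 4 (sk 1 a q) (sk' 1 a q) 0 j d) := by
    intro a q hq
    have := hG.null_S hm h.contact e k (a := a) (q := q) (i := 0) (j := j) (l := 3) (by norm_num)
      (by omega) hw
    exact_mod_cast this
  induction a with
  | zero =>
    have h1 := (h.crit e hk j hw).const_mul 3
    have h2 := (h1.sub (hnull 0 1 le_rfl).val).congr (sub_zero _)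
    refine h2.congr_ae ?_
    filter_upwards [hG.ae_lt hm e] with y hy
    have hv : 1 - 1 * dat p n e y 0 ≠ 0 := by
      have : 0 < 1 - 1 * dat p n e y 0 := by linarith
      exact this.ne'
    have h3 : rG k 4 (sk 1 0 2) (sk' 1 0 2) 0 j (dat p n e y)
        = 3 * rG k 4 (cphi 1) (cphi' 1) 0 j (dat p n e y)
          + (-1) * rG k 4 (sk 1 0 1) (sk' 1 0 1) 0 j (dat p n e y) := by
      rw [rG_lin]
      refine rG_congr k 4 0 j ?_ ?_
      · unfold sk cphi
        ring
      · unfold sk' cphi'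
        have := ker_eq hv 2
        push_cast
        ring
    rw [h3]
    ring
  | succ a ih =>
    have h2 := (ih.sub (hnull a 1 le_rfl).val).congr (sub_zero _)
    refine h2.congr_ae ?_
    filter_upwards [hG.ae_lt hm e] with y hy
    have h4 := sk_succ (a := a) (q := 1) hy
    have h3 : rG k 4 (sk 1 (a + 1) 2) (sk' 1 (a + 1) 2) 0 j (dat p n e y)
        = 1 * rG k 4 (sk 1 a 2) (sk' 1 a 2) 0 j (dat p n e y)
          + (-1) * rG k 4 (sk 1 a 1) (sk' 1 a 1) 0 j (dat p n e y) := by
      rw [rG_lin]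
      exact rG_congr k 4 0 j h4.1 h4.2
    rw [h3]
    ring

end

section

variable {V W M : Type*} [NormedAddCommGroup V] [InnerProductSpace ℝ V] [FiniteDimensional ℝ V]
  [NormedAddCommGroup W] [InnerProductSpace ℝ W] [FiniteDimensional ℝ W]
  [TopologicalSpace M] [ChartedSpace V M]
  [MeasurableSpace V] [BorelSpace V] [MeasurableSpace M] [BorelSpace M]
  [IsManifold 𝓘(ℝ, V) ∞ M] [CompactSpace M] [T2Space M]
  [MeasurableSpace W] [BorelSpace W]

lemma continuous_dat {X E : Type*} [TopologicalSpace X] [NormedAddCommGroup E]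
    [InnerProductSpace ℝ E] {p n : X → E} (hp : Continuous p) (hn : Continuous n) (e : E) :
    Continuous (dat p n e) := by
  refine continuous_pi fun i => ?_
  have f1 : Continuous (fun q : X × X => p q.1) := hp.comp continuous_fst
  have f2 : Continuous (fun q : X × X => p q.2) := hp.comp continuous_snd
  have n1 : Continuous (fun q : X × X => n q.1) := hn.comp continuous_fst
  have n2 : Continuous (fun q : X × X => n q.2) := hn.comp continuous_snd
  fin_cases i
  · exact f1.inner f2
  · exact f1.inner n2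
  · exact n1.inner f2
  · exact n1.inner n2
  · exact n1.inner continuous_const
  · exact n2.inner continuous_const
  · exact f1.inner continuous_const
  · exact f2.inner continuous_const
  · exact continuous_const

/-- the data of an embedded closed minimal hypersurface -/
theorem embD_of_inj (hm : 0 < finrank ℝ V) (hW : finrank ℝ W = finrank ℝ V + 2)
    {F : M → W} (hF : SphImm V F) (hmin : ∀ x n, IsUnitNormal V F x n → meanCurv V F x n = 0)
    {N : M → W} (hNs : ContMDiff 𝓘(ℝ, V) 𝓘(ℝ, W) ∞ N) (hN : ∀ x, IsUnitNormal V F x (N x))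
    (hinj : Injective F) :
    ∃ C, EmbD (volM V F) (finrank ℝ V) F N C (sphereVol (finrank ℝ V)) := by
  have hfin : IsFiniteMeasure (volM V F) := isFiniteMeasure_volM hF
  have hG := twoG_of_min hW hF hmin hNs hN
  obtain ⟨C, hC⟩ := near_of_inj hF hinj hNs hN
  refine ⟨C, { hG with contact := hC, flux := ?_ }⟩
  intro e Q hQ
  have hcF : Continuous F := hF.smooth.continuous
  have hcN : Continuous N := hNs.continuous
  exact two_point_tendsto_inj hm hW hF hinj hcN.measurable (fun x => (hN x).1)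
    (hG.toTwoE.conf hm) (Q := fun q => Q (dat F N e q)) (hQ.comp (continuous_dat hcF hcN e))
    (hQ.measurable.comp (measurable_dat hG.toPts e))

end

end Vale.Agent.P224.UE
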