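import Vale.Agent.P224.UE.Half3

/-!
The law of a certificate with powers of the chordal distance, every dimension.
-/

namespace Vale.Agent.P224.UE

open MeasureTheory Set Filter Function Module Vale.Agent.P224
open Vale.Agent.P224.SM2 hiding ker
open scoped Topology RealInnerProductSpace ENNReal ContDiff Manifold

set_option linter.unusedSectionVars false

/-- a row term: the row `fam` for the function `r ^ e t ^ i x1 ^ j` (with `r = √((1 - s) / 2)`)
and the weight `n2 ^ k x2 ^ d E ^ l` -/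
structure HTerm where
  fam : Fin 6
  e : ℤ
  i : ℕ
  j : ℕ
  d : ℕ
  k : ℕ
  l : ℕ
  deriving DecidableEq

/-- the row of a term -/
noncomputable def HTerm.F (m : ℕ) (T : HTerm) (d : R9) : ℝ :=
  (d 8 ^ T.l * (d 5 ^ T.k * d 7 ^ T.d)) * rG T.fam m (rh T.e) (rh' T.e) T.i T.j d

/-- the exponent of the normal component in the flux -/
def HTerm.kn (T : HTerm) : ℕ := T.k + if T.fam = 4 then 1 else 0

/-- the exponent of the position component in the flux -/
def HTerm.kx (T : HTerm) : ℕ := T.d + T.j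

/-- subcritical terms -/
def HTerm.sub (m : ℕ) (T : HTerm) : Bool :=
  decide (1 - T.e < m + 2 * T.i) || ((decide (T.fam = 0) || decide (T.fam = 1)
    || decide (T.fam = 3) || decide (T.fam = 4)) && decide (-T.e < m + 2 * T.i))

/-- critical terms with a computable flux -/
def HTerm.cri (m : ℕ) (T : HTerm) : Bool :=
  decide (T.e = -m) && decide (T.i = 0) && (decide (T.fam = 0) || decide (T.fam = 3)
    || decide (T.fam = 4)) &&
  ((decide (T.kn = 0) && decide (T.kx = 0)) || (decide (T.kn = 1) && decide (T.kx = 0))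
    || (decide (T.kn = 2) && decide (T.kx = 0)) || (decide (T.kn = 0) && decide (T.kx = 1))
    || (decide (T.kn = 0) && decide (T.kx = 2)))

/-- admissible terms -/
def HTerm.ok (m : ℕ) (T : HTerm) : Bool := T.sub m || T.cri m

/-- the normalized value of a term -/
noncomputable def HTerm.V (m : ℕ) (T : HTerm) (u r : ℝ) : ℝ :=
  if T.sub m = true then 0
  else (if T.fam = 0 then 1 else -1) * (u ^ T.l * momM m u r T.kn T.kx)

/-- the auxiliary integral term -/
def HTerm.toR (T : HTerm) : RTerm := ⟨T.fam, 0, 0, T.i, T.j, T.d, T.k, T.l⟩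

section

variable {X : Type*} [MeasurableSpace X] {E : Type*} [NormedAddCommGroup E]
  [InnerProductSpace ℝ E] [MeasurableSpace E] [BorelSpace E] [SecondCountableTopology E]
  {μ : Measure X} [IsFiniteMeasure μ] {m : ℕ} {p n : X → E} {C S : ℝ}

/-- the rows with a subcritical power are null -/
theorem TwoG.null_H (h : TwoG μ m p n) (hm : 2 ≤ m) {C : ℝ} (hc : Contact p n C) (e : E)
    {k : Fin 6} {a : ℤ} {i j : ℕ}
    (hs : 1 - a < m + 2 * i ∨ ((k = 0 ∨ k = 1 ∨ k = 3 ∨ k = 4) ∧ -a < m + 2 * i))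
    {w : ℝ → ℝ → ℝ} (hw : Continuous (uncurry w)) :
    Null μ p n e (fun d => w (d 5) (d 7) * rG k m (rh a) (rh' a) i j d) := by
  refine h.null_prof (by omega) hc e (b := (-a).toNat) (l := m - 1) (by omega) ?_
    (prof_rh (Int.self_le_toNat _)) hw
  rcases hs with hs | ⟨hk, hs⟩
  · left
    omega
  · right
    exact ⟨hk, by omega⟩

/-- The rows with the critical power of the chordal distance, every dimension. -/
theorem EmbD.crit_H (hD : EmbD μ m p n C S) (hm : 2 ≤ m) (e : E) {k : Fin 6}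
    (hk : k = 0 ∨ k = 3 ∨ k = 4) (j : ℕ) {w : ℝ → ℝ → ℝ} (hw : Continuous (uncurry w)) :
    Val μ p n e (fun d => w (d 5) (d 7) * rG k m (rh (-m)) (rh' (-m)) 0 j d)
      (KH m * (S * fluxV μ p n e w k j)) := by
  have hI := cI_pos m
  set c := cI m / 2 ^ m with hc
  have hc0 : 0 < c := by positivity
  obtain ⟨Φ, hP⟩ := prof_dif hm
  have h1 := hD.crit_M hm e hk j hw
  have hsub : Sub k (m - 2) 0 (m - 1) := Or.inl (by omega)
  have h2 := hD.toTwoG.null_prof (by omega) hD.contact e (i := 0) (j := j) (l := m - 1)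
    (by omega) hsub hP hw
  have h3 := ((h1.sub h2.val).congr (sub_zero _)).const_mul c⁻¹
  refine (h3.congr ?_).congr_ae (Eventually.of_forall fun y => ?_)
  · unfold KH
    rw [hc, inv_div]
  · have h4 : rG k m (rh (-m)) (rh' (-m)) 0 j (dat p n e y)
        = c⁻¹ * rG k m (ph m 1) (ph' m 1) 0 j (dat p n e y)
          + (-c⁻¹) * rG k m (fun s => ph m 1 s - c * rh (-m) s)
            (fun s => ph' m 1 s - c * rh' (-m) s) 0 j (dat p n e y) := by
      rw [rG_lin]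
      refine rG_congr k m 0 j ?_ ?_
      · field_simp
        ring
      · field_simp
        ring
    rw [h4]
    ring

/-- the value of a term -/
theorem EmbD.val_H [CompleteSpace E] [Nonempty X] (hD : EmbD μ m p n C S)
    (hm : 2 ≤ m) {e : E} (he : (μ.real univ) • e = ∫ x, n x ∂μ) (hA : 0 < μ.real univ)
    {T : HTerm} (hT : T.ok m = true) :
    Val μ p n e (T.F m) (KH m * S * (μ.real univ
      * T.V m (‖e‖ ^ 2) ((∫ y, ⟪n y, e⟫ ^ 2 ∂μ) / μ.real univ))) := by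
  have hm0 : 0 < m := by omega
  have hG := hD.toTwoG
  have hw : Continuous (uncurry fun a b : ℝ => (‖e‖ ^ 2) ^ T.l * (a ^ T.k * b ^ T.d)) := by
    unfold Function.uncurry
    fun_prop
  have hE : ∀ q, dat p n e q 8 = ‖e‖ ^ 2 := fun q => real_inner_self_eq_norm_sq e
  by_cases hs : T.sub m = true
  · have hq : 1 - T.e < m + 2 * T.i ∨ ((T.fam = 0 ∨ T.fam = 1 ∨ T.fam = 3 ∨ T.fam = 4)
        ∧ -T.e < m + 2 * T.i) := by
      simp only [HTerm.sub, Bool.or_eq_true, Bool.and_eq_true, decide_eq_true_eq] at hs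
      rcases hs with hs | ⟨h1, h2⟩
      · exact Or.inl hs
      · refine Or.inr ⟨?_, h2⟩
        rcases h1 with ((h1 | h1) | h1) | h1
        · exact Or.inl h1
        · exact Or.inr (Or.inl h1)
        · exact Or.inr (Or.inr (Or.inl h1))
        · exact Or.inr (Or.inr (Or.inr h1))
    have h1 := hG.null_H hm hD.contact e (j := T.j) hq hw
    have h2 : Val μ p n e (T.F m) 0 := by
      refine h1.val.congr_ae (Eventually.of_forall fun q => ?_)
      unfold HTerm.F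
      rw [hE q]
    refine h2.congr ?_
    unfold HTerm.V
    rw [if_pos hs]
    ring
  · have hc : T.cri m = true := by
      rcases Bool.eq_false_or_eq_true (T.sub m) with h1 | h1
      · exact absurd h1 hs
      · unfold HTerm.ok at hT
        rw [h1, Bool.false_or] at hT
        exact hT
    simp only [HTerm.cri, Bool.and_eq_true, Bool.or_eq_true, decide_eq_true_eq] at hc
    obtain ⟨⟨⟨hq, hi⟩, hk⟩, hmom⟩ := hc
    have hk' : T.fam = 0 ∨ T.fam = 3 ∨ T.fam = 4 := or_assoc.1 hk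
    have hab : (T.kn = 0 ∧ T.kx = 0) ∨ (T.kn = 1 ∧ T.kx = 0) ∨ (T.kn = 2 ∧ T.kx = 0)
        ∨ (T.kn = 0 ∧ T.kx = 1) ∨ (T.kn = 0 ∧ T.kx = 2) := by
      rcases hmom with (((h1 | h1) | h1) | h1) | h1
      · exact Or.inl h1
      · exact Or.inr (Or.inl h1)
      · exact Or.inr (Or.inr (Or.inl h1))
      · exact Or.inr (Or.inr (Or.inr (Or.inl h1)))
      · exact Or.inr (Or.inr (Or.inr (Or.inr h1)))
    have h1 := hD.crit_H hm e hk' T.j hw
    have h2 := h1.congr_ae (g := T.F m) (Eventually.of_forall fun q => by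
      unfold HTerm.F
      rw [hE q, hq, hi])
    refine h2.congr ?_
    have hmo := hG.momM_eq hm0 he hA hab
    have e1 : fluxV μ p n e (fun a b => (‖e‖ ^ 2) ^ T.l * (a ^ T.k * b ^ T.d)) T.fam T.j
        = (if T.fam = 0 then 1 else -1) * ((‖e‖ ^ 2) ^ T.l
          * ∫ y, ⟪n y, e⟫ ^ T.kn * ⟪p y, e⟫ ^ T.kx ∂μ) :=
      flux_eq (μ := μ) (p := p) hD.nn e T.toR hk'
    rw [e1, hmo]
    unfold HTerm.V
    rw [if_neg hs]
    ring

end

/-- the symmetrized sum of terms -/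
noncomputable def hsum (m : ℕ) (l : List (ℝ × HTerm)) (d : R9) : ℝ :=
  (l.map fun cT => cT.1 * ((cT.2.F m d + cT.2.F m (sw9 d)) / 2)).sum

/-- the normalized value of a sum of terms -/
noncomputable def hval (m : ℕ) (l : List (ℝ × HTerm)) (u r : ℝ) : ℝ :=
  (l.map fun cT => cT.1 * cT.2.V m u r).sum

section

variable {X : Type*} [MeasurableSpace X] {E : Type*} [NormedAddCommGroup E]
  [InnerProductSpace ℝ E] [MeasurableSpace E] [BorelSpace E] [SecondCountableTopology E]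
  {μ : Measure X} [IsFiniteMeasure μ] {m : ℕ} {p n : X → E} {C S : ℝ}

theorem EmbD.val_listH [CompleteSpace E] [Nonempty X] (hD : EmbD μ m p n C S)
    (hm : 2 ≤ m) {e : E} (he : (μ.real univ) • e = ∫ x, n x ∂μ) (hA : 0 < μ.real univ)
    {l : List (ℝ × HTerm)} (hl : ∀ cT ∈ l, cT.2.ok m = true) :
    Val μ p n e (hsum m l) (KH m * S * (μ.real univ
      * hval m l (‖e‖ ^ 2) ((∫ y, ⟪n y, e⟫ ^ 2 ∂μ) / μ.real univ))) := by
  induction l with
  | nil =>
    have h0 := (Null.zero (μ := μ) (p := p) (n := n) e).val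
    refine (h0.congr ?_)
    simp [hval]
  | cons cT l ih =>
    have h1 := hD.val_H hm he hA (hl cT List.mem_cons_self)
    have h2 := ih fun cT hcT => hl cT (List.mem_cons_of_mem _ hcT)
    have h3 := ((h1.add h1.swap).const_mul (cT.1 / 2)).add h2
    have e1 : hsum m (cT :: l) = fun d => cT.1 / 2 * (cT.2.F m d
        + cT.2.F m (sw9 d)) + hsum m l d := by
      funext d
      simp only [hsum, List.map_cons, List.sum_cons]
      ring
    rw [e1]
    refine h3.congr ?_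
    simp only [hval, List.map_cons, List.sum_cons]
    ring

/-- The law of a certificate with powers of the chordal distance and a functional `L`. -/
theorem EmbD.law_HL [CompleteSpace E] [Nonempty X] (hD : EmbD μ m p n C S)
    (hm2 : 2 ≤ m) {e : E} (he : (μ.real univ) • e = ∫ x, n x ∂μ) (hA : 0 < μ.real univ)
    {L : R9 → ℝ} {Cc γ : ℝ}
    (hLi : Integrable (fun q => L (dat p n e q)) (μ.prod μ))
    (hL : ∫ q, L (dat p n e q) ∂(μ.prod μ) + Cc * S * μ.real univ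
      ≤ μ.real univ ^ 2 + γ * ‖∫ x, n x ∂μ‖ ^ 2)
    {b0 b1 b2 b3 b4 b5 b6 b7 b8 : ℝ} {l : List (ℝ × HTerm)}
    (hl : ∀ cT ∈ l, cT.2.ok m = true)
    (hpos : ∀ x N y w : E, ‖x‖ = 1 → ‖N‖ = 1 → ‖y‖ = 1 → ‖w‖ = 1 → ⟪x, N⟫ = 0 → ⟪y, w⟫ = 0 →
      ⟪x, y⟫ < 1 → 0 ≤ L (dv x N y w e) + W9 b0 b1 b2 b3 b4 b5 b6 b7 b8 (dv x N y w e)
        + hsum m l (dv x N y w e)) :
    ∃ r : ℝ, (‖e‖ ^ 2) ^ 2 ≤ r ∧ r ≤ ‖e‖ ^ 2 ∧
      Cc * S ≤ μ.real univ * (1 + γ * ‖e‖ ^ 2 + (b0 + (b1 + b2 + b3) * ‖e‖ ^ 2 + (b4 + b7) * r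
          + (b5 + b6) * (‖e‖ ^ 2) ^ 2 + b8 * ((‖e‖ ^ 2 - r) / (m + 1))))
        + KH m * S * hval m l (‖e‖ ^ 2) r := by
  have hm : 0 < m := by omega
  have hG := hD.toTwoG
  obtain ⟨z₀⟩ := ‹Nonempty X›
  set A := μ.real univ with hAdef
  set q2 := ∫ x, ⟪n x, e⟫ ^ 2 ∂μ with hq2
  set z2 := ∫ x, ⟪p x, e⟫ ^ 2 ∂μ with hz2
  have hm1 : (0 : ℝ) < m + 1 := by positivity
  have hmom := hG.moment e z₀
  rw [← hAdef, ← hz2, ← hq2] at hmom
  have hz0 : 0 ≤ z2 := integral_nonneg fun x => sq_nonneg _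
  have hI1 : ⟪∫ x, n x ∂μ, e⟫ = A * ‖e‖ ^ 2 := by
    rw [← he, real_inner_smul_left, real_inner_self_eq_norm_sq]
  have hcs : (A * ‖e‖ ^ 2) ^ 2 ≤ A * q2 := by
    have := inner_integral_sq_le (μ := μ) (n := n) (integrable_unit hG.mn hG.nn) e
      (integrable_in_sq hG.mn hG.nn e)
    rwa [hI1] at this
  refine ⟨q2 / A, ?_, ?_, ?_⟩
  · rw [le_div_iff₀ hA]
    have h3 : A * ((‖e‖ ^ 2) ^ 2 * A) ≤ A * q2 := by
      calc A * ((‖e‖ ^ 2) ^ 2 * A) = (A * ‖e‖ ^ 2) ^ 2 := by ring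
        _ ≤ _ := hcs
    exact le_of_mul_le_mul_left h3 hA
  · rw [div_le_iff₀ hA]
    have := mul_nonneg hm1.le hz0
    linarith
  · have hv := hD.val_listH hm2 he hA hl
    rw [← hAdef, ← hq2] at hv
    have hW := value_W9 hG he b0 b1 b2 b3 b4 b5 b6 b7 b8
    rw [← hAdef, ← hq2, ← hz2] at hW
    have hWi : Integrable (fun q => W9 b0 b1 b2 b3 b4 b5 b6 b7 b8 (dat p n e q)) (μ.prod μ) := by
      have c3 : Continuous (W9 b0 b1 b2 b3 b4 b5 b6 b7 b8) := by
        unfold W9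
        fun_prop
      exact integrable_param _ (measurable_dat hD.toPts e) (isCompact_KE (bE e))
        (dat_mem hD.toPts e) c3.measurable c3.continuousOn
    have hLW : Integrable (fun q => L (dat p n e q) + W9 b0 b1 b2 b3 b4 b5 b6 b7 b8 (dat p n e q))
        (μ.prod μ) := hLi.add hWi
    have h0 : 0 ≤ ∫ q, (L (dat p n e q) + W9 b0 b1 b2 b3 b4 b5 b6 b7 b8 (dat p n e q)
        + hsum m l (dat p n e q)) ∂(μ.prod μ) := by
      refine integral_nonneg_of_ae ?_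
      filter_upwards [hG.ae_lt hm e] with q hq
      exact hpos _ _ _ _ (hD.np _) (hD.nn _) (hD.np _) (hD.nn _) (hD.pn _) (hD.pn _) hq
    rw [integral_add hLW hv.1, integral_add hLi hWi, hv.2, hW] at h0
    have hnorm : ‖∫ x, n x ∂μ‖ ^ 2 = A ^ 2 * ‖e‖ ^ 2 := by
      rw [← he, norm_smul, mul_pow, Real.norm_eq_abs, sq_abs]
    rw [hnorm] at hL
    have hz2' : z2 = A * ((‖e‖ ^ 2 - q2 / A) / (m + 1)) := by
      field_simp
      linarith
    have hq2' : q2 = A * (q2 / A) := by field_simp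
    generalize q2 / A = r at *
    rw [hz2', hq2'] at h0
    have hfin : A * (Cc * S) ≤ A * (A * (1 + γ * ‖e‖ ^ 2 + (b0 + (b1 + b2 + b3) * ‖e‖ ^ 2
        + (b4 + b7) * r + (b5 + b6) * (‖e‖ ^ 2) ^ 2 + b8 * ((‖e‖ ^ 2 - r) / (m + 1))))
        + KH m * S * hval m l (‖e‖ ^ 2) r) := by
      linarith
    exact le_of_mul_le_mul_left hfin hA

/-- The law of a direct certificate with powers of the chordal distance: no functional, every
dimension `m ≥ 2`. -/
theorem EmbD.law_H [CompleteSpace E] [Nonempty X] (hD : EmbD μ m p n C S)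
    (hm2 : 2 ≤ m) {e : E} (he : (μ.real univ) • e = ∫ x, n x ∂μ) (hA : 0 < μ.real univ)
    {b0 b1 b2 b3 b4 b5 b6 b7 b8 : ℝ} {l : List (ℝ × HTerm)}
    (hl : ∀ cT ∈ l, cT.2.ok m = true)
    (hpos : ∀ x N y w : E, ‖x‖ = 1 → ‖N‖ = 1 → ‖y‖ = 1 → ‖w‖ = 1 → ⟪x, N⟫ = 0 → ⟪y, w⟫ = 0 →
      ⟪x, y⟫ < 1 → 0 ≤ W9 b0 b1 b2 b3 b4 b5 b6 b7 b8 (dv x N y w e)
        + hsum m l (dv x N y w e)) :
    ∃ r : ℝ, (‖e‖ ^ 2) ^ 2 ≤ r ∧ r ≤ ‖e‖ ^ 2 ∧
      0 ≤ μ.real univ * (b0 + (b1 + b2 + b3) * ‖e‖ ^ 2 + (b4 + b7) * r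
          + (b5 + b6) * (‖e‖ ^ 2) ^ 2 + b8 * ((‖e‖ ^ 2 - r) / (m + 1)))
        + KH m * S * hval m l (‖e‖ ^ 2) r := by
  have hLi : Integrable (fun q => (fun _ : R9 => (1 : ℝ)) (dat p n e q)) (μ.prod μ) :=
    integrable_const _
  have hL : ∫ q, (fun _ : R9 => (1 : ℝ)) (dat p n e q) ∂(μ.prod μ) + 0 * S * μ.real univ
      ≤ μ.real univ ^ 2 + 0 * ‖∫ x, n x ∂μ‖ ^ 2 := by
    rw [integral_const, smul_eq_mul, measureReal_def, ← univ_prod_univ, Measure.prod_prod,
      ENNReal.toReal_mul, ← measureReal_def]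
    linarith
  obtain ⟨r, h1, h2, h3⟩ := hD.law_HL hm2 he hA (L := fun _ => 1) (b0 := b0 - 1) (b1 := b1) (b2 := b2) (b3 := b3)
    (b4 := b4) (b5 := b5) (b6 := b6) (b7 := b7) (b8 := b8) hLi hL hl
    (fun x N y w a1 a2 a3 a4 a5 a6 a7 => by
      have h := hpos x N y w a1 a2 a3 a4 a5 a6 a7
      unfold W9 at h ⊢
      linarith)
  exact ⟨r, h1, h2, by linarith⟩

end

end Vale.Agent.P224.UE
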