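import Vale.Agent.P224.UE.Law

/-!
The evaluation of the law at the mean normal.
-/

namespace Vale.Agent.P224.UE

open Matrix MeasureTheory Module Function Set Filter Vale.Agent.P224 Vale.Agent.P224.FV
open Vale.Agent.P224.SM2 hiding ker
open scoped RealInnerProductSpace Topology ContDiff Manifold

set_option linter.unusedSectionVars false
set_option linter.unusedSimpArgs false

/-- the general value function -/
noncomputable def W9 (b0 b1 b2 b3 b4 b5 b6 b7 b8 : ℝ) (d : R9) : ℝ :=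
  b0 + b1 * d 3 + b2 * ((d 4 + d 5) / 2) + b3 * d 8 + b4 * ((d 4 ^ 2 + d 5 ^ 2) / 2)
    + b5 * (d 4 * d 5) + b6 * (d 3 * d 8) + b7 * (d 3 * ((d 4 + d 5) / 2))
    + b8 * ((d 6 ^ 2 + d 7 ^ 2) / 2)

/-- the flux density -/
def psi5 (j0 j1 j2 j3 j4 E a b : ℝ) : ℝ := j0 + j1 * a + j2 * E + j3 * a ^ 2 + j4 * b ^ 2

section

variable {X : Type*} [MeasurableSpace X] {E : Type*} [NormedAddCommGroup E]
  [InnerProductSpace ℝ E] [MeasurableSpace E] [BorelSpace E] [SecondCountableTopology E]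
  [CompleteSpace E] {μ : Measure X} [IsFiniteMeasure μ] {m : ℕ} {p n : X → E}

omit [MeasurableSpace X] [MeasurableSpace E] [BorelSpace E] [SecondCountableTopology E]
  [CompleteSpace E] in
lemma dat3 (e : E) (q : X × X) : dat p n e q 3 = ⟪n q.1, n q.2⟫ := rfl

omit [MeasurableSpace X] [MeasurableSpace E] [BorelSpace E] [SecondCountableTopology E]
  [CompleteSpace E] in
lemma dat4 (e : E) (q : X × X) : dat p n e q 4 = ⟪n q.1, e⟫ := rfl

omit [MeasurableSpace X] [MeasurableSpace E] [BorelSpace E] [SecondCountableTopology E]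
  [CompleteSpace E] in
lemma dat5 (e : E) (q : X × X) : dat p n e q 5 = ⟪n q.2, e⟫ := rfl

omit [MeasurableSpace X] [MeasurableSpace E] [BorelSpace E] [SecondCountableTopology E]
  [CompleteSpace E] in
lemma dat6 (e : E) (q : X × X) : dat p n e q 6 = ⟪p q.1, e⟫ := rfl

omit [MeasurableSpace X] [MeasurableSpace E] [BorelSpace E] [SecondCountableTopology E]
  [CompleteSpace E] in
lemma dat7 (e : E) (q : X × X) : dat p n e q 7 = ⟪p q.2, e⟫ := rfl

lemma integrable_unit {f : X → E} (hf : Measurable f) (h1 : ∀ x, ‖f x‖ = 1) : Integrable f μ :=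
  Integrable.of_bound hf.aestronglyMeasurable 1 (Eventually.of_forall fun x => (h1 x).le)

lemma integrable_in {f : X → E} (hf : Measurable f) (h1 : ∀ x, ‖f x‖ = 1) (e : E) :
    Integrable (fun x => ⟪f x, e⟫) μ := by
  refine Integrable.of_bound (hf.inner measurable_const).aestronglyMeasurable ‖e‖
    (Eventually.of_forall fun x => ?_)
  have := abs_real_inner_le_norm (f x) e
  rwa [h1, one_mul] at this

lemma integrable_in_sq {f : X → E} (hf : Measurable f) (h1 : ∀ x, ‖f x‖ = 1) (e : E) :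
    Integrable (fun x => ⟪f x, e⟫ ^ 2) μ := by
  refine Integrable.of_bound ((hf.inner measurable_const).pow_const 2).aestronglyMeasurable
    (‖e‖ ^ 2) (Eventually.of_forall fun x => ?_)
  have := abs_real_inner_le_norm (f x) e
  rw [h1, one_mul] at this
  rw [Real.norm_eq_abs, abs_pow]
  exact pow_le_pow_left₀ (abs_nonneg _) this 2

lemma integral_in {f : X → E} (hf : Measurable f) (h1 : ∀ x, ‖f x‖ = 1) (e : E) :
    ∫ x, ⟪f x, e⟫ ∂μ = ⟪∫ x, f x ∂μ, e⟫ := by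
  rw [real_inner_comm, ← integral_inner (integrable_unit hf h1)]
  refine integral_congr_ae (Eventually.of_forall fun x => ?_)
  simp only
  rw [real_inner_comm]

/-- the moment identity -/
lemma TwoG.moment (h : TwoG μ m p n) (e : E) (z : X) :
    ((m : ℝ) + 1) * ∫ x, ⟪p x, e⟫ ^ 2 ∂μ + ∫ x, ⟪n x, e⟫ ^ 2 ∂μ = μ.real univ * ‖e‖ ^ 2 := by
  have h1 := h.rowG z e (fun _ => 1) (fun _ => 0)
    (fun s _ => ⟨contDiffAt_const, hasDerivAt_const s 1⟩) 2 0 1
  have e1 : ∀ x, rG 2 m (fun _ => 1) (fun _ => 0) 0 1 (dat p n e (x, z))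
      = ‖e‖ ^ 2 - ((m : ℝ) + 1) * ⟪p x, e⟫ ^ 2 - ⟪n x, e⟫ ^ 2 := by
    intro x
    have hE2 : ⟪e, e⟫ = ‖e‖ ^ 2 := real_inner_self_eq_norm_sq e
    have r4 : dat p n e (x, z) 4 = ⟪n x, e⟫ := rfl
    have r6 : dat p n e (x, z) 6 = ⟪p x, e⟫ := rfl
    have r8 : dat p n e (x, z) 8 = ‖e‖ ^ 2 := hE2
    unfold rG rowE
    simp only [r4, r6, r8]
    norm_num
    ring
  simp only [e1] at h1
  have i1 := integrable_in_sq (μ := μ) h.mp h.np e
  have i2 := integrable_in_sq (μ := μ) h.mn h.nn e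
  have i3 : Integrable (fun x => ‖e‖ ^ 2 - ((m : ℝ) + 1) * ⟪p x, e⟫ ^ 2) μ :=
    (integrable_const _).sub (i1.const_mul _)
  rw [integral_sub i3 i2, integral_sub (integrable_const _) (i1.const_mul _), integral_const,
    integral_const_mul, smul_eq_mul] at h1
  linarith

/-- the value of the double integral at the mean normal -/
theorem value_W9 (h : TwoG μ m p n) {e : E} (he : (μ.real univ) • e = ∫ x, n x ∂μ)
    (b0 b1 b2 b3 b4 b5 b6 b7 b8 : ℝ) :
    ∫ q, W9 b0 b1 b2 b3 b4 b5 b6 b7 b8 (dat p n e q) ∂(μ.prod μ)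
      = μ.real univ ^ 2 * (b0 + (b1 + b2 + b3) * ‖e‖ ^ 2 + (b5 + b6) * (‖e‖ ^ 2) ^ 2)
        + μ.real univ * ((b4 + b7) * ∫ x, ⟪n x, e⟫ ^ 2 ∂μ + b8 * ∫ x, ⟪p x, e⟫ ^ 2 ∂μ) := by
  set A := μ.real univ with hA
  set I := ∫ x, n x ∂μ with hI
  set q2 := ∫ x, ⟪n x, e⟫ ^ 2 ∂μ with hq2
  set z2 := ∫ x, ⟪p x, e⟫ ^ 2 ∂μ with hz2
  have hIe : ⟪I, e⟫ = A * ‖e‖ ^ 2 := by
    rw [← he, real_inner_smul_left, real_inner_self_eq_norm_sq]
  have hII : ⟪I, I⟫ = A ^ 2 * ‖e‖ ^ 2 := by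
    rw [← he, real_inner_smul_left, real_inner_smul_right, real_inner_self_eq_norm_sq]
    ring
  have hn1 : ∫ x, ⟪n x, e⟫ ∂μ = A * ‖e‖ ^ 2 := by
    rw [integral_in h.mn h.nn, ← hI, hIe]
  have hone : ∫ _x : X, (1 : ℝ) ∂μ = A := by simp [hA]
  have hEE : ∀ q, dat p n e q 8 = ‖e‖ ^ 2 := fun q => real_inner_self_eq_norm_sq e
  have hint : ∀ f : R9 → ℝ, Continuous f → Integrable (fun q => f (dat p n e q)) (μ.prod μ) :=
    fun f hf => integrable_param _ (measurable_dat h.toPts e) (isCompact_KE (bE e))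
      (dat_mem h.toPts e) hf.measurable hf.continuousOn
  -- the single integrals
  have v0 : ∫ _q : X × X, (1 : ℝ) ∂(μ.prod μ) = A ^ 2 := by
    have := integral_prod_mul (μ := μ) (ν := μ) (fun _ : X => (1 : ℝ)) (fun _ : X => (1 : ℝ))
    rw [hone] at this
    simp only [one_mul] at this
    rw [this]
    ring
  have v3 : ∫ q, dat p n e q 3 ∂(μ.prod μ) = A ^ 2 * ‖e‖ ^ 2 := by
    rw [integral_prod_symm _ (hint (fun d => d 3) (by fun_prop))]
    have : ∀ z, ∫ x, dat p n e (x, z) 3 ∂μ = ⟪I, n z⟫ := fun z => by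
      simp only [dat3]
      exact integral_in h.mn h.nn (n z)
    simp only [this]
    rw [integral_inner (integrable_unit h.mn h.nn), hII]
  have v4 : ∫ q, dat p n e q 4 ∂(μ.prod μ) = A ^ 2 * ‖e‖ ^ 2 := by
    have := integral_prod_mul (μ := μ) (ν := μ) (fun x : X => ⟪n x, e⟫) (fun _ : X => (1 : ℝ))
    simp only [mul_one] at this
    rw [hone, hn1] at this
    simp only [dat4]
    rw [this]
    ring
  have v5 : ∫ q, dat p n e q 5 ∂(μ.prod μ) = A ^ 2 * ‖e‖ ^ 2 := by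
    have := integral_prod_mul (μ := μ) (ν := μ) (fun _ : X => (1 : ℝ)) (fun x : X => ⟪n x, e⟫)
    simp only [one_mul] at this
    rw [hone, hn1] at this
    simp only [dat5]
    rw [this]
    ring
  have v44 : ∫ q, dat p n e q 4 ^ 2 ∂(μ.prod μ) = A * q2 := by
    have := integral_prod_mul (μ := μ) (ν := μ) (fun x : X => ⟪n x, e⟫ ^ 2)
      (fun _ : X => (1 : ℝ))
    simp only [mul_one] at this
    rw [hone] at this
    simp only [dat4]
    rw [this]
    ring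
  have v55 : ∫ q, dat p n e q 5 ^ 2 ∂(μ.prod μ) = A * q2 := by
    have := integral_prod_mul (μ := μ) (ν := μ) (fun _ : X => (1 : ℝ))
      (fun x : X => ⟪n x, e⟫ ^ 2)
    simp only [one_mul] at this
    rw [hone] at this
    simp only [dat5]
    rw [this]
  have v66 : ∫ q, dat p n e q 6 ^ 2 ∂(μ.prod μ) = A * z2 := by
    have := integral_prod_mul (μ := μ) (ν := μ) (fun x : X => ⟪p x, e⟫ ^ 2)
      (fun _ : X => (1 : ℝ))
    simp only [mul_one] at this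
    rw [hone] at this
    simp only [dat6]
    rw [this]
    ring
  have v77 : ∫ q, dat p n e q 7 ^ 2 ∂(μ.prod μ) = A * z2 := by
    have := integral_prod_mul (μ := μ) (ν := μ) (fun _ : X => (1 : ℝ))
      (fun x : X => ⟪p x, e⟫ ^ 2)
    simp only [one_mul] at this
    rw [hone] at this
    simp only [dat7]
    rw [this]
  have v45 : ∫ q, dat p n e q 4 * dat p n e q 5 ∂(μ.prod μ) = A ^ 2 * (‖e‖ ^ 2) ^ 2 := by
    have := integral_prod_mul (μ := μ) (ν := μ) (fun x : X => ⟪n x, e⟫) (fun x : X => ⟪n x, e⟫)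
    rw [hn1] at this
    simp only [dat4, dat5]
    rw [this]
    ring
  have v35 : ∫ q, dat p n e q 3 * dat p n e q 5 ∂(μ.prod μ) = A * q2 := by
    rw [integral_prod_symm _ (hint (fun d => d 3 * d 5) (by fun_prop))]
    have : ∀ z, ∫ x, dat p n e (x, z) 3 * dat p n e (x, z) 5 ∂μ = A * ⟪n z, e⟫ ^ 2 := by
      intro z
      simp only [dat3, dat5]
      rw [integral_mul_const, integral_in h.mn h.nn, ← hI, ← he, real_inner_smul_left,
        real_inner_comm]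
      ring
    simp only [this]
    rw [integral_const_mul]
  have v34 : ∫ q, dat p n e q 3 * dat p n e q 4 ∂(μ.prod μ) = A * q2 := by
    rw [integral_prod _ (hint (fun d => d 3 * d 4) (by fun_prop))]
    have : ∀ x, ∫ z, dat p n e (x, z) 3 * dat p n e (x, z) 4 ∂μ = A * ⟪n x, e⟫ ^ 2 := by
      intro x
      simp only [dat3, dat4]
      have e2 : ∀ z, ⟪n x, n z⟫ = ⟪n z, n x⟫ := fun z => real_inner_comm _ _
      simp only [e2]
      rw [integral_mul_const, integral_in h.mn h.nn, ← hI, ← he, real_inner_smul_left,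
        real_inner_comm]
      ring
    simp only [this]
    rw [integral_const_mul]
  -- the sum
  have e0 : ∀ q, W9 b0 b1 b2 b3 b4 b5 b6 b7 b8 (dat p n e q)
      = (b0 + b3 * ‖e‖ ^ 2) * 1 + ((b1 + b6 * ‖e‖ ^ 2) * dat p n e q 3
        + (b2 / 2 * dat p n e q 4 + (b2 / 2 * dat p n e q 5
        + (b4 / 2 * dat p n e q 4 ^ 2 + (b4 / 2 * dat p n e q 5 ^ 2
        + (b5 * (dat p n e q 4 * dat p n e q 5) + (b7 / 2 * (dat p n e q 3 * dat p n e q 4)
        + (b7 / 2 * (dat p n e q 3 * dat p n e q 5) + (b8 / 2 * dat p n e q 6 ^ 2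
        + b8 / 2 * dat p n e q 7 ^ 2))))))))) := by
    intro q
    unfold W9
    rw [hEE q]
    ring
  simp only [e0]
  have step : ∀ (f g : R9 → ℝ) (a b : ℝ), Continuous f → Continuous g →
      ∫ q, f (dat p n e q) ∂(μ.prod μ) = a → ∫ q, g (dat p n e q) ∂(μ.prod μ) = b →
      ∫ q, (f (dat p n e q) + g (dat p n e q)) ∂(μ.prod μ) = a + b := by
    intro f g a b hf hg ha hb
    rw [integral_add (hint f hf) (hint g hg), ha, hb]
  have cm : ∀ (f : R9 → ℝ) (a c : ℝ), ∫ q, f (dat p n e q) ∂(μ.prod μ) = a →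
      ∫ q, c * f (dat p n e q) ∂(μ.prod μ) = c * a := by
    intro f a c ha
    rw [integral_const_mul, ha]
  have t1 := step (fun d => b8 / 2 * d 6 ^ 2) (fun d => b8 / 2 * d 7 ^ 2) _ _ (by fun_prop)
    (by fun_prop) (cm (fun d => d 6 ^ 2) _ _ v66) (cm (fun d => d 7 ^ 2) _ _ v77)
  have t2 := step (fun d => b7 / 2 * (d 3 * d 5)) (fun d => b8 / 2 * d 6 ^ 2 + b8 / 2 * d 7 ^ 2)
    _ _ (by fun_prop) (by fun_prop) (cm (fun d => d 3 * d 5) _ _ v35) t1
  have t3 := step (fun d => b7 / 2 * (d 3 * d 4)) (fun d => b7 / 2 * (d 3 * d 5)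
    + (b8 / 2 * d 6 ^ 2 + b8 / 2 * d 7 ^ 2)) _ _ (by fun_prop) (by fun_prop)
    (cm (fun d => d 3 * d 4) _ _ v34) t2
  have t4 := step (fun d => b5 * (d 4 * d 5)) (fun d => b7 / 2 * (d 3 * d 4)
    + (b7 / 2 * (d 3 * d 5) + (b8 / 2 * d 6 ^ 2 + b8 / 2 * d 7 ^ 2))) _ _ (by fun_prop)
    (by fun_prop) (cm (fun d => d 4 * d 5) _ _ v45) t3
  have t5 := step (fun d => b4 / 2 * d 5 ^ 2) (fun d => b5 * (d 4 * d 5) + (b7 / 2 * (d 3 * d 4)
    + (b7 / 2 * (d 3 * d 5) + (b8 / 2 * d 6 ^ 2 + b8 / 2 * d 7 ^ 2)))) _ _ (by fun_prop)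
    (by fun_prop) (cm (fun d => d 5 ^ 2) _ _ v55) t4
  have t6 := step (fun d => b4 / 2 * d 4 ^ 2) (fun d => b4 / 2 * d 5 ^ 2 + (b5 * (d 4 * d 5)
    + (b7 / 2 * (d 3 * d 4) + (b7 / 2 * (d 3 * d 5) + (b8 / 2 * d 6 ^ 2 + b8 / 2 * d 7 ^ 2)))))
    _ _ (by fun_prop) (by fun_prop) (cm (fun d => d 4 ^ 2) _ _ v44) t5
  have t7 := step (fun d => b2 / 2 * d 5) (fun d => b4 / 2 * d 4 ^ 2 + (b4 / 2 * d 5 ^ 2
    + (b5 * (d 4 * d 5) + (b7 / 2 * (d 3 * d 4) + (b7 / 2 * (d 3 * d 5)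
    + (b8 / 2 * d 6 ^ 2 + b8 / 2 * d 7 ^ 2))))))
    _ _ (by fun_prop) (by fun_prop) (cm (fun d => d 5) _ _ v5) t6
  have t8 := step (fun d => b2 / 2 * d 4) (fun d => b2 / 2 * d 5 + (b4 / 2 * d 4 ^ 2
    + (b4 / 2 * d 5 ^ 2 + (b5 * (d 4 * d 5) + (b7 / 2 * (d 3 * d 4) + (b7 / 2 * (d 3 * d 5)
    + (b8 / 2 * d 6 ^ 2 + b8 / 2 * d 7 ^ 2)))))))
    _ _ (by fun_prop) (by fun_prop) (cm (fun d => d 4) _ _ v4) t7
  have t9 := step (fun d => (b1 + b6 * ‖e‖ ^ 2) * d 3) (fun d => b2 / 2 * d 4 + (b2 / 2 * d 5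
    + (b4 / 2 * d 4 ^ 2
    + (b4 / 2 * d 5 ^ 2 + (b5 * (d 4 * d 5) + (b7 / 2 * (d 3 * d 4) + (b7 / 2 * (d 3 * d 5)
    + (b8 / 2 * d 6 ^ 2 + b8 / 2 * d 7 ^ 2))))))))
    _ _ (by fun_prop) (by fun_prop) (cm (fun d => d 3) _ _ v3) t8
  have t10 := step (fun _ => (b0 + b3 * ‖e‖ ^ 2) * 1) (fun d => (b1 + b6 * ‖e‖ ^ 2) * d 3
    + (b2 / 2 * d 4 + (b2 / 2 * d 5 + (b4 / 2 * d 4 ^ 2
    + (b4 / 2 * d 5 ^ 2 + (b5 * (d 4 * d 5) + (b7 / 2 * (d 3 * d 4) + (b7 / 2 * (d 3 * d 5)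
    + (b8 / 2 * d 6 ^ 2 + b8 / 2 * d 7 ^ 2)))))))))
    _ _ (by fun_prop) (by fun_prop) (cm (fun _ => 1) _ _ v0) t9
  refine t10.trans ?_
  ring

end

section

variable {V W M : Type*} [NormedAddCommGroup V] [InnerProductSpace ℝ V] [FiniteDimensional ℝ V]
  [NormedAddCommGroup W] [InnerProductSpace ℝ W] [FiniteDimensional ℝ W]
  [TopologicalSpace M] [ChartedSpace V M]
  [MeasurableSpace V] [BorelSpace V] [MeasurableSpace M] [BorelSpace M]
  [IsManifold 𝓘(ℝ, V) ∞ M] [CompactSpace M] [T2Space M]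
  [MeasurableSpace W] [BorelSpace W]

/-- the conformal volumes are at least the volume of the sphere -/
theorem conf_ge (hm : 0 < finrank ℝ V) (hW : finrank ℝ W = finrank ℝ V + 2)
    {F : M → W} (hF : SphImm V F) (hmin : ∀ x n, IsUnitNormal V F x n → meanCurv V F x n = 0)
    {N : M → W} (hNs : ContMDiff 𝓘(ℝ, V) 𝓘(ℝ, W) ∞ N) (hN : ∀ x, IsUnitNormal V F x (N x))
    (hinj : Injective F) (z : M) {T₁ : ℝ} (hT₁ : T₁ ∈ Ico (0 : ℝ) 1) :
    sphereVol (finrank ℝ V) ≤ ∫ x, cv (finrank ℝ V) T₁ ⟪F x, F z⟫ ∂(volM V F) := by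
  have hfin : IsFiniteMeasure (volM V F) := isFiniteMeasure_volM hF
  have h2 := twoE_of_min hW hF hmin hNs hN
  have hFc : Continuous F := hF.1.continuous
  have hcN : Continuous N := hNs.continuous
  have hrow := h2.conf hm
  have h1 := conf_antitone (μ := volM V F) (m := finrank ℝ V) (s := fun x => ⟪F x, F z⟫)
    (q := fun x => ⟪N x, F z⟫) ((hFc.inner continuous_const).measurable)
    (hcN.inner continuous_const).measurable (fun x => abs_le.1 (FV.abs_FF_le hF x z))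
    (fun x => by
      have h2 := abs_real_inner_le_norm (N x) (F z)
      rw [(hN x).1, hF.unit, mul_one] at h2
      exact abs_le.1 h2) (fun T hT => hrow z T hT)
  have hlim := density_tendsto_T hm hW hF hinj z
  refine le_of_tendsto hlim ?_
  have h0 : ∀ᶠ T in 𝓝[<] (1 : ℝ), T ∈ Ioo T₁ 1 := Ioo_mem_nhdsLT hT₁.2
  filter_upwards [h0] with T hT
  exact h1 hT₁ ⟨hT₁.1.trans hT.1.le, hT.2⟩ hT.1.le

/-- the flux with a nonnegative density -/
theorem flux_psi (hm : 0 < finrank ℝ V) (hW : finrank ℝ W = finrank ℝ V + 2)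
    {F : M → W} (hF : SphImm V F) (hmin : ∀ x n, IsUnitNormal V F x n → meanCurv V F x n = 0)
    {N : M → W} (hNs : ContMDiff 𝓘(ℝ, V) 𝓘(ℝ, W) ∞ N) (hN : ∀ x, IsUnitNormal V F x (N x))
    (hinj : Injective F) (e : W) {T₁ : ℝ} (hT₁ : T₁ ∈ Ico (0 : ℝ) 1)
    {ψ : ℝ → ℝ → ℝ} (hψ : Continuous (uncurry ψ)) (hψ0 : ∀ y, 0 ≤ ψ ⟪N y, e⟫ ⟪F y, e⟫) :
    sphereVol (finrank ℝ V) * ∫ y, ψ ⟪N y, e⟫ ⟪F y, e⟫ ∂(volM V F)
      ≤ ∫ q, cv (finrank ℝ V) T₁ (dat F N e q 0) * ψ (dat F N e q 5) (dat F N e q 7)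
        ∂((volM V F).prod (volM V F)) := by
  have hfin : IsFiniteMeasure (volM V F) := isFiniteMeasure_volM hF
  have h2 := twoE_of_min hW hF hmin hNs hN
  have hFc : Continuous F := hF.1.continuous
  have hcN : Continuous N := hNs.continuous
  have hψc := cont_psi hψ
  have hint : Integrable (fun q => cv (finrank ℝ V) T₁ (dat F N e q 0)
      * ψ (dat F N e q 5) (dat F N e q 7)) ((volM V F).prod (volM V F)) := by
    refine integrable_param _ (measurable_dat h2.toPts e) (isCompact_KE (bE e))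
      (dat_mem h2.toPts e) (f := fun d => cv (finrank ℝ V) T₁ (d 0) * ψ (d 5) (d 7))
      (((measurable_cv _ T₁).comp (measurable_pi_apply 0)).mul hψc.measurable) ?_
    have h1 := contOn_kerE hT₁ (finrank ℝ V) (bE e)
    unfold cv
    exact (continuousOn_const.mul h1).mul hψc.continuousOn
  rw [integral_prod_symm _ hint]
  have e1 : ∀ z, ∫ x, cv (finrank ℝ V) T₁ (dat F N e (x, z) 0)
      * ψ (dat F N e (x, z) 5) (dat F N e (x, z) 7) ∂(volM V F)
      = (∫ x, cv (finrank ℝ V) T₁ ⟪F x, F z⟫ ∂(volM V F)) * ψ ⟪N z, e⟫ ⟪F z, e⟫ := by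
    intro z
    rw [← integral_mul_const]
    rfl
  have hc1 : Continuous (fun z => ψ ⟪N z, e⟫ ⟪F z, e⟫) := by
    have : Continuous (fun z => (⟪N z, e⟫, ⟪F z, e⟫)) :=
      (hcN.inner continuous_const).prodMk (hFc.inner continuous_const)
    exact hψ.comp this
  rw [← integral_const_mul]
  refine integral_mono ?_ ?_ fun z => ?_
  · exact (integrable_of_cont _ hc1).const_mul _
  · exact hint.integral_prod_right
  · simp only [e1]
    exact mul_le_mul_of_nonneg_right (conf_ge hm hW hF hmin hNs hN hinj z hT₁) (hψ0 z)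

/-- The law: a static certificate at level `T₁` for the mean normal gives an inequality for the
volume. -/
theorem law_final (hm : 0 < finrank ℝ V) (hW : finrank ℝ W = finrank ℝ V + 2) [Nonempty M]
    {F : M → W} (hF : SphImm V F) (hmin : ∀ x n, IsUnitNormal V F x n → meanCurv V F x n = 0)
    {N : M → W} (hNs : ContMDiff 𝓘(ℝ, V) 𝓘(ℝ, W) ∞ N) (hN : ∀ x, IsUnitNormal V F x (N x))
    (hinj : Injective F) {e : W} (he : ((volM V F).real univ) • e = ∫ x, N x ∂(volM V F))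
    (hA : 0 < (volM V F).real univ)
    {α β T₁ : ℝ} (hT₁ : T₁ ∈ Ico (0 : ℝ) 1) (hα : 0 ≤ α) (hβ0 : 0 ≤ β) (hβ : β ≤ T₁)
    {b0 b1 b2 b3 b4 b5 b6 b7 b8 j0 j1 j2 j3 j4 : ℝ}
    (hψ0 : ∀ y w : W, ‖y‖ = 1 → ‖w‖ = 1 → ⟪y, w⟫ = 0 →
      0 ≤ psi5 j0 j1 j2 j3 j4 (‖e‖ ^ 2) ⟪w, e⟫ ⟪y, e⟫)
    {R : R9 → ℝ} (hR : Null (volM V F) F N e R)
    (hpos : ∀ x N y w : W, ‖x‖ = 1 → ‖N‖ = 1 → ‖y‖ = 1 → ‖w‖ = 1 → ⟪x, N⟫ = 0 → ⟪y, w⟫ = 0 →
      cv (finrank ℝ V) T₁ ⟪x, y⟫ * (α * ((1 + β * ⟪N, w⟫) * ‖w - e‖ ^ 2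
          + ‖e‖ ^ 2 * (1 - β * ⟪N, w⟫)) + psi5 j0 j1 j2 j3 j4 (‖e‖ ^ 2) ⟪w, e⟫ ⟪y, e⟫)
        + R (dv x N y w e) ≤ W9 b0 b1 b2 b3 b4 b5 b6 b7 b8 (dv x N y w e)) :
    ∃ q : ℝ, (‖e‖ ^ 2) ^ 2 ≤ q ∧ q ≤ ‖e‖ ^ 2 ∧
      sphereVol (finrank ℝ V) * (α * ((1 + β) * (1 - ‖e‖ ^ 2) + (1 - β) * ‖e‖ ^ 2)
          + (j0 + (j1 + j2) * ‖e‖ ^ 2 + j3 * q
            + j4 * ((‖e‖ ^ 2 - q) / ((finrank ℝ V : ℝ) + 1))))
        ≤ (volM V F).real univ * (b0 + (b1 + b2 + b3) * ‖e‖ ^ 2 + (b4 + b7) * q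
          + (b5 + b6) * (‖e‖ ^ 2) ^ 2 + b8 * ((‖e‖ ^ 2 - q) / ((finrank ℝ V : ℝ) + 1))) := by
  have hfin : IsFiniteMeasure (volM V F) := isFiniteMeasure_volM hF
  have hG := twoG_of_min hW hF hmin hNs hN
  have h2 := twoE_of_min hW hF hmin hNs hN
  have hFc : Continuous F := hF.1.continuous
  have hcN : Continuous N := hNs.continuous
  obtain ⟨z₀⟩ := ‹Nonempty M›
  set A := (volM V F).real univ with hAdef
  set q2 := ∫ x, ⟪N x, e⟫ ^ 2 ∂(volM V F) with hq2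
  set z2 := ∫ x, ⟪F x, e⟫ ^ 2 ∂(volM V F) with hz2
  set S := sphereVol (finrank ℝ V) with hS
  have hm1 : (0 : ℝ) < (finrank ℝ V : ℝ) + 1 := by positivity
  have hmom : ((finrank ℝ V : ℝ) + 1) * z2 + q2 = A * ‖e‖ ^ 2 := hG.moment e z₀
  have hz0 : 0 ≤ z2 := integral_nonneg fun x => sq_nonneg _
  have hI1 : ⟪∫ x, N x ∂(volM V F), e⟫ = A * ‖e‖ ^ 2 := by
    rw [← he, real_inner_smul_left, real_inner_self_eq_norm_sq]
  have hn1 : ∫ x, ⟪N x, e⟫ ∂(volM V F) = A * ‖e‖ ^ 2 := by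
    rw [integral_in hG.mn hG.nn, hI1]
  have hcs : (A * ‖e‖ ^ 2) ^ 2 ≤ A * q2 := by
    have := inner_integral_sq_le (μ := volM V F) (n := N) (integrable_unit hG.mn hG.nn) e
      (integrable_in_sq hG.mn hG.nn e)
    rwa [hI1] at this
  refine ⟨q2 / A, ?_, ?_, ?_⟩
  · rw [le_div_iff₀ hA]
    have h3 : A * ((‖e‖ ^ 2) ^ 2 * A) ≤ A * q2 := by
      calc A * ((‖e‖ ^ 2) ^ 2 * A) = (A * ‖e‖ ^ 2) ^ 2 := by ring
        _ ≤ _ := hcs
    exact le_of_mul_le_mul_left h3 hA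
  · rw [div_le_iff₀ hA]
    have : 0 ≤ ((finrank ℝ V : ℝ) + 1) * z2 := mul_nonneg hm1.le hz0
    linarith
  · -- the fluxes
    set ψ : ℝ → ℝ → ℝ := fun a b => psi5 j0 j1 j2 j3 j4 (‖e‖ ^ 2) a b with hψ
    have hψc : Continuous (uncurry ψ) := by
      simp only [hψ]
      unfold psi5 Function.uncurry
      fun_prop
    have hf1 := flux_psi hm hW hF hmin hNs hN hinj e hT₁ hψc
      (fun y => hψ0 _ _ (hF.unit y) (hN y).1 (hN y).2.1)
    have hf2 := tail_law hm hW hF hmin hNs hN hinj e hT₁ hβ0 hβ (χ := 1) zero_le_one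
      (fun N w hN hw => by
        have h1 : ⟪N - w, e⟫ ^ 2 ≤ (‖N - w‖ * ‖e‖) ^ 2 := by
          rw [← sq_abs]
          exact pow_le_pow_left₀ (abs_nonneg _) (abs_real_inner_le_norm _ _) 2
        have h2 : ‖N - w‖ ^ 2 ≤ 2 * (‖N - e‖ ^ 2 + ‖w - e‖ ^ 2) := by
          have h3 : ‖N - w‖ ≤ ‖N - e‖ + ‖w - e‖ := by
            calc ‖N - w‖ = ‖(N - e) - (w - e)‖ := by congr 1; abel
              _ ≤ _ := norm_sub_le _ _
          have h4 := pow_le_pow_left₀ (norm_nonneg _) h3 2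
          nlinarith [sq_nonneg (‖N - e‖ - ‖w - e‖)]
        rw [mul_pow] at h1
        have h3 := mul_le_mul_of_nonneg_right h2 (sq_nonneg ‖e‖)
        linarith)
      (ψ := fun _ _ => 0) (by unfold Function.uncurry; fun_prop) (fun _ _ => le_rfl)
    have iN := integrable_in (μ := volM V F) hG.mn hG.nn e
    have iN2 := integrable_in_sq (μ := volM V F) hG.mn hG.nn e
    have iF2 := integrable_in_sq (μ := volM V F) hG.mp hG.np e
    -- the integral of the flux density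
    have hv1 : ∫ y, ψ ⟪N y, e⟫ ⟪F y, e⟫ ∂(volM V F)
        = (j0 + j2 * ‖e‖ ^ 2) * A + j1 * (A * ‖e‖ ^ 2) + j3 * q2 + j4 * z2 := by
      have e1 : ∀ y, ψ ⟪N y, e⟫ ⟪F y, e⟫ = ((j0 + j2 * ‖e‖ ^ 2) + j1 * ⟪N y, e⟫
          + j3 * ⟪N y, e⟫ ^ 2) + j4 * ⟪F y, e⟫ ^ 2 := by
        intro y
        simp only [hψ]
        unfold psi5
        ring
      simp only [e1]
      have k1 : Integrable (fun y => (j0 + j2 * ‖e‖ ^ 2) + j1 * ⟪N y, e⟫) (volM V F) :=
        (integrable_const _).add (iN.const_mul _)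
      have k2 : Integrable (fun y => (j0 + j2 * ‖e‖ ^ 2) + j1 * ⟪N y, e⟫ + j3 * ⟪N y, e⟫ ^ 2)
        (volM V F) := k1.add (iN2.const_mul _)
      rw [integral_add k2 (iF2.const_mul _), integral_add k1 (iN2.const_mul _),
        integral_add (integrable_const _) (iN.const_mul _), integral_const, integral_const_mul,
        integral_const_mul, integral_const_mul, hn1, smul_eq_mul]
      ring
    have hv2 : ∫ y, ((1 + β) * ‖N y - e‖ ^ 2 + 1 * ‖e‖ ^ 2 * (1 - β) + 0) ∂(volM V F)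
        = A * ((1 + β) * (1 - ‖e‖ ^ 2) + (1 - β) * ‖e‖ ^ 2) := by
      have e1 : ∀ y, (1 + β) * ‖N y - e‖ ^ 2 + 1 * ‖e‖ ^ 2 * (1 - β) + 0
          = ((1 + β) * (1 + ‖e‖ ^ 2) + ‖e‖ ^ 2 * (1 - β)) + (-(2 * (1 + β))) * ⟪N y, e⟫ := by
        intro y
        rw [norm_sub_sq_real, (hN y).1]
        ring
      simp only [e1]
      rw [integral_add (integrable_const _) (iN.const_mul _), integral_const, integral_const_mul,
        hn1, smul_eq_mul]
      ring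
    rw [hv1] at hf1
    rw [hv2] at hf2
    -- the pointwise inequality integrated
    have c1 : Continuous (fun d : R9 => tw β 1 (fun _ _ => 0) d) :=
      cont_tw β 1 (ψ := fun _ _ => 0) (by unfold Function.uncurry; fun_prop)
    have c2 := cont_psi hψc
    have ck := contOn_kerE hT₁ (finrank ℝ V) (bE e)
    have i1 : Integrable (fun q => cv (finrank ℝ V) T₁ (dat F N e q 0)
        * tw β 1 (fun _ _ => 0) (dat F N e q)) ((volM V F).prod (volM V F)) := by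
      refine integrable_param _ (measurable_dat h2.toPts e) (isCompact_KE (bE e))
        (dat_mem h2.toPts e)
        (f := fun d => cv (finrank ℝ V) T₁ (d 0) * tw β 1 (fun _ _ => 0) d)
        (((measurable_cv _ T₁).comp (measurable_pi_apply 0)).mul c1.measurable) ?_
      unfold cv
      exact (continuousOn_const.mul ck).mul c1.continuousOn
    have i2 : Integrable (fun q => cv (finrank ℝ V) T₁ (dat F N e q 0)
        * ψ (dat F N e q 5) (dat F N e q 7)) ((volM V F).prod (volM V F)) := by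
      refine integrable_param _ (measurable_dat h2.toPts e) (isCompact_KE (bE e))
        (dat_mem h2.toPts e) (f := fun d => cv (finrank ℝ V) T₁ (d 0) * ψ (d 5) (d 7))
        (((measurable_cv _ T₁).comp (measurable_pi_apply 0)).mul c2.measurable) ?_
      unfold cv
      exact (continuousOn_const.mul ck).mul c2.continuousOn
    have i3 : Integrable (fun q => W9 b0 b1 b2 b3 b4 b5 b6 b7 b8 (dat F N e q))
        ((volM V F).prod (volM V F)) := by
      have c3 : Continuous (W9 b0 b1 b2 b3 b4 b5 b6 b7 b8) := by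
        unfold W9
        fun_prop
      exact integrable_param _ (measurable_dat h2.toPts e) (isCompact_KE (bE e))
        (dat_mem h2.toPts e) c3.measurable c3.continuousOn
    have hmain : ∫ q, ((α * (cv (finrank ℝ V) T₁ (dat F N e q 0)
          * tw β 1 (fun _ _ => 0) (dat F N e q))
        + cv (finrank ℝ V) T₁ (dat F N e q 0) * ψ (dat F N e q 5) (dat F N e q 7))
        + R (dat F N e q)) ∂((volM V F).prod (volM V F))
        ≤ ∫ q, W9 b0 b1 b2 b3 b4 b5 b6 b7 b8 (dat F N e q) ∂((volM V F).prod (volM V F)) := by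
      refine integral_mono (((i1.const_mul α).add i2).add hR.1) i3 fun q => ?_
      have h4 := hpos _ _ _ _ (hF.unit q.1) (hN q.1).1 (hF.unit q.2) (hN q.2).1 (hN q.1).2.1
        (hN q.2).2.1
      refine le_trans (le_of_eq ?_) h4
      have hw : ‖N q.2 - e‖ ^ 2 = 1 + ‖e‖ ^ 2 - 2 * ⟪N q.2, e⟫ := by
        rw [norm_sub_sq_real, (hN q.2).1]
        ring
      have r0 : dat F N e q 0 = ⟪F q.1, F q.2⟫ := rfl
      have r8 : dat F N e q 8 = ‖e‖ ^ 2 := real_inner_self_eq_norm_sq e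
      have rr : dat F N e q = dv (F q.1) (N q.1) (F q.2) (N q.2) e := rfl
      rw [← rr, hw]
      simp only [tw, hψ, r0, r8, dat3, dat5, dat7]
      ring
    have i12 : Integrable (fun q => α * (cv (finrank ℝ V) T₁ (dat F N e q 0)
          * tw β 1 (fun _ _ => 0) (dat F N e q))
        + cv (finrank ℝ V) T₁ (dat F N e q 0) * ψ (dat F N e q 5) (dat F N e q 7))
        ((volM V F).prod (volM V F)) := (i1.const_mul α).add i2
    rw [integral_add i12 hR.1, hR.2, add_zero, integral_add (i1.const_mul α) i2,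
      integral_const_mul, value_W9 hG he] at hmain
    have hα2 := mul_le_mul_of_nonneg_left hf2 hα
    have hz2' : z2 = (A * ‖e‖ ^ 2 - q2) / ((finrank ℝ V : ℝ) + 1) := by
      rw [eq_div_iff hm1.ne']
      linarith
    have hfinal : α * (S * (A * ((1 + β) * (1 - ‖e‖ ^ 2) + (1 - β) * ‖e‖ ^ 2)))
        + S * ((j0 + j2 * ‖e‖ ^ 2) * A + j1 * (A * ‖e‖ ^ 2) + j3 * q2 + j4 * z2)
        ≤ A ^ 2 * (b0 + (b1 + b2 + b3) * ‖e‖ ^ 2 + (b5 + b6) * (‖e‖ ^ 2) ^ 2)
          + A * ((b4 + b7) * q2 + b8 * z2) := by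
      linarith
    rw [hz2'] at hfinal
    refine le_of_mul_le_mul_left (le_trans (le_of_eq ?_) (hfinal.trans (le_of_eq ?_))) hA
    · field_simp
      ring
    · field_simp
      ring

end

end Vale.Agent.P224.UE
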