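import Vale.Agent.P224.UE.Sing6
import Vale.Agent.P224.UE.Final

/-!
The law of a certificate on the diagonal level, dimension four.
-/

namespace Vale.Agent.P224.UE

open MeasureTheory Set Filter Function Module Vale.Agent.P224
open Vale.Agent.P224.SM2 hiding ker
open scoped Topology RealInnerProductSpace ENNReal ContDiff Manifold

set_option linter.unusedSectionVars false

/-- a row term: the row `fam` for the function `s ^ a (1 - s)⁻ᵠ t ^ i x1 ^ j` with the weight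
`n2 ^ k x2 ^ d E ^ l` -/
structure RTerm where
  fam : Fin 6
  q : ℕ
  a : ℕ
  i : ℕ
  j : ℕ
  d : ℕ
  k : ℕ
  l : ℕ
  deriving DecidableEq

/-- the row of a term -/
noncomputable def RTerm.F (T : RTerm) (d : R9) : ℝ :=
  (d 8 ^ T.l * (d 5 ^ T.k * d 7 ^ T.d)) * rG T.fam 4 (sk 1 T.a T.q) (sk' 1 T.a T.q) T.i T.j d

/-- the exponent of the normal component in the flux -/
def RTerm.kn (T : RTerm) : ℕ := T.k + if T.fam = 4 then 1 else 0

/-- the exponent of the position component in the flux -/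
def RTerm.kx (T : RTerm) : ℕ := T.d + T.j

/-- subcritical terms -/
def RTerm.sub (T : RTerm) : Bool := decide (T.q ≤ T.i + 1)

/-- critical terms with a computable flux -/
def RTerm.cri (T : RTerm) : Bool :=
  decide (T.q = 2) && decide (T.i = 0) && (decide (T.fam = 0) || decide (T.fam = 3)
    || decide (T.fam = 4)) &&
  ((decide (T.kn = 0) && decide (T.kx = 0)) || (decide (T.kn = 1) && decide (T.kx = 0))
    || (decide (T.kn = 2) && decide (T.kx = 0)) || (decide (T.kn = 0) && decide (T.kx = 1))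
    || (decide (T.kn = 0) && decide (T.kx = 2)))

/-- admissible terms -/
def RTerm.ok (T : RTerm) : Bool := T.sub || T.cri

/-- the moments of the components with the mean normal -/
noncomputable def mom (u r : ℝ) (a b : ℕ) : ℝ :=
  match a, b with
  | 0, 0 => 1
  | 1, 0 => u
  | 2, 0 => r
  | 0, 2 => (u - r) / 5
  | _, _ => 0

/-- the normalized value of a term -/
noncomputable def RTerm.V (T : RTerm) (u r : ℝ) : ℝ :=
  if T.sub = true then 0 else (if T.fam = 0 then 1 else -1) * (u ^ T.l * mom u r T.kn T.kx)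

section

variable {X : Type*} [MeasurableSpace X] {E : Type*} [NormedAddCommGroup E]
  [InnerProductSpace ℝ E] [MeasurableSpace E] [BorelSpace E] [SecondCountableTopology E]
  {μ : Measure X} [IsFiniteMeasure μ] {m : ℕ} {p n : X → E} {C S : ℝ}

/-- the first moment of the position vanishes -/
lemma TwoG.mean_p (h : TwoG μ m p n) (hm : 0 < m) (e : E) (z : X) : ∫ x, ⟪p x, e⟫ ∂μ = 0 := by
  have h1 := h.rowG z e (fun _ => 1) (fun _ => 0)
    (fun s _ => ⟨contDiffAt_const, hasDerivAt_const s 1⟩) 2 0 0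
  have e1 : ∀ x, rG 2 m (fun _ => 1) (fun _ => 0) 0 0 (dat p n e (x, z))
      = (-(m : ℝ)) * ⟪p x, e⟫ := by
    intro x
    have r6 : dat p n e (x, z) 6 = ⟪p x, e⟫ := rfl
    unfold rG rowE
    simp only [r6]
    norm_num
  simp only [e1] at h1
  rw [integral_const_mul] at h1
  have hm' : (m : ℝ) ≠ 0 := by exact_mod_cast hm.ne'
  rcases mul_eq_zero.1 h1 with h2 | h2
  · exact absurd (neg_eq_zero.1 h2) hm'
  · exact h2

/-- the moments at the mean normal -/
lemma TwoG.mom_eq [Nonempty X] (h : TwoG μ 4 p n) {e : E}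
    (he : (μ.real univ) • e = ∫ x, n x ∂μ) (hA : 0 < μ.real univ) {a b : ℕ}
    (hab : (a = 0 ∧ b = 0) ∨ (a = 1 ∧ b = 0) ∨ (a = 2 ∧ b = 0) ∨ (a = 0 ∧ b = 1)
      ∨ (a = 0 ∧ b = 2)) [CompleteSpace E] :
    ∫ y, ⟪n y, e⟫ ^ a * ⟪p y, e⟫ ^ b ∂μ
      = μ.real univ * mom (‖e‖ ^ 2) ((∫ y, ⟪n y, e⟫ ^ 2 ∂μ) / μ.real univ) a b := by
  obtain ⟨z⟩ := ‹Nonempty X›
  have hne := hA.ne'
  rcases hab with ⟨rfl, rfl⟩ | ⟨rfl, rfl⟩ | ⟨rfl, rfl⟩ | ⟨rfl, rfl⟩ | ⟨rfl, rfl⟩
  · simp [mom, measureReal_def]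
  · simp only [pow_one, pow_zero, mul_one, mom]
    rw [integral_in h.mn h.nn, ← he, real_inner_smul_left, real_inner_self_eq_norm_sq]
  · simp only [pow_zero, mul_one, mom]
    field_simp
  · simp only [pow_one, pow_zero, one_mul, mom]
    rw [h.mean_p (by norm_num) e z, mul_zero]
  · simp only [pow_zero, one_mul, mom]
    have h1 := h.moment e z
    push_cast at h1
    field_simp
    linarith

/-- the value of a term -/
theorem EmbD.val_term [CompleteSpace E] [Nonempty X] (h : EmbD μ 4 p n C S) {e : E}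
    (he : (μ.real univ) • e = ∫ x, n x ∂μ) (hA : 0 < μ.real univ) {T : RTerm}
    (hT : T.ok = true) :
    Val μ p n e T.F (3 * S * (μ.real univ
      * T.V (‖e‖ ^ 2) ((∫ y, ⟪n y, e⟫ ^ 2 ∂μ) / μ.real univ))) := by
  have hm : 0 < 4 := by norm_num
  have hG := h.toTwoG
  have hw : Continuous (uncurry fun a b : ℝ => (‖e‖ ^ 2) ^ T.l * (a ^ T.k * b ^ T.d)) := by
    unfold Function.uncurry
    fun_prop
  have hE : ∀ q, dat p n e q 8 = ‖e‖ ^ 2 := fun q => real_inner_self_eq_norm_sq e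
  by_cases hs : T.sub = true
  · have hq : T.q ≤ T.i + 1 := by simpa [RTerm.sub] using hs
    have h1 := hG.null_S hm h.contact e T.fam (a := T.a) (q := T.q) (i := T.i) (j := T.j) (l := 3)
      (by norm_num) (by omega) hw
    have h2 : Val μ p n e T.F 0 := by
      refine h1.val.congr_ae (Eventually.of_forall fun q => ?_)
      unfold RTerm.F
      rw [hE q]
      push_cast
      rfl
    refine h2.congr ?_
    unfold RTerm.V
    rw [if_pos hs]
    ring
  · have hc : T.cri = true := by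
      rcases Bool.eq_false_or_eq_true T.sub with h1 | h1
      · exact absurd h1 hs
      · unfold RTerm.ok at hT
        rw [h1, Bool.false_or] at hT
        exact hT
    simp only [RTerm.cri, Bool.and_eq_true, Bool.or_eq_true, decide_eq_true_eq] at hc
    obtain ⟨⟨⟨hq, hi⟩, hk⟩, hmom⟩ := hc
    have hk' : T.fam = 0 ∨ T.fam = 3 ∨ T.fam = 4 := by tauto
    have hab : (T.kn = 0 ∧ T.kx = 0) ∨ (T.kn = 1 ∧ T.kx = 0) ∨ (T.kn = 2 ∧ T.kx = 0)
        ∨ (T.kn = 0 ∧ T.kx = 1) ∨ (T.kn = 0 ∧ T.kx = 2) := by tauto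
    have h1 := h.crit_S e hk' T.a T.j hw
    have h2 := h1.congr_ae (g := T.F) (Eventually.of_forall fun q => by
      unfold RTerm.F
      rw [hE q, hq, hi])
    refine h2.congr ?_
    have hmo := hG.mom_eq he hA hab
    have e1 : fluxV μ p n e (fun a b => (‖e‖ ^ 2) ^ T.l * (a ^ T.k * b ^ T.d)) T.fam T.j
        = (if T.fam = 0 then 1 else -1) * ((‖e‖ ^ 2) ^ T.l
          * ∫ y, ⟪n y, e⟫ ^ T.kn * ⟪p y, e⟫ ^ T.kx ∂μ) := by
      unfold fluxV
      rw [← integral_const_mul, ← integral_const_mul]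
      refine integral_congr_ae (Eventually.of_forall fun y => ?_)
      have hnn : ⟪n y, n y⟫ = 1 := by rw [real_inner_self_eq_norm_sq, h.nn]; norm_num
      have r3 : dat p n e (y, y) 3 = 1 := hnn
      have r4 : dat p n e (y, y) 4 = ⟪n y, e⟫ := rfl
      simp only
      rcases hk' with hf | hf | hf
      · simp only [RTerm.kn, RTerm.kx, hf, sgm, if_true]
        rw [if_neg (by decide)]
        ring
      · simp only [RTerm.kn, RTerm.kx, hf, sgm, r3]
        rw [if_neg (by decide), if_neg (by decide)]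
        ring
      · simp only [RTerm.kn, RTerm.kx, hf, sgm, r4, if_true]
        rw [if_neg (by decide)]
        ring
    rw [e1, hmo]
    unfold RTerm.V
    rw [if_neg hs]
    ring

end

/-- the symmetrized sum of terms -/
noncomputable def rsum (l : List (ℝ × RTerm)) (d : R9) : ℝ :=
  (l.map fun cT => cT.1 * ((cT.2.F d + cT.2.F (sw9 d)) / 2)).sum

/-- the normalized value of a sum of terms -/
noncomputable def rval (l : List (ℝ × RTerm)) (u r : ℝ) : ℝ :=
  (l.map fun cT => cT.1 * cT.2.V u r).sum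

section

variable {X : Type*} [MeasurableSpace X] {E : Type*} [NormedAddCommGroup E]
  [InnerProductSpace ℝ E] [MeasurableSpace E] [BorelSpace E] [SecondCountableTopology E]
  {μ : Measure X} [IsFiniteMeasure μ] {m : ℕ} {p n : X → E} {C S : ℝ}

theorem EmbD.val_list [CompleteSpace E] [Nonempty X] (h : EmbD μ 4 p n C S) {e : E}
    (he : (μ.real univ) • e = ∫ x, n x ∂μ) (hA : 0 < μ.real univ) {l : List (ℝ × RTerm)}
    (hl : ∀ cT ∈ l, cT.2.ok = true) :
    Val μ p n e (rsum l) (3 * S * (μ.real univ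
      * rval l (‖e‖ ^ 2) ((∫ y, ⟪n y, e⟫ ^ 2 ∂μ) / μ.real univ))) := by
  induction l with
  | nil =>
    have h0 := (Null.zero (μ := μ) (p := p) (n := n) e).val
    refine (h0.congr ?_)
    simp [rval]
  | cons cT l ih =>
    have h1 := h.val_term he hA (hl cT List.mem_cons_self)
    have h2 := ih fun cT hcT => hl cT (List.mem_cons_of_mem _ hcT)
    have h3 := ((h1.add h1.swap).const_mul (cT.1 / 2)).add h2
    have e1 : rsum (cT :: l) = fun d => cT.1 / 2 * (cT.2.F d + cT.2.F (sw9 d)) + rsum l d := by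
      funext d
      simp only [rsum, List.map_cons, List.sum_cons]
      ring
    rw [e1]
    refine h3.congr ?_
    simp only [rval, List.map_cons, List.sum_cons]
    ring

/-- The law of a certificate on the diagonal level. -/
theorem EmbD.law_S [CompleteSpace E] [Nonempty X] (h : EmbD μ 4 p n C S) {e : E}
    (he : (μ.real univ) • e = ∫ x, n x ∂μ) (hA : 0 < μ.real univ) {L : R9 → ℝ} {Cc γ : ℝ}
    (hLi : Integrable (fun q => L (dat p n e q)) (μ.prod μ))
    (hL : ∫ q, L (dat p n e q) ∂(μ.prod μ) + Cc * S * μ.real univ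
      ≤ μ.real univ ^ 2 + γ * ‖∫ x, n x ∂μ‖ ^ 2)
    {b0 b1 b2 b3 b4 b5 b6 b7 b8 : ℝ} {l : List (ℝ × RTerm)} (hl : ∀ cT ∈ l, cT.2.ok = true)
    (hpos : ∀ x N y w : E, ‖x‖ = 1 → ‖N‖ = 1 → ‖y‖ = 1 → ‖w‖ = 1 → ⟪x, N⟫ = 0 → ⟪y, w⟫ = 0 →
      ⟪x, y⟫ < 1 → 0 ≤ L (dv x N y w e) + W9 b0 b1 b2 b3 b4 b5 b6 b7 b8 (dv x N y w e)
        + rsum l (dv x N y w e)) :
    ∃ r : ℝ, (‖e‖ ^ 2) ^ 2 ≤ r ∧ r ≤ ‖e‖ ^ 2 ∧
      Cc * S ≤ μ.real univ * (1 + γ * ‖e‖ ^ 2 + (b0 + (b1 + b2 + b3) * ‖e‖ ^ 2 + (b4 + b7) * r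
          + (b5 + b6) * (‖e‖ ^ 2) ^ 2 + b8 * ((‖e‖ ^ 2 - r) / 5)))
        + 3 * S * rval l (‖e‖ ^ 2) r := by
  have hm : 0 < 4 := by norm_num
  have hG := h.toTwoG
  obtain ⟨z₀⟩ := ‹Nonempty X›
  set A := μ.real univ with hAdef
  set q2 := ∫ x, ⟪n x, e⟫ ^ 2 ∂μ with hq2
  set z2 := ∫ x, ⟪p x, e⟫ ^ 2 ∂μ with hz2
  have hmom : ((4 : ℕ) + 1 : ℝ) * z2 + q2 = A * ‖e‖ ^ 2 := hG.moment e z₀
  push_cast at hmom
  have hz0 : 0 ≤ z2 := integral_nonneg fun x => sq_nonneg _
  have hI1 : ⟪∫ x, n x ∂μ, e⟫ = A * ‖e‖ ^ 2 := by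
    rw [← he, real_inner_smul_left, real_inner_self_eq_norm_sq]
  have hcs : (A * ‖e‖ ^ 2) ^ 2 ≤ A * q2 := by
    have := inner_integral_sq_le (μ := μ) (n := n) (integrable_unit hG.mn hG.nn) e
      (integrable_in_sq hG.mn hG.nn e)
    rwa [hI1] at this
  refine ⟨q2 / A, ?_, ?_, ?_⟩
  · rw [le_div_iff₀ hA]
    have h3 : A * ((‖e‖ ^ 2) ^ 2 * A) ≤ A * q2 := by
      calc A * ((‖e‖ ^ 2) ^ 2 * A) = (A * ‖e‖ ^ 2) ^ 2 := by ring
        _ ≤ _ := hcs
    exact le_of_mul_le_mul_left h3 hA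
  · rw [div_le_iff₀ hA]
    linarith
  · have hv := h.val_list he hA hl
    rw [← hAdef, ← hq2] at hv
    have hW := value_W9 hG he b0 b1 b2 b3 b4 b5 b6 b7 b8
    rw [← hAdef, ← hq2, ← hz2] at hW
    have hWi : Integrable (fun q => W9 b0 b1 b2 b3 b4 b5 b6 b7 b8 (dat p n e q)) (μ.prod μ) := by
      have c3 : Continuous (W9 b0 b1 b2 b3 b4 b5 b6 b7 b8) := by
        unfold W9
        fun_prop
      exact integrable_param _ (measurable_dat h.toPts e) (isCompact_KE (bE e))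
        (dat_mem h.toPts e) c3.measurable c3.continuousOn
    have hLW : Integrable (fun q => L (dat p n e q) + W9 b0 b1 b2 b3 b4 b5 b6 b7 b8 (dat p n e q))
        (μ.prod μ) := hLi.add hWi
    have h0 : 0 ≤ ∫ q, (L (dat p n e q) + W9 b0 b1 b2 b3 b4 b5 b6 b7 b8 (dat p n e q)
        + rsum l (dat p n e q)) ∂(μ.prod μ) := by
      refine integral_nonneg_of_ae ?_
      filter_upwards [hG.ae_lt hm e] with q hq
      exact hpos _ _ _ _ (h.np _) (h.nn _) (h.np _) (h.nn _) (h.pn _) (h.pn _) hq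
    rw [integral_add hLW hv.1, integral_add hLi hWi, hv.2, hW] at h0
    have hnorm : ‖∫ x, n x ∂μ‖ ^ 2 = A ^ 2 * ‖e‖ ^ 2 := by
      rw [← he, norm_smul, mul_pow, Real.norm_eq_abs, sq_abs]
    rw [hnorm] at hL
    have hz2' : z2 = A * ((‖e‖ ^ 2 - q2 / A) / 5) := by
      field_simp
      linarith
    have hq2' : q2 = A * (q2 / A) := by field_simp
    generalize q2 / A = r at *
    rw [hz2', hq2'] at h0
    have hfin : A * (Cc * S) ≤ A * (A * (1 + γ * ‖e‖ ^ 2 + (b0 + (b1 + b2 + b3) * ‖e‖ ^ 2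
        + (b4 + b7) * r + (b5 + b6) * (‖e‖ ^ 2) ^ 2 + b8 * ((‖e‖ ^ 2 - r) / 5)))
        + 3 * S * rval l (‖e‖ ^ 2) r) := by
      linarith
    exact le_of_mul_le_mul_left hfin hA

end

end Vale.Agent.P224.UE
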