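import Vale.Agent.P224.SM2.Mono

/-!
Monotonicity of the conformal volumes.
-/

namespace Vale.Agent.P224.UE

open MeasureTheory Set Filter Function Vale.Agent.P224.SM2
open scoped Topology RealInnerProductSpace

/-- the conformal factor -/
noncomputable def kp (T : ℝ) : ℝ := √(1 - T ^ 2)

lemma one_sub_sq_pos {T : ℝ} (hT : T ∈ Ico (0 : ℝ) 1) : 0 < 1 - T ^ 2 := by
  nlinarith [hT.1, hT.2]

lemma kp_pos {T : ℝ} (hT : T ∈ Ico (0 : ℝ) 1) : 0 < kp T := Real.sqrt_pos.2 (one_sub_sq_pos hT)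

lemma kp_sq {T : ℝ} (hT : T ∈ Ico (0 : ℝ) 1) : kp T ^ 2 = 1 - T ^ 2 :=
  Real.sq_sqrt (one_sub_sq_pos hT).le

lemma kp_zero : kp 0 = 1 := by simp [kp]

lemma kp_le_one {T : ℝ} : kp T ≤ 1 := by
  unfold kp
  rw [Real.sqrt_le_one]
  nlinarith [sq_nonneg T]

lemma hasDerivAt_kp_pow {T : ℝ} (hT : T ∈ Ico (0 : ℝ) 1) (m : ℕ) :
    HasDerivAt (fun T => kp T ^ m) (-(m * T) * kp T ^ m / (1 - T ^ 2)) T := by
  have h1 : HasDerivAt (fun T : ℝ => 1 - T ^ 2) (-(2 * T)) T := by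
    simpa using (hasDerivAt_pow 2 T).const_sub 1
  have h2 := (h1.sqrt (one_sub_sq_pos hT).ne').fun_pow m
  refine h2.congr_deriv ?_
  have h3 := kp_pos hT
  have h4 := kp_sq hT
  change (m : ℝ) * kp T ^ (m - 1) * (-(2 * T) / (2 * kp T)) = _
  rw [← h4]
  rcases m with _ | m
  · simp
  · simp only [Nat.add_sub_cancel]
    field_simp
    ring

lemma contOn_kp : ContinuousOn kp (Ico 0 1) := by
  unfold kp
  fun_prop

lemma measurable_kp : Measurable kp := by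
  unfold kp
  fun_prop

lemma contOn_ker1 (q : ℕ) :
    ContinuousOn (fun z : ℝ × ℝ => SM2.ker z.1 q z.2) (Ico 0 1 ×ˢ Icc (-1) 1) := by
  unfold SM2.ker
  refine ContinuousOn.inv₀ (by fun_prop) ?_
  rintro ⟨T, k⟩ ⟨hT, hk⟩
  exact pow_ne_zero _ (one_sub_pos' hT hk.2).ne'

/-- the conformal volume kernel -/
noncomputable def cv (m : ℕ) (T s : ℝ) : ℝ := kp T ^ m * SM2.ker T m s

noncomputable def cv' (m : ℕ) (T s : ℝ) : ℝ :=
  kp T ^ m * m / (1 - T ^ 2) * (SM2.ker T (m + 1) s * (s - T))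

lemma hasDerivAt_cv {m : ℕ} {T s : ℝ} (hT : T ∈ Ico (0 : ℝ) 1) (hs : s ∈ Icc (-1 : ℝ) 1) :
    HasDerivAt (fun T => cv m T s) (cv' m T s) T := by
  have hv := (one_sub_pos' hT hs.2).ne'
  have h1 := (hasDerivAt_kp_pow hT m).fun_mul (hasDerivAt_ker_T (q := m) hv)
  refine h1.congr_deriv ?_
  have h2 : SM2.ker T m s = SM2.ker T (m + 1) s * (1 - T * s) := by
    unfold SM2.ker
    rw [pow_succ]
    field_simp
  have h3 := (one_sub_sq_pos hT).ne'
  unfold cv'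
  rw [h2]
  field_simp
  ring

lemma contOn_cv (m : ℕ) : ContinuousOn (uncurry (cv m)) (Ico 0 1 ×ˢ Icc (-1) 1) := by
  have h1 : ContinuousOn (fun z : ℝ × ℝ => kp z.1 ^ m) (Ico 0 1 ×ˢ Icc (-1) 1) :=
    (contOn_kp.comp continuousOn_fst fun z hz => hz.1).pow m
  exact h1.mul (contOn_ker1 m)

lemma contOn_cv' (m : ℕ) : ContinuousOn (uncurry (cv' m)) (Ioo 0 1 ×ˢ Icc (-1) 1) := by
  have hsub : (Ioo 0 1 ×ˢ Icc (-1) 1 : Set (ℝ × ℝ)) ⊆ Ico 0 1 ×ˢ Icc (-1) 1 :=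
    prod_mono Ioo_subset_Ico_self subset_rfl
  have h1 : ContinuousOn (fun z : ℝ × ℝ => kp z.1 ^ m) (Ioo 0 1 ×ˢ Icc (-1) 1) :=
    ((contOn_kp.comp continuousOn_fst fun z hz => hz.1).pow m).mono hsub
  have h2 := (contOn_ker1 (m + 1)).mono hsub
  have h3 : ContinuousOn (fun z : ℝ × ℝ => (1 : ℝ) - z.1 ^ 2) (Ioo 0 1 ×ˢ Icc (-1) 1) := by
    fun_prop
  have h4 : ContinuousOn (fun z : ℝ × ℝ => kp z.1 ^ m * m / (1 - z.1 ^ 2)) (Ioo 0 1 ×ˢ Icc (-1) 1) :=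
    (h1.mul continuousOn_const).div h3 fun z hz =>
      (one_sub_sq_pos ⟨hz.1.1.le, hz.1.2⟩).ne'
  exact h4.mul (h2.mul (by fun_prop))

lemma measurable_cv (m : ℕ) (T : ℝ) : Measurable (cv m T) := by
  have := measurable_ker T m
  unfold cv
  fun_prop

lemma measurable_cv' (m : ℕ) (T : ℝ) : Measurable (cv' m T) := by
  have := measurable_ker T (m + 1)
  unfold cv'
  fun_prop

section

variable {X : Type*} [MeasurableSpace X] {μ : Measure X} [IsFiniteMeasure μ] {m : ℕ}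
  {s q : X → ℝ}

lemma integrable_ker1 (hs : Measurable s) (bs : ∀ x, s x ∈ Icc (-1 : ℝ) 1) {T : ℝ}
    (hT : T ∈ Ico (0 : ℝ) 1) (j : ℕ) : Integrable (fun x => SM2.ker T j (s x)) μ :=
  integrable_param μ hs isCompact_Icc bs (measurable_ker T j)
    (contOn_slice (g := fun T s => SM2.ker T j s) (contOn_ker1 j) hT)

lemma integrable_ker_mul (hs : Measurable s) (bs : ∀ x, s x ∈ Icc (-1 : ℝ) 1) {T : ℝ}
    (hT : T ∈ Ico (0 : ℝ) 1) (j : ℕ) {f : X → ℝ} (hf : Measurable f) {C : ℝ}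
    (hC : ∀ x, |f x| ≤ C) : Integrable (fun x => SM2.ker T j (s x) * f x) μ :=
  (integrable_ker1 hs bs hT j).mul_bdd (c := C) hf.aestronglyMeasurable
    (Eventually.of_forall fun x => by rw [Real.norm_eq_abs]; exact hC x)

lemma ker_nonneg {T s : ℝ} (hT : T ∈ Ico (0 : ℝ) 1) (hs : s ∈ Icc (-1 : ℝ) 1) (j : ℕ) :
    0 ≤ SM2.ker T j s := inv_nonneg.2 (pow_nonneg (one_sub_pos' hT hs.2).le _)

/-- the conformal volume is nonincreasing -/
lemma conf_antitone (hs : Measurable s) (hq : Measurable q) (bs : ∀ x, s x ∈ Icc (-1 : ℝ) 1)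
    (bq : ∀ x, q x ∈ Icc (-1 : ℝ) 1)
    (hrow : ∀ T ∈ Ioo (0 : ℝ) 1, ∫ x, SM2.ker T (m + 1) (s x) * (s x - T + T * q x ^ 2) ∂μ = 0) :
    AntitoneOn (fun T => ∫ x, cv m T (s x) ∂μ) (Ico 0 1) := by
  have hcont : ContinuousOn (fun T => ∫ x, cv m T (s x) ∂μ) (Ico 0 1) := by
    intro T₀ hT₀
    set b : ℝ := (T₀ + 1) / 2 with hb
    have hb1 : b < 1 := by rw [hb]; linarith [hT₀.2]
    have hb0 : T₀ < b := by rw [hb]; linarith [hT₀.2]
    have hsub : (Icc 0 b ×ˢ Icc (-1) 1 : Set (ℝ × ℝ)) ⊆ Ico 0 1 ×ˢ Icc (-1) 1 :=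
      prod_mono (fun T hT => ⟨hT.1, hT.2.trans_lt hb1⟩) subset_rfl
    obtain ⟨C, hC⟩ := (isCompact_Icc.prod isCompact_Icc).exists_bound_of_continuousOn
      ((contOn_cv m).mono hsub)
    have hev : ∀ᶠ T in 𝓝[Ico 0 1] T₀, T ∈ Icc 0 b := by
      have h1 : ∀ᶠ T in 𝓝[Ico 0 1] T₀, T ∈ Ico (0 : ℝ) 1 := self_mem_nhdsWithin
      have h2 : ∀ᶠ T in 𝓝[Ico 0 1] T₀, T < b := nhdsWithin_le_nhds (Iio_mem_nhds hb0)
      filter_upwards [h1, h2] with T hT1 hT2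
      exact ⟨hT1.1, hT2.le⟩
    refine continuousWithinAt_of_dominated (bound := fun _ => C)
      (Eventually.of_forall fun T => ((measurable_cv m T).comp hs).aestronglyMeasurable) ?_
      (integrable_const C) ?_
    · filter_upwards [hev] with T hT
      exact Eventually.of_forall fun y => hC (T, s y) ⟨hT, bs y⟩
    · refine Eventually.of_forall fun y => ?_
      have h1 : ContinuousWithinAt (uncurry (cv m)) (Ico 0 1 ×ˢ Icc (-1) 1) (T₀, s y) :=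
        contOn_cv m _ ⟨hT₀, bs y⟩
      have h2 : ContinuousWithinAt (fun T : ℝ => (T, s y)) (Ico 0 1) T₀ := by fun_prop
      exact ContinuousWithinAt.comp (f := fun T : ℝ => (T, s y)) h1 h2 (fun T hT => ⟨hT, bs y⟩)
  have hder : ∀ T ∈ Ioo (0 : ℝ) 1, HasDerivAt (fun T => ∫ x, cv m T (s x) ∂μ)
      (∫ x, cv' m T (s x) ∂μ) T := fun T hT =>
    deriv_param μ hs isCompact_Icc bs (measurable_cv m) (measurable_cv' m) (contOn_cv m)
      (contOn_cv' m) (fun T hT k hk => hasDerivAt_cv ⟨hT.1.le, hT.2⟩ hk) hT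
  refine antitoneOn_of_deriv_nonpos (convex_Ico 0 1) hcont ?_ ?_
  · rw [interior_Ico]
    exact fun T hT => (hder T hT).differentiableAt.differentiableWithinAt
  · rw [interior_Ico]
    intro T hT
    have hT' : T ∈ Ico (0 : ℝ) 1 := ⟨hT.1.le, hT.2⟩
    rw [(hder T hT).deriv]
    unfold cv'
    rw [integral_const_mul]
    have hk : 0 ≤ kp T ^ m * m / (1 - T ^ 2) :=
      div_nonneg (mul_nonneg (pow_nonneg (kp_pos hT').le _) (Nat.cast_nonneg _))
        (one_sub_sq_pos hT').le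
    refine mul_nonpos_of_nonneg_of_nonpos hk ?_
    have bs' : ∀ x, |s x| ≤ 1 := fun x => abs_le.2 (bs x)
    have bq' : ∀ x, |T * q x ^ 2| ≤ 1 := fun x => by
      have h1 : |q x| ≤ 1 := abs_le.2 (bq x)
      have h2 : q x ^ 2 ≤ 1 := by
        rw [← sq_abs]
        exact pow_le_one₀ (abs_nonneg _) h1
      rw [abs_of_nonneg (mul_nonneg hT'.1 (sq_nonneg _))]
      calc T * q x ^ 2 ≤ 1 * 1 := mul_le_mul hT.2.le h2 (sq_nonneg _) zero_le_one
        _ = 1 := one_mul 1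
    have i1 : Integrable (fun x => SM2.ker T (m + 1) (s x) * (s x - T)) μ :=
      integrable_ker_mul hs bs hT' _ (by fun_prop) (C := 1 + |T|)
        (fun x => (abs_sub _ _).trans (by linarith [bs' x]))
    have i2 : Integrable (fun x => SM2.ker T (m + 1) (s x) * (T * q x ^ 2)) μ :=
      integrable_ker_mul hs bs hT' _ (by fun_prop) bq'
    have h0 := hrow T hT
    have e0 : ∫ x, SM2.ker T (m + 1) (s x) * (s x - T + T * q x ^ 2) ∂μ
        = ∫ x, SM2.ker T (m + 1) (s x) * (s x - T) ∂μ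
          + ∫ x, SM2.ker T (m + 1) (s x) * (T * q x ^ 2) ∂μ := by
      rw [← integral_add i1 i2]
      refine integral_congr_ae (Eventually.of_forall fun x => ?_)
      simp only
      ring
    have h2 : 0 ≤ ∫ x, SM2.ker T (m + 1) (s x) * (T * q x ^ 2) ∂μ :=
      integral_nonneg fun x => mul_nonneg (ker_nonneg hT' (bs x) _)
        (mul_nonneg hT'.1 (sq_nonneg _))
    linarith

lemma conf_le (hs : Measurable s) (hq : Measurable q) (bs : ∀ x, s x ∈ Icc (-1 : ℝ) 1)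
    (bq : ∀ x, q x ∈ Icc (-1 : ℝ) 1)
    (hrow : ∀ T ∈ Ioo (0 : ℝ) 1, ∫ x, SM2.ker T (m + 1) (s x) * (s x - T + T * q x ^ 2) ∂μ = 0)
    {T : ℝ} (hT : T ∈ Ico (0 : ℝ) 1) :
    kp T ^ m * ∫ x, SM2.ker T m (s x) ∂μ ≤ μ.real univ := by
  have h := conf_antitone hs hq bs bq hrow ⟨le_rfl, one_pos⟩ hT hT.1
  simp only [cv] at h
  rw [integral_const_mul, integral_const_mul, kp_zero] at h
  refine h.trans (le_of_eq ?_)
  simp [SM2.ker, measureReal_def]

/-- the bound for the kernel of power `m + 1` -/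
theorem conf_succ_le (hs : Measurable s) (hq : Measurable q) (bs : ∀ x, s x ∈ Icc (-1 : ℝ) 1)
    (bq : ∀ x, q x ∈ Icc (-1 : ℝ) 1)
    (hrow : ∀ T ∈ Ioo (0 : ℝ) 1, ∫ x, SM2.ker T (m + 1) (s x) * (s x - T + T * q x ^ 2) ∂μ = 0)
    {T : ℝ} (hT : T ∈ Ioo (0 : ℝ) 1) :
    kp T ^ (m + 2) * ∫ x, SM2.ker T (m + 1) (s x) ∂μ ≤ μ.real univ := by
  have hT' : T ∈ Ico (0 : ℝ) 1 := ⟨hT.1.le, hT.2⟩
  refine le_trans ?_ (conf_le hs hq bs bq hrow hT')
  rw [pow_add, mul_assoc]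
  refine mul_le_mul_of_nonneg_left ?_ (pow_nonneg (kp_pos hT').le _)
  rw [kp_sq hT']
  have bs' : ∀ x, |s x| ≤ 1 := fun x => abs_le.2 (bs x)
  have i0 := integrable_ker1 (μ := μ) hs bs hT' (m + 1)
  have bT : ∀ x, |T * (T * q x ^ 2)| ≤ 1 := fun x => by
    have h1 : |q x| ≤ 1 := abs_le.2 (bq x)
    have h2 : q x ^ 2 ≤ 1 := by
      rw [← sq_abs]
      exact pow_le_one₀ (abs_nonneg _) h1
    have h3 : T * q x ^ 2 ≤ 1 := by
      calc T * q x ^ 2 ≤ 1 * 1 := mul_le_mul hT.2.le h2 (sq_nonneg _) zero_le_one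
        _ = 1 := one_mul 1
    have h4 : 0 ≤ T * q x ^ 2 := mul_nonneg hT'.1 (sq_nonneg _)
    rw [abs_of_nonneg (mul_nonneg hT'.1 h4)]
    calc T * (T * q x ^ 2) ≤ 1 * 1 := mul_le_mul hT.2.le h3 h4 zero_le_one
      _ = 1 := one_mul 1
  have i1 : Integrable (fun x => SM2.ker T (m + 1) (s x) * (s x - T + T * q x ^ 2)) μ := by
    refine integrable_ker_mul hs bs hT' _ (by fun_prop) (C := 3) fun x => ?_
    have h1 := bs x
    have h2 : |q x| ≤ 1 := abs_le.2 (bq x)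
    have h3 : q x ^ 2 ≤ 1 := by
      rw [← sq_abs]
      exact pow_le_one₀ (abs_nonneg _) h2
    have h4 : T * q x ^ 2 ≤ 1 := by
      calc T * q x ^ 2 ≤ 1 * 1 := mul_le_mul hT.2.le h3 (sq_nonneg _) zero_le_one
        _ = 1 := one_mul 1
    have h5 : 0 ≤ T * q x ^ 2 := mul_nonneg hT'.1 (sq_nonneg _)
    exact abs_le.2 ⟨by linarith [h1.1, hT.2], by linarith [h1.2, hT.1]⟩
  have i2 : Integrable (fun x => SM2.ker T (m + 1) (s x) * (T * (T * q x ^ 2))) μ :=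
    integrable_ker_mul hs bs hT' _ (by fun_prop) bT
  have h2 : 0 ≤ ∫ x, SM2.ker T (m + 1) (s x) * (T * (T * q x ^ 2)) ∂μ :=
    integral_nonneg fun x => mul_nonneg (ker_nonneg hT' (bs x) _)
      (mul_nonneg hT'.1 (mul_nonneg hT'.1 (sq_nonneg _)))
  have e1 : ∫ x, SM2.ker T m (s x) ∂μ = (1 - T ^ 2) * ∫ x, SM2.ker T (m + 1) (s x) ∂μ
      - T * ∫ x, SM2.ker T (m + 1) (s x) * (s x - T + T * q x ^ 2) ∂μ
      + ∫ x, SM2.ker T (m + 1) (s x) * (T * (T * q x ^ 2)) ∂μ := by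
    have i3 : Integrable (fun x => (1 - T ^ 2) * SM2.ker T (m + 1) (s x)
        - T * (SM2.ker T (m + 1) (s x) * (s x - T + T * q x ^ 2))) μ :=
      (i0.const_mul _).sub (i1.const_mul _)
    rw [← integral_const_mul, ← integral_const_mul,
      ← integral_sub (i0.const_mul _) (i1.const_mul _), ← integral_add i3 i2]
    refine integral_congr_ae (Eventually.of_forall fun x => ?_)
    have hv := (one_sub_pos' hT' (bs x).2).ne'
    have h2 : SM2.ker T m (s x) = SM2.ker T (m + 1) (s x) * (1 - T * s x) := by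
      unfold SM2.ker
      rw [pow_succ]
      field_simp
    simp only
    rw [h2]
    ring
  rw [e1, hrow T hT]
  linarith

end

end Vale.Agent.P224.UE
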