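import Vale.Agent.P224.SM2.Anti
import Vale.Agent.P224.UE.Conf

/-!
The bound of the quadratic remainder.
-/

namespace Vale.Agent.P224.UE

open MeasureTheory Set Filter Function
open Vale.Agent.P224.SM2 hiding ker
open scoped Topology RealInnerProductSpace

section

variable {X : Type*} [MeasurableSpace X] {E : Type*} [NormedAddCommGroup E]
  [InnerProductSpace ℝ E] [MeasurableSpace E] [BorelSpace E] [SecondCountableTopology E]
  [CompleteSpace E] {μ : Measure X} [IsFiniteMeasure μ] {m : ℕ} {p n : X → E}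

/-- the conformal row -/
def ConfRow (μ : Measure X) (m : ℕ) (p n : X → E) : Prop :=
  ∀ z, ∀ T ∈ Ioo (0 : ℝ) 1, ∫ x, SM2.ker T (m + 1) ⟪p x, p z⟫
    * (⟪p x, p z⟫ - T + T * ⟪n x, p z⟫ ^ 2) ∂μ = 0

omit [MeasurableSpace E] [BorelSpace E] [SecondCountableTopology E] [CompleteSpace E] in
lemma inner_sq_le {a e : E} (ha : ‖a‖ = 1) : ⟪a, e⟫ ^ 2 ≤ ‖e‖ ^ 2 := by
  have h := abs_real_inner_le_norm a e
  rw [ha, one_mul] at h
  rw [← sq_abs]
  exact pow_le_pow_left₀ (abs_nonneg _) h 2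

omit [MeasurableSpace E] [BorelSpace E] [SecondCountableTopology E] in
/-- Cauchy-Schwarz for the normal -/
lemma inner_integral_sq_le (hni : Integrable n μ) (e : E)
    (h2 : Integrable (fun x => ⟪n x, e⟫ ^ 2) μ) :
    ⟪∫ x, n x ∂μ, e⟫ ^ 2 ≤ μ.real univ * ∫ x, ⟪n x, e⟫ ^ 2 ∂μ := by
  have e1 : ⟪∫ x, n x ∂μ, e⟫ = ∫ x, ⟪n x, e⟫ ∂μ := by
    rw [real_inner_comm, ← integral_inner hni]
    refine integral_congr_ae (Eventually.of_forall fun x => ?_)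
    simp only
    rw [real_inner_comm]
  have i1 : Integrable (fun x => ⟪n x, e⟫) μ := by
    have := hni.const_inner (𝕜 := ℝ) e
    refine this.congr (Eventually.of_forall fun x => ?_)
    simp only
    rw [real_inner_comm]
  set A : ℝ := μ.real univ with hA
  set b : ℝ := ∫ x, ⟪n x, e⟫ ∂μ with hb
  have key : 0 ≤ ∫ x, (A * ⟪n x, e⟫ - b) ^ 2 ∂μ := integral_nonneg fun x => sq_nonneg _
  have e2 : ∫ x, (A * ⟪n x, e⟫ - b) ^ 2 ∂μ
      = A ^ 2 * ∫ x, ⟪n x, e⟫ ^ 2 ∂μ - 2 * A * b * b + b ^ 2 * A := by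
    have j1 : Integrable (fun x => A ^ 2 * ⟪n x, e⟫ ^ 2) μ := h2.const_mul _
    have j2 : Integrable (fun x => 2 * A * b * ⟪n x, e⟫) μ := i1.const_mul _
    have j3 : Integrable (fun _ : X => b ^ 2) μ := integrable_const _
    have e3 : (fun x => (A * ⟪n x, e⟫ - b) ^ 2)
        = fun x => (A ^ 2 * ⟪n x, e⟫ ^ 2 - 2 * A * b * ⟪n x, e⟫) + b ^ 2 := by
      funext x; ring
    have j12 : Integrable (fun x => A ^ 2 * ⟪n x, e⟫ ^ 2 - 2 * A * b * ⟪n x, e⟫) μ := j1.sub j2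
    rw [e3, integral_add j12 j3, integral_sub j1 j2, integral_const_mul, integral_const_mul,
      integral_const, smul_eq_mul, ← hb, ← hA]
    ring
  rw [e2] at key
  have hA0 : 0 ≤ A := measureReal_nonneg
  rw [e1]
  rcases eq_or_lt_of_le hA0 with h | h
  · have hμ : μ = 0 := by
      have : μ univ = 0 := (measureReal_eq_zero_iff).1 (hA ▸ h.symm)
      exact Measure.measure_univ_eq_zero.1 this
    simp [hb, hμ]
  · have : 0 ≤ A * (A * ∫ x, ⟪n x, e⟫ ^ 2 ∂μ - b ^ 2) := by nlinarith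
    have := nonneg_of_mul_nonneg_right this h
    linarith

/-- the integral of the quadratic remainder -/
theorem quad_bound (h : FV.Pts p n) (hrow : ConfRow μ m p n) (e : E) {T : ℝ}
    (hT : T ∈ Ioo (0 : ℝ) 1) :
    Integrable (fun q : X × X => SM2.ker T (m + 1) ⟪p q.1, p q.2⟫
      * (‖e‖ ^ 2 - (⟪n q.1, e⟫ ^ 2 + ⟪n q.2, e⟫ ^ 2) / 2)) (μ.prod μ) ∧
    kp T ^ (m + 2) * ∫ q : X × X, SM2.ker T (m + 1) ⟪p q.1, p q.2⟫
      * (‖e‖ ^ 2 - (⟪n q.1, e⟫ ^ 2 + ⟪n q.2, e⟫ ^ 2) / 2) ∂(μ.prod μ)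
      ≤ μ.real univ ^ 2 * ‖e‖ ^ 2 - ⟪∫ x, n x ∂μ, e⟫ ^ 2 := by
  have hT' : T ∈ Ico (0 : ℝ) 1 := ⟨hT.1.le, hT.2⟩
  have hmp := h.mp
  have hmn := h.mn
  have hs : ∀ q : X × X, ⟪p q.1, p q.2⟫ ∈ Icc (-1 : ℝ) 1 := fun q =>
    abs_inner_le_one (h.np _) (h.np _)
  have mp1 : Measurable (fun q : X × X => p q.1) := h.mp.comp measurable_fst
  have mp2 : Measurable (fun q : X × X => p q.2) := h.mp.comp measurable_snd
  have mn1 : Measurable (fun q : X × X => n q.1) := h.mn.comp measurable_fst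
  have mn2 : Measurable (fun q : X × X => n q.2) := h.mn.comp measurable_snd
  have ms : Measurable (fun q : X × X => ⟪p q.1, p q.2⟫) := mp1.inner mp2
  have m1 : Measurable (fun q : X × X => ‖e‖ ^ 2 - ⟪n q.1, e⟫ ^ 2) :=
    measurable_const.sub ((mn1.inner measurable_const).pow_const 2)
  have m2 : Measurable (fun q : X × X => ‖e‖ ^ 2 - ⟪n q.2, e⟫ ^ 2) :=
    measurable_const.sub ((mn2.inner measurable_const).pow_const 2)
  have b0 : ∀ a : E, ‖a‖ = 1 → |‖e‖ ^ 2 - ⟪a, e⟫ ^ 2| ≤ ‖e‖ ^ 2 := fun a ha => by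
    have h1 := inner_sq_le (e := e) ha
    rw [abs_of_nonneg (by linarith)]
    linarith [sq_nonneg ⟪a, e⟫]
  have i1 : Integrable (fun q : X × X => SM2.ker T (m + 1) ⟪p q.1, p q.2⟫
      * (‖e‖ ^ 2 - ⟪n q.1, e⟫ ^ 2)) (μ.prod μ) :=
    integrable_ker_mul ms hs hT' _ m1 fun q => b0 _ (h.nn _)
  have i2 : Integrable (fun q : X × X => SM2.ker T (m + 1) ⟪p q.1, p q.2⟫
      * (‖e‖ ^ 2 - ⟪n q.2, e⟫ ^ 2)) (μ.prod μ) :=
    integrable_ker_mul ms hs hT' _ m2 fun q => b0 _ (h.nn _)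
  have e12 : ∫ q : X × X, SM2.ker T (m + 1) ⟪p q.1, p q.2⟫ * (‖e‖ ^ 2 - ⟪n q.1, e⟫ ^ 2) ∂(μ.prod μ)
      = ∫ q : X × X, SM2.ker T (m + 1) ⟪p q.1, p q.2⟫ * (‖e‖ ^ 2 - ⟪n q.2, e⟫ ^ 2)
        ∂(μ.prod μ) := by
    rw [← integral_prod_swap (fun q : X × X => SM2.ker T (m + 1) ⟪p q.1, p q.2⟫
      * (‖e‖ ^ 2 - ⟪n q.1, e⟫ ^ 2))]
    refine integral_congr_ae (Eventually.of_forall fun q => ?_)
    simp only [Prod.fst_swap, Prod.snd_swap]
    rw [real_inner_comm (p q.1) (p q.2)]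
  have efun : (fun q : X × X => SM2.ker T (m + 1) ⟪p q.1, p q.2⟫
      * (‖e‖ ^ 2 - (⟪n q.1, e⟫ ^ 2 + ⟪n q.2, e⟫ ^ 2) / 2))
      = fun q => (1 / 2 : ℝ) * (SM2.ker T (m + 1) ⟪p q.1, p q.2⟫ * (‖e‖ ^ 2 - ⟪n q.1, e⟫ ^ 2))
        + (1 / 2 : ℝ) * (SM2.ker T (m + 1) ⟪p q.1, p q.2⟫ * (‖e‖ ^ 2 - ⟪n q.2, e⟫ ^ 2)) := by
    funext q; ring
  have j1 := i1.const_mul (1 / 2 : ℝ)
  have j2 := i2.const_mul (1 / 2 : ℝ)
  rw [efun]
  refine ⟨j1.add j2, ?_⟩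
  rw [integral_add j1 j2, integral_const_mul, integral_const_mul, e12]
  have e3 : ∫ q : X × X, SM2.ker T (m + 1) ⟪p q.1, p q.2⟫ * (‖e‖ ^ 2 - ⟪n q.2, e⟫ ^ 2) ∂(μ.prod μ)
      = ∫ z, (∫ x, SM2.ker T (m + 1) ⟪p x, p z⟫ ∂μ) * (‖e‖ ^ 2 - ⟪n z, e⟫ ^ 2) ∂μ := by
    rw [integral_prod_symm _ i2]
    refine integral_congr_ae (Eventually.of_forall fun z => ?_)
    simp only
    rw [integral_mul_const]
  have i3 : Integrable (fun z => (∫ x, SM2.ker T (m + 1) ⟪p x, p z⟫ ∂μ)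
      * (‖e‖ ^ 2 - ⟪n z, e⟫ ^ 2)) μ := by
    have := i2.swap.integral_prod_left
    refine this.congr (Eventually.of_forall fun z => ?_)
    simp only [Function.comp_apply, Prod.fst_swap, Prod.snd_swap]
    rw [integral_mul_const]
  have mne : Measurable (fun z => ⟪n z, e⟫ ^ 2) := (h.mn.inner measurable_const).pow_const 2
  have i4 : Integrable (fun z => ⟪n z, e⟫ ^ 2) μ :=
    Integrable.of_bound mne.aestronglyMeasurable (‖e‖ ^ 2) (Eventually.of_forall fun z => by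
      rw [Real.norm_eq_abs, abs_of_nonneg (sq_nonneg _)]
      exact inner_sq_le (h.nn z))
  have i5 : Integrable (fun z => μ.real univ * (‖e‖ ^ 2 - ⟪n z, e⟫ ^ 2)) μ :=
    ((integrable_const _).sub i4).const_mul _
  have hni : Integrable n μ :=
    Integrable.of_bound h.mn.aestronglyMeasurable 1 (Eventually.of_forall fun z => (h.nn z).le)
  have h5 : kp T ^ (m + 2) * ∫ z, (∫ x, SM2.ker T (m + 1) ⟪p x, p z⟫ ∂μ)
      * (‖e‖ ^ 2 - ⟪n z, e⟫ ^ 2) ∂μ ≤ ∫ z, μ.real univ * (‖e‖ ^ 2 - ⟪n z, e⟫ ^ 2) ∂μ := by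
    rw [← integral_const_mul]
    refine integral_mono (i3.const_mul _) i5 fun z => ?_
    simp only
    rw [← mul_assoc]
    refine mul_le_mul_of_nonneg_right ?_ (by linarith [inner_sq_le (e := e) (h.nn z)])
    exact conf_succ_le (hmp.inner measurable_const) (hmn.inner measurable_const)
      (fun x => abs_inner_le_one (h.np _) (h.np _)) (fun x => abs_inner_le_one (h.nn _) (h.np _))
      (hrow z) hT
  have h6 : ∫ z, μ.real univ * (‖e‖ ^ 2 - ⟪n z, e⟫ ^ 2) ∂μ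
      = μ.real univ ^ 2 * ‖e‖ ^ 2 - μ.real univ * ∫ z, ⟪n z, e⟫ ^ 2 ∂μ := by
    rw [integral_const_mul, integral_sub (integrable_const _) i4, integral_const, smul_eq_mul]
    ring
  have h7 := inner_integral_sq_le hni e i4
  rw [e3]
  linarith

end

end Vale.Agent.P224.UE
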