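import Vale.Agent.P224.SM2.Geo
import Vale.Agent.P224.UE.Quad

/-!
The rows of the two point method with an extra fixed vector.
-/

namespace Vale.Agent.P224.UE

open Matrix MeasureTheory Module Function Set Vale.Agent.P224 Vale.Agent.P224.FV
open Vale.Agent.P224.SM2 hiding ker
open scoped RealInnerProductSpace Topology ContDiff Manifold

set_option linter.unusedSectionVars false
set_option linter.unusedSimpArgs false

/-- The six rows. Here `s t p c` are the products of `x, N` with `y, ν`, the numbers `n1 n2 x1 x2`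
are the products of `N, ν, x, y` with the fixed vector, `E` is its square, and `K fs ft fe` are the
values of a function of `x` and of its partial derivatives with respect to `s`, `t`, `x1`. -/
noncomputable def rowE (k : Fin 6) (m s t p c n1 n2 x1 x2 E K fs ft fe : ℝ) : ℝ :=
  match k with
  | 0 => (fs * (1 - s ^ 2 - p ^ 2) + ft * (-(s * t) - p * c) + fe * (x2 - s * x1 - p * n1))
      - m * s * K
  | 1 => (fs * (-(s * t) - p * c) + ft * (1 - t ^ 2 - c ^ 2) + fe * (n2 - t * x1 - c * n1))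
      - m * t * K
  | 2 => (fs * (x2 - s * x1 - p * n1) + ft * (n2 - t * x1 - c * n1) + fe * (E - x1 ^ 2 - n1 ^ 2))
      - m * x1 * K
  | 3 => p * (fs * (-(s * t) - p * c) + ft * (1 - t ^ 2 - c ^ 2) + fe * (n2 - t * x1 - c * n1))
      - c * (fs * (1 - s ^ 2 - p ^ 2) + ft * (-(s * t) - p * c) + fe * (x2 - s * x1 - p * n1))
      - m * (p * t - c * s) * K
  | 4 => p * (fs * (x2 - s * x1 - p * n1) + ft * (n2 - t * x1 - c * n1)
        + fe * (E - x1 ^ 2 - n1 ^ 2))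
      - n1 * (fs * (1 - s ^ 2 - p ^ 2) + ft * (-(s * t) - p * c) + fe * (x2 - s * x1 - p * n1))
      - m * (p * x1 - n1 * s) * K
  | 5 => c * (fs * (x2 - s * x1 - p * n1) + ft * (n2 - t * x1 - c * n1)
        + fe * (E - x1 ^ 2 - n1 ^ 2))
      - n1 * (fs * (-(s * t) - p * c) + ft * (1 - t ^ 2 - c ^ 2) + fe * (n2 - t * x1 - c * n1))
      - m * (c * x1 - n1 * t) * K

section

variable {V W M : Type*} [NormedAddCommGroup V] [InnerProductSpace ℝ V] [FiniteDimensional ℝ V]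
  [NormedAddCommGroup W] [InnerProductSpace ℝ W] [FiniteDimensional ℝ W]
  [TopologicalSpace M] [ChartedSpace V M]
  [MeasurableSpace V] [BorelSpace V] [MeasurableSpace M] [BorelSpace M]
  [IsManifold 𝓘(ℝ, V) ∞ M] [CompactSpace M] [T2Space M]

/-- the field row -/
lemma row_field (hW : finrank ℝ W = finrank ℝ V + 2) {F : M → W}
    (hF : SphImm V F) (hmin : ∀ x n, IsUnitNormal V F x n → meanCurv V F x n = 0)
    (b : W) {K : M → ℝ} (hK : ContMDiff 𝓘(ℝ, V) 𝓘(ℝ, ℝ) ∞ K) :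
    Integrable (fun x => dl V F b K x - (finrank ℝ V : ℝ) * (⟪b, F x⟫ * K x)) (volM V F) ∧
    ∫ x, (dl V F b K x - (finrank ℝ V : ℝ) * (⟪b, F x⟫ * K x)) ∂(volM V F) = 0 := by
  have hV : VolChart V F := volChart_of_sphImm hF
  have hfin : IsFiniteMeasure (volM V F) := isFiniteMeasure_volM hF
  have hcF : Continuous F := hF.smooth.continuous
  have i1 := integrable_of_cont (volM V F) (continuous_dl hF b hK)
  have i2 := integrable_of_cont (volM V F) (g := fun x => ⟪b, F x⟫ * K x)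
    ((continuous_const.inner hcF).mul hK.continuous)
  refine ⟨i1.sub (i2.const_mul _), ?_⟩
  rw [integral_sub i1 (i2.const_mul _), integral_const_mul, first_variation hW hF hmin hV _ hK,
    sub_self]

/-- the closed row -/
lemma row_closed (hW : finrank ℝ W = finrank ℝ V + 2) {F : M → W}
    (hF : SphImm V F) (hmin : ∀ x n, IsUnitNormal V F x n → meanCurv V F x n = 0)
    {N : M → W} (hNs : ContMDiff 𝓘(ℝ, V) 𝓘(ℝ, W) ∞ N) (hN : ∀ x, IsUnitNormal V F x (N x))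
    (a b : W) {K : M → ℝ} (hK : ContMDiff 𝓘(ℝ, V) 𝓘(ℝ, ℝ) ∞ K) :
    Integrable (fun x => (⟪N x, a⟫ * dl V F b K x - ⟪N x, b⟫ * dl V F a K x)
      - (finrank ℝ V : ℝ) * ((⟪N x, a⟫ * ⟪F x, b⟫ - ⟪N x, b⟫ * ⟪F x, a⟫) * K x)) (volM V F) ∧
    ∫ x, ((⟪N x, a⟫ * dl V F b K x - ⟪N x, b⟫ * dl V F a K x)
      - (finrank ℝ V : ℝ) * ((⟪N x, a⟫ * ⟪F x, b⟫ - ⟪N x, b⟫ * ⟪F x, a⟫) * K x))
        ∂(volM V F) = 0 := by
  have hfin : IsFiniteMeasure (volM V F) := isFiniteMeasure_volM hF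
  have hcF : Continuous F := hF.smooth.continuous
  have hcN : Continuous N := hNs.continuous
  have i1 : Integrable (fun x => ⟪N x, a⟫ * dl V F b K x - ⟪N x, b⟫ * dl V F a K x)
      (volM V F) := integrable_of_cont _
    (((hcN.inner continuous_const).mul (continuous_dl hF b hK)).sub
      ((hcN.inner continuous_const).mul (continuous_dl hF a hK)))
  have i2 : Integrable (fun x => (⟪N x, a⟫ * ⟪F x, b⟫ - ⟪N x, b⟫ * ⟪F x, a⟫) * K x)
      (volM V F) := integrable_of_cont _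
    ((((hcN.inner continuous_const).mul (hcF.inner continuous_const)).sub
      ((hcN.inner continuous_const).mul (hcF.inner continuous_const))).mul hK.continuous)
  refine ⟨i1.sub (i2.const_mul _), ?_⟩
  rw [integral_sub i1 (i2.const_mul _), integral_const_mul,
    closed_id hW hF hmin hNs hN a b hK, sub_self]

/-- all rows -/
theorem row_E (hW : finrank ℝ W = finrank ℝ V + 2) {F : M → W}
    (hF : SphImm V F) (hmin : ∀ x n, IsUnitNormal V F x n → meanCurv V F x n = 0)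
    {N : M → W} (hNs : ContMDiff 𝓘(ℝ, V) 𝓘(ℝ, W) ∞ N) (hN : ∀ x, IsUnitNormal V F x (N x)) (z : M)
    (e : W) {K fs ft fe : M → ℝ} (hK : ContMDiff 𝓘(ℝ, V) 𝓘(ℝ, ℝ) ∞ K)
    (hd : ∀ a x, dl V F a K x = fs x * dl V F a (fun q => ⟪F q, F z⟫) x
      + ft x * dl V F a (fun q => ⟪F q, N z⟫) x + fe x * dl V F a (fun q => ⟪F q, e⟫) x)
    (k : Fin 6) :
    ∫ x, rowE k (finrank ℝ V) ⟪F x, F z⟫ ⟪F x, N z⟫ ⟪N x, F z⟫ ⟪N x, N z⟫ ⟪N x, e⟫ ⟪N z, e⟫
      ⟪F x, e⟫ ⟪F z, e⟫ ⟪e, e⟫ (K x) (fs x) (ft x) (fe x) ∂(volM V F) = 0 := by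
  have yy : ⟪F z, F z⟫ = 1 := by rw [real_inner_self_eq_norm_sq, hF.unit]; norm_num
  have nn : ⟪N z, N z⟫ = 1 := by rw [real_inner_self_eq_norm_sq, (hN z).1]; norm_num
  have yn : ⟪F z, N z⟫ = 0 := (hN z).2.1
  have ny : ⟪N z, F z⟫ = 0 := by rw [real_inner_comm]; exact yn
  have c1 : ⟪e, F z⟫ = ⟪F z, e⟫ := real_inner_comm _ _
  have c2 : ⟪e, N z⟫ = ⟪N z, e⟫ := real_inner_comm _ _
  have c3 : ∀ x, ⟪F z, F x⟫ = ⟪F x, F z⟫ := fun x => real_inner_comm _ _
  have c4 : ∀ x, ⟪N z, F x⟫ = ⟪F x, N z⟫ := fun x => real_inner_comm _ _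
  have c5 : ∀ x, ⟪e, F x⟫ = ⟪F x, e⟫ := fun x => real_inner_comm _ _
  fin_cases k
  · refine Eq.trans (integral_congr_ae (Filter.Eventually.of_forall fun x => ?_))
      (row_field hW hF hmin (F z) hK).2
    simp only [hd, dl_FF hW hF hN, yy, nn, yn, ny, c1, c2, c3, c4, c5, rowE]
    ring
  · refine Eq.trans (integral_congr_ae (Filter.Eventually.of_forall fun x => ?_))
      (row_field hW hF hmin (N z) hK).2
    simp only [hd, dl_FF hW hF hN, yy, nn, yn, ny, c1, c2, c3, c4, c5, rowE]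
    ring
  · refine Eq.trans (integral_congr_ae (Filter.Eventually.of_forall fun x => ?_))
      (row_field hW hF hmin e hK).2
    simp only [hd, dl_FF hW hF hN, yy, nn, yn, ny, c1, c2, c3, c4, c5, rowE]
    ring
  · refine Eq.trans (integral_congr_ae (Filter.Eventually.of_forall fun x => ?_))
      (row_closed hW hF hmin hNs hN (F z) (N z) hK).2
    simp only [hd, dl_FF hW hF hN, yy, nn, yn, ny, c1, c2, c3, c4, c5, rowE]
    ring
  · refine Eq.trans (integral_congr_ae (Filter.Eventually.of_forall fun x => ?_))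
      (row_closed hW hF hmin hNs hN (F z) e hK).2
    simp only [hd, dl_FF hW hF hN, yy, nn, yn, ny, c1, c2, c3, c4, c5, rowE]
    ring
  · refine Eq.trans (integral_congr_ae (Filter.Eventually.of_forall fun x => ?_))
      (row_closed hW hF hmin hNs hN (N z) e hK).2
    simp only [hd, dl_FF hW hF hN, yy, nn, yn, ny, c1, c2, c3, c4, c5, rowE]
    ring

/-- the kernel with powers of `t` and of the product with the fixed vector -/
lemma kernel_dataE {F : M → W} (hF : SphImm V F) {T : ℝ} (N : M → W)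
    (z : M) (e : W) (hT : ∀ x, 1 - T * ⟪F x, F z⟫ ≠ 0) (q i j : ℕ) :
    ContMDiff 𝓘(ℝ, V) 𝓘(ℝ, ℝ) ∞
      (fun x => ⟪F x, e⟫ ^ j * (⟪F x, N z⟫ ^ i * SM2.ker T q ⟪F x, F z⟫)) ∧
    ∀ a x, dl V F a (fun x => ⟪F x, e⟫ ^ j * (⟪F x, N z⟫ ^ i * SM2.ker T q ⟪F x, F z⟫)) x
      = (⟪F x, e⟫ ^ j * (⟪F x, N z⟫ ^ i * (q * T * SM2.ker T (q + 1) ⟪F x, F z⟫)))
          * dl V F a (fun q => ⟪F q, F z⟫) x
      + (⟪F x, e⟫ ^ j * (i * ⟪F x, N z⟫ ^ (i - 1) * SM2.ker T q ⟪F x, F z⟫))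
          * dl V F a (fun q => ⟪F q, N z⟫) x
      + (j * ⟪F x, e⟫ ^ (j - 1) * (⟪F x, N z⟫ ^ i * SM2.ker T q ⟪F x, F z⟫))
          * dl V F a (fun q => ⟪F q, e⟫) x := by
  obtain ⟨h1, h2⟩ := kernel_data hF N z hT q i
  have he := smooth_inner hF.smooth e
  have h3 := smooth_comp he (w := fun u => u ^ j) (fun x => contDiffAt_id.pow j)
  refine ⟨h3.mul h1, ?_⟩
  intro a x
  rw [dl_mul a h3 h1, h2, dl_comp (w := fun u => u ^ j) a he x (hasDerivAt_pow j _)]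
  ring

end

/-- the row with kernel at level `T` -/
noncomputable def rowT (k : Fin 6) (m : ℝ) (T : ℝ) (q i j : ℕ)
    (s t p c n1 n2 x1 x2 E : ℝ) : ℝ :=
  rowE k m s t p c n1 n2 x1 x2 E (x1 ^ j * (t ^ i * SM2.ker T q s))
    (x1 ^ j * (t ^ i * (q * T * SM2.ker T (q + 1) s)))
    (x1 ^ j * (i * t ^ (i - 1) * SM2.ker T q s))
    (j * x1 ^ (j - 1) * (t ^ i * SM2.ker T q s))

section

variable {V W M : Type*} [NormedAddCommGroup V] [InnerProductSpace ℝ V] [FiniteDimensional ℝ V]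
  [NormedAddCommGroup W] [InnerProductSpace ℝ W] [FiniteDimensional ℝ W]
  [TopologicalSpace M] [ChartedSpace V M]
  [MeasurableSpace V] [BorelSpace V] [MeasurableSpace M] [BorelSpace M]
  [IsManifold 𝓘(ℝ, V) ∞ M] [CompactSpace M] [T2Space M]

/-- the rows at level `T` -/
theorem row_T (hW : finrank ℝ W = finrank ℝ V + 2) {F : M → W}
    (hF : SphImm V F) (hmin : ∀ x n, IsUnitNormal V F x n → meanCurv V F x n = 0)
    {N : M → W} (hNs : ContMDiff 𝓘(ℝ, V) 𝓘(ℝ, W) ∞ N) (hN : ∀ x, IsUnitNormal V F x (N x)) (z : M)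
    (e : W) {T : ℝ} (hT : T ∈ Ioo (0 : ℝ) 1) (k : Fin 6) (q i j : ℕ) :
    ∫ x, rowT k (finrank ℝ V) T q i j ⟪F x, F z⟫ ⟪F x, N z⟫ ⟪N x, F z⟫ ⟪N x, N z⟫ ⟪N x, e⟫
      ⟪N z, e⟫ ⟪F x, e⟫ ⟪F z, e⟫ ⟪e, e⟫ ∂(volM V F) = 0 := by
  have hv : ∀ x, 1 - T * ⟪F x, F z⟫ ≠ 0 := fun x => (one_sub_pos hF hT x z).ne'
  obtain ⟨h1, h2⟩ := kernel_dataE hF N z e hv q i j
  exact row_E hW hF hmin hNs hN z e h1 h2 k

end

end Vale.Agent.P224.UE
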