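import Vale.Agent.P224.UE.Fin
import Vale.Agent.P224.UE.Quad

/-!
The abstract assembly.
-/

namespace Vale.Agent.P224.UE

open MeasureTheory Set Filter Function
open scoped Topology RealInnerProductSpace

/-- a function whose derivative is at most `R` times the derivative of `kk` -/
theorem mono_err {Φ D kk kd : ℝ → ℝ} {R : ℝ} (hcont : ContinuousOn Φ (Ico 0 1))
    (hder : ∀ T ∈ Ioo (0 : ℝ) 1, HasDerivAt Φ (D T) T) (kcont : ContinuousOn kk (Ico 0 1))
    (kder : ∀ T ∈ Ioo (0 : ℝ) 1, HasDerivAt kk (kd T) T)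
    (hle : ∀ T ∈ Ioo (0 : ℝ) 1, D T ≤ R * kd T) {T : ℝ} (hT : T ∈ Ico (0 : ℝ) 1) :
    Φ T ≤ Φ 0 + R * (kk T - kk 0) := by
  have hanti : AntitoneOn (fun T => Φ T - R * kk T) (Ico 0 1) := by
    refine antitoneOn_of_deriv_nonpos (convex_Ico 0 1) (hcont.sub (continuousOn_const.mul kcont))
      ?_ ?_
    · rw [interior_Ico]
      exact fun T hT =>
        ((hder T hT).sub ((kder T hT).const_mul R)).differentiableAt.differentiableWithinAt
    · rw [interior_Ico]
      intro T hT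
      have := ((hder T hT).fun_sub ((kder T hT).const_mul R)).deriv
      rw [this]
      linarith [hle T hT]
  have h := hanti ⟨le_rfl, one_pos⟩ hT hT.1
  simp only at h
  linarith

/-- the final step in vector form -/
theorem final_vec {E : Type*} [NormedAddCommGroup E] [InnerProductSpace ℝ E] {A S C γ k : ℝ} {I : E}
    (hS : 0 < S) (hC : 1 < C) (hγ : 0 < γ) (hk : 4 * γ * C ^ 2 * k ≤ (C - 1) ^ 2)
    (hI : ‖I‖ ≤ A) (hSA : S < A) (hlow : γ * (C * S - A) < (C - 1) ^ 2 * A)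
    (h : ∀ e : E, C * S * A + S * ⟪I, e⟫ ≤ A ^ 2 + γ * ‖I‖ ^ 2 + A * ⟪I, e⟫
      + (A ^ 2 * ‖e‖ ^ 2 - ⟪I, e⟫ ^ 2) * k) : C * S ≤ A := by
  have hA : 0 < A := hS.trans hSA
  refine final_num (J := ‖I‖ ^ 2) hS hA hC hγ hk (sq_nonneg _)
    (pow_le_pow_left₀ (norm_nonneg _) hI 2) hSA hlow fun l => ?_
  have := h (-l • I)
  rw [inner_smul_right, real_inner_self_eq_norm_sq, norm_smul, Real.norm_eq_abs, abs_neg,
    mul_pow, sq_abs] at this
  nlinarith

end Vale.Agent.P224.UE
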