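import Vale.Agent.P224.Bdl.B2

/-!
The conformal density at a point of an immersed piece, upper bound.
-/

namespace Vale.Agent.P224.UE

open MeasureTheory Filter Topology Set Vale.Agent.P224
open scoped RealInnerProductSpace ContDiff ENNReal Manifold

lemma lint_bound {m : ℕ} (hm : 0 < m) {b A : ℝ} (hb : 0 < b) :
    ∫⁻ z : EuclideanSpace ℝ (Fin m), ENNReal.ofReal (A * (2 / (1 + ‖b • z‖ ^ 2)) ^ m) ≠ ⊤ := by
  have h1 := lint_scale (m := m) 0 hb
    (fun w => ENNReal.ofReal ((2 / (1 + ‖w‖ ^ 2)) ^ m))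
  simp only [zero_add] at h1
  rw [lint_one_add hm] at h1
  have h2 : ∫⁻ z : EuclideanSpace ℝ (Fin m), ENNReal.ofReal ((2 / (1 + ‖b • z‖ ^ 2)) ^ m) ≠ ⊤ := by
    intro h
    rw [h, ENNReal.mul_top] at h1
    · exact ENNReal.ofReal_ne_top h1
    · rw [ne_eq, ENNReal.ofReal_eq_zero, not_le]
      positivity
  have h3 : ∫⁻ z : EuclideanSpace ℝ (Fin m), ENNReal.ofReal (A * (2 / (1 + ‖b • z‖ ^ 2)) ^ m)
      ≤ ENNReal.ofReal |A| * ∫⁻ z : EuclideanSpace ℝ (Fin m),
        ENNReal.ofReal ((2 / (1 + ‖b • z‖ ^ 2)) ^ m) := by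
    rw [← lintegral_const_mul' _ _ ENNReal.ofReal_ne_top]
    refine lintegral_mono fun z => ?_
    simp only
    rw [← ENNReal.ofReal_mul (abs_nonneg _)]
    exact ENNReal.ofReal_le_ofReal (mul_le_mul_of_nonneg_right (le_abs_self A) (by positivity))
  exact ne_top_of_le_ne_top (ENNReal.mul_ne_top ENNReal.ofReal_ne_top h2) h3

/-- the conformal density of a small immersed piece at its centre -/
theorem density_local_tendsto {m n : ℕ} (hm : 0 < m)
    (f : EuclideanSpace ℝ (Fin m) → EuclideanSpace ℝ (Fin n))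
    (U : Set (EuclideanSpace ℝ (Fin m))) (hU : IsOpen U) (u₀ : EuclideanSpace ℝ (Fin m))
    (hu : u₀ ∈ U) (hf : ContDiffOn ℝ 1 f U) (hn : ∀ u ∈ U, ‖f u‖ = 1)
    (hinj : Function.Injective (fderiv ℝ f u₀)) :
    ∃ δ₀ > 0, ∀ δ > 0, δ ≤ δ₀ → Metric.ball u₀ δ ⊆ U →
    Tendsto (fun φ => ∫⁻ u in Metric.ball u₀ δ,
        ENNReal.ofReal (Real.cos φ ^ m / (1 - Real.sin φ * ⟪f u, f u₀⟫) ^ m *
          Real.sqrt (Matrix.det (Matrix.of fun i j => ⟪fderiv ℝ f u (EuclideanSpace.single i 1),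
            fderiv ℝ f u (EuclideanSpace.single j 1)⟫))))
      (nhdsWithin (Real.pi / 2) (Set.Iio (Real.pi / 2))) (𝓝 (ENNReal.ofReal (sphereVol m))) := by
  set L := fderiv ℝ f u₀ with hL
  set D : EuclideanSpace ℝ (Fin m) → ℝ := fun u => Real.sqrt (Matrix.det (Matrix.of fun i j =>
    ⟪fderiv ℝ f u (EuclideanSpace.single i 1), fderiv ℝ f u (EuclideanSpace.single j 1)⟫)) with hD
  have hfdc : ContinuousOn (fderiv ℝ f) U := by
    have := hf.fderiv_of_isOpen (m := 0) hU (by norm_num)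
    exact this.continuousOn
  have hDc : ContinuousOn D U := by
    apply Continuous.comp_continuousOn Real.continuous_sqrt
    apply (continuous_id.matrix_det).comp_continuousOn
    apply continuousOn_mat
    intro i j
    exact (hfdc.clm_apply continuousOn_const).inner (𝕜 := ℝ) (hfdc.clm_apply continuousOn_const)
  have hfd : HasFDerivAt f L u₀ :=
    ((hf.differentiableOn (by norm_num)).differentiableAt (hU.mem_nhds hu)).hasFDerivAt
  obtain ⟨K0, hK0, hanti⟩ := L.toLinearMap.exists_antilipschitzWith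
    (LinearMap.ker_eq_bot.2 hinj)
  have hK0' : (0 : ℝ) < K0 := by exact_mod_cast hK0
  have hlow : ∀ w, ‖w‖ ≤ K0 * ‖L w‖ := by
    intro w
    have h1 := hanti.le_mul_dist w 0
    simpa [dist_eq_norm] using h1
  have hev1 : ∀ᶠ u in 𝓝 u₀, ‖f u - f u₀ - L (u - u₀)‖ ≤ 1 / (2 * K0) * ‖u - u₀‖ := by
    have h1 := hfd.isLittleO
    exact h1.def (by positivity)
  have hev2 : ∀ᶠ u in 𝓝 u₀, D u < D u₀ + 1 :=
    (hDc.continuousAt (hU.mem_nhds hu)).eventually_lt_const (lt_add_one _)
  obtain ⟨δ₀, hδ₀, hδ₀'⟩ := Metric.eventually_nhds_iff_ball.1 (hev1.and hev2)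
  refine ⟨δ₀, hδ₀, ?_⟩
  intro δ hδ hδle hsub
  have hlowf : ∀ u ∈ Metric.ball u₀ δ, 1 / (2 * K0) * ‖u - u₀‖ ≤ ‖f u - f u₀‖ := by
    intro u hu'
    have h1 := (hδ₀' u (Metric.ball_subset_ball hδle hu')).1
    have h2 := hlow (u - u₀)
    have h3 : ‖L (u - u₀)‖ ≤ ‖f u - f u₀‖ + ‖f u - f u₀ - L (u - u₀)‖ := by
      have := norm_sub_le (f u - f u₀) (f u - f u₀ - L (u - u₀))
      simpa using this
    have h4 : 1 / K0 * ‖u - u₀‖ ≤ ‖L (u - u₀)‖ := by
      rw [one_div, inv_mul_le_iff₀ hK0']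
      exact h2
    have h5 : (1 : ℝ) / K0 = 1 / (2 * K0) + 1 / (2 * K0) := by field_simp; ring
    rw [h5] at h4
    linarith
  have hDb : ∀ u ∈ Metric.ball u₀ δ, D u ≤ D u₀ + 1 := fun u hu' =>
    (hδ₀' u (Metric.ball_subset_ball hδle hu')).2.le
  set g : ℝ → EuclideanSpace ℝ (Fin m) → ℝ≥0∞ := fun φ u =>
    ENNReal.ofReal (Real.cos φ ^ m / (1 - Real.sin φ * ⟪f u, f u₀⟫) ^ m * D u) with hg
  set cc : ℝ → ℝ := fun φ => Real.sqrt (2 * (1 - Real.sin φ)) with hcc
  set K : ℝ → EuclideanSpace ℝ (Fin m) → ℝ≥0∞ := fun φ z =>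
    ENNReal.ofReal (cc φ ^ m) * (Metric.ball u₀ δ).indicator (g φ) (u₀ + cc φ • z) with hK
  have hfc : ContinuousOn f (Metric.ball u₀ δ) := (hf.continuousOn).mono hsub
  -- measurability
  have hmeas : ∀ φ, AEMeasurable (K φ) volume := by
    intro φ
    have h1 : AEMeasurable ((Metric.ball u₀ δ).indicator (g φ)) volume := by
      rw [aemeasurable_indicator_iff Metric.isOpen_ball.measurableSet]
      apply ENNReal.measurable_ofReal.comp_aemeasurable
      apply AEMeasurable.mul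
      · apply AEMeasurable.div aemeasurable_const
        apply AEMeasurable.pow_const
        have h2 : ContinuousOn (fun u => 1 - Real.sin φ * ⟪f u, f u₀⟫) (Metric.ball u₀ δ) :=
          continuousOn_const.sub (continuousOn_const.mul (hfc.inner (𝕜 := ℝ) continuousOn_const))
        exact h2.aemeasurable Metric.isOpen_ball.measurableSet
      · exact (hDc.mono hsub).aemeasurable Metric.isOpen_ball.measurableSet
    by_cases hc : cc φ = 0
    · have : K φ = fun _ => ENNReal.ofReal (cc φ ^ m) *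
          (Metric.ball u₀ δ).indicator (g φ) u₀ := by
        funext z
        simp only [hK, hc, zero_smul, add_zero]
      rw [this]
      exact aemeasurable_const
    · apply AEMeasurable.const_mul
      have hmap := Measure.map_addHaar_smul (volume : Measure (EuclideanSpace ℝ (Fin m))) hc
      have hq1 : Measure.QuasiMeasurePreserving (fun z : EuclideanSpace ℝ (Fin m) => cc φ • z)
          volume volume := by
        refine ⟨by fun_prop, ?_⟩
        rw [hmap]
        exact Measure.smul_absolutelyContinuous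
      have hq2 : Measure.QuasiMeasurePreserving (fun z : EuclideanSpace ℝ (Fin m) => u₀ + z)
          volume volume := (measurePreserving_add_left volume u₀).quasiMeasurePreserving
      exact h1.comp_quasiMeasurePreserving (hq2.comp hq1)
  -- pointwise limits
  have hsin : ∀ᶠ φ in nhdsWithin (Real.pi / 2) (Set.Iio (Real.pi / 2)),
      0 < Real.sin φ ∧ Real.sin φ < 1 ∧ 0 < Real.cos φ := by
    have h1 : ∀ᶠ φ in nhdsWithin (Real.pi / 2) (Set.Iio (Real.pi / 2)), 0 < φ :=
      nhdsWithin_le_nhds (lt_mem_nhds (by have := Real.pi_pos; linarith))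
    filter_upwards [h1, self_mem_nhdsWithin] with φ hp1 hp2
    have hp2' : φ < Real.pi / 2 := hp2
    have hcos : 0 < Real.cos φ := Real.cos_pos_of_mem_Ioo ⟨by linarith, hp2'⟩
    refine ⟨Real.sin_pos_of_pos_of_lt_pi hp1 (by linarith), ?_, hcos⟩
    have := Real.sin_sq_add_cos_sq φ
    nlinarith
  have hsint : Tendsto Real.sin (nhdsWithin (Real.pi / 2) (Set.Iio (Real.pi / 2))) (𝓝 1) := by
    have := (Real.continuous_sin.tendsto (Real.pi / 2)).mono_left
      (nhdsWithin_le_nhds (s := Set.Iio (Real.pi / 2)))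
    rwa [Real.sin_pi_div_two] at this
  have hcct : Tendsto cc (nhdsWithin (Real.pi / 2) (Set.Iio (Real.pi / 2))) (𝓝 0) := by
    have h1 : Tendsto (fun φ => Real.sqrt (2 * (1 - Real.sin φ)))
        (nhdsWithin (Real.pi / 2) (Set.Iio (Real.pi / 2))) (𝓝 (Real.sqrt (2 * (1 - 1)))) :=
      (Real.continuous_sqrt.tendsto _).comp ((hsint.const_sub 1).const_mul 2)
    have h0 : Real.sqrt (2 * (1 - 1)) = 0 := by norm_num
    rw [h0] at h1
    exact h1
  have hccpos : ∀ᶠ φ in nhdsWithin (Real.pi / 2) (Set.Iio (Real.pi / 2)), 0 < cc φ := by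
    filter_upwards [hsin] with φ hφ
    exact Real.sqrt_pos.mpr (by linarith [hφ.2.1])
  have hlim : ∀ z, Tendsto (fun φ => K φ z) (nhdsWithin (Real.pi / 2) (Set.Iio (Real.pi / 2)))
      (𝓝 (ENNReal.ofReal ((2 / (1 + ‖L z‖ ^ 2)) ^ m * D u₀))) := by
    intro z
    have hu' : Tendsto (fun φ => u₀ + cc φ • z) (nhdsWithin (Real.pi / 2) (Set.Iio (Real.pi / 2)))
        (𝓝 u₀) := by
      have := (tendsto_const_nhds (x := u₀)).add (hcct.smul_const z)
      simpa using this
    have hball : ∀ᶠ φ in nhdsWithin (Real.pi / 2) (Set.Iio (Real.pi / 2)),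
        u₀ + cc φ • z ∈ Metric.ball u₀ δ := hu'.eventually (Metric.ball_mem_nhds u₀ hδ)
    have hquot : Tendsto (fun φ => (cc φ)⁻¹ • (f (u₀ + cc φ • z) - f u₀))
        (nhdsWithin (Real.pi / 2) (Set.Iio (Real.pi / 2))) (𝓝 (L z)) := by
      have hne : ∀ᶠ φ in nhdsWithin (Real.pi / 2) (Set.Iio (Real.pi / 2)), cc φ ≠ 0 :=
        hccpos.mono fun φ h => h.ne'
      have h2 : Tendsto (fun φ => (cc φ)⁻¹ • (f (u₀ + cc φ • z) - f u₀))
          (nhdsWithin (Real.pi / 2) (Set.Iio (Real.pi / 2))) (𝓝 (L z)) := by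
        have hder : HasDerivAt (fun t : ℝ => f (u₀ + t • z)) (L z) 0 := by
          have h3 : HasDerivAt (fun t : ℝ => u₀ + t • z) z 0 := by
            have := ((hasDerivAt_id (0 : ℝ)).smul_const z).const_add u₀
            simpa using this
          have h4 : HasFDerivAt f L (u₀ + (0 : ℝ) • z) := by simpa using hfd
          exact h4.comp_hasDerivAt 0 h3
        have h5 := hder.tendsto_slope_zero
        simp only [zero_add, zero_smul, add_zero] at h5
        have h6 : Tendsto cc (nhdsWithin (Real.pi / 2) (Set.Iio (Real.pi / 2)))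
            (nhdsWithin 0 {0}ᶜ) := tendsto_nhdsWithin_iff.mpr ⟨hcct, hne⟩
        exact h5.comp h6
      exact h2
    have hreal : Tendsto (fun φ => (2 * (1 + Real.sin φ)) ^ ((m : ℝ) / 2) /
        (1 + Real.sin φ * ‖(cc φ)⁻¹ • (f (u₀ + cc φ • z) - f u₀)‖ ^ 2) ^ m *
        D (u₀ + cc φ • z)) (nhdsWithin (Real.pi / 2) (Set.Iio (Real.pi / 2)))
        (𝓝 ((2 * (1 + 1)) ^ ((m : ℝ) / 2) / (1 + 1 * ‖L z‖ ^ 2) ^ m * D u₀)) := by
      apply Tendsto.mul
      · apply Tendsto.div
        · exact ((hsint.const_add 1).const_mul 2).rpow_const (Or.inl (by norm_num))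
        · exact ((hsint.mul (hquot.norm.pow 2)).const_add 1).pow m
        · positivity
      · exact ((hDc.continuousAt (hU.mem_nhds hu)).tendsto).comp hu'
    have hval : (2 * (1 + 1) : ℝ) ^ ((m : ℝ) / 2) / (1 + 1 * ‖L z‖ ^ 2) ^ m * D u₀
        = (2 / (1 + ‖L z‖ ^ 2)) ^ m * D u₀ := by
      have : (2 * (1 + 1) : ℝ) ^ ((m : ℝ) / 2) = 2 ^ m := by
        rw [show (2 * (1 + 1) : ℝ) = 2 ^ (2 : ℝ) by norm_num, ← Real.rpow_mul (by norm_num)]
        rw [show (2 : ℝ) * ((m : ℝ) / 2) = m by ring, Real.rpow_natCast]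
      rw [this, one_mul, div_pow]
    rw [hval] at hreal
    refine (ENNReal.tendsto_ofReal hreal).congr' ?_
    filter_upwards [hsin, hball, hccpos] with φ hφ hb hc
    simp only [hK]
    rw [indicator_of_mem hb]
    simp only [hg]
    rw [← ENNReal.ofReal_mul (pow_nonneg hc.le m), ← mul_assoc]
    congr 2
    -- algebra
    set κ : ℝ := 1 - Real.sin φ with hκ
    have hκ0 : 0 < κ := by rw [hκ]; linarith [hφ.2.1]
    have hc2 : cc φ ^ 2 = 2 * κ := Real.sq_sqrt (by positivity)
    have hcos2 : Real.cos φ ^ 2 = κ * (1 + Real.sin φ) := by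
      rw [hκ]
      have := Real.sin_sq_add_cos_sq φ
      linear_combination this
    have hs : 1 - Real.sin φ * ⟪f (u₀ + cc φ • z), f u₀⟫ = κ * (1 + Real.sin φ *
        ‖(cc φ)⁻¹ • (f (u₀ + cc φ • z) - f u₀)‖ ^ 2) := by
      rw [norm_smul, mul_pow, norm_inv, Real.norm_eq_abs, inv_pow, sq_abs, hc2,
        @norm_sub_sq ℝ, hn _ (hsub hb), hn _ hu]
      simp only [RCLike.re_to_real]
      rw [hκ] at hκ0 ⊢
      field_simp
      ring
    rw [hs, mul_pow]
    have h7 : (2 * (1 + Real.sin φ)) ^ ((m : ℝ) / 2) = cc φ ^ m * Real.cos φ ^ m / κ ^ m := by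
      have h8 : 2 * (1 + Real.sin φ) = (cc φ * Real.cos φ / κ) ^ (2 : ℝ) := by
        rw [Real.rpow_two, div_pow, mul_pow, hc2, hcos2]
        field_simp
      rw [h8, ← Real.rpow_mul (div_nonneg (mul_nonneg hc.le hφ.2.2.le) hκ0.le),
        show (2 : ℝ) * ((m : ℝ) / 2) = m by ring,
        Real.rpow_natCast, div_pow, mul_pow]
    rw [h7]
    field_simp
  -- domination
  set b : ℝ := 1 / (2 * K0) / Real.sqrt 2 with hb
  have hb0 : 0 < b := by positivity
  have hdom : ∀ᶠ φ in nhdsWithin (Real.pi / 2) (Set.Iio (Real.pi / 2)), ∀ᵐ z : EuclideanSpace ℝ (Fin m),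
      K φ z ≤ ENNReal.ofReal ((D u₀ + 1) * (2 / (1 + ‖b • z‖ ^ 2)) ^ m) := by
    have hs2 : ∀ᶠ φ in nhdsWithin (Real.pi / 2) (Set.Iio (Real.pi / 2)), 1 / 2 < Real.sin φ :=
      hsint.eventually_const_lt (by norm_num)
    filter_upwards [hsin, hs2, hccpos] with φ hφ hφ2 hc
    refine Eventually.of_forall fun z => ?_
    by_cases hb' : u₀ + cc φ • z ∈ Metric.ball u₀ δ
    swap
    · simp only [hK]
      rw [indicator_of_notMem hb', mul_zero]
      exact zero_le
    simp only [hK]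
    rw [indicator_of_mem hb']
    simp only [hg]
    rw [← ENNReal.ofReal_mul (pow_nonneg hc.le m), ← mul_assoc]
    apply ENNReal.ofReal_le_ofReal
    set κ : ℝ := 1 - Real.sin φ with hκ
    have hκ0 : 0 < κ := by rw [hκ]; linarith [hφ.2.1]
    have hc2 : cc φ ^ 2 = 2 * κ := Real.sq_sqrt (by positivity)
    have hcos2 : Real.cos φ ^ 2 = κ * (1 + Real.sin φ) := by
      rw [hκ]
      have := Real.sin_sq_add_cos_sq φ
      linear_combination this
    have hD0 : 0 ≤ D (u₀ + cc φ • z) := Real.sqrt_nonneg _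
    have hD1 := hDb _ hb'
    have hF := hlowf _ hb'
    rw [add_sub_cancel_left, norm_smul, Real.norm_eq_abs, abs_of_pos hc] at hF
    have hs : κ * (1 + ‖b • z‖ ^ 2) ≤ 1 - Real.sin φ * ⟪f (u₀ + cc φ • z), f u₀⟫ := by
      have e1 : 1 - Real.sin φ * ⟪f (u₀ + cc φ • z), f u₀⟫
          = κ + Real.sin φ * (‖f (u₀ + cc φ • z) - f u₀‖ ^ 2 / 2) := by
        rw [@norm_sub_sq ℝ, hn _ (hsub hb'), hn _ hu]
        simp only [RCLike.re_to_real]
        rw [hκ]
        ring
      have e2 : (1 / (2 * (K0 : ℝ)) * (cc φ * ‖z‖)) ^ 2 ≤ ‖f (u₀ + cc φ • z) - f u₀‖ ^ 2 := by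
        gcongr
      have e3 : (1 / (2 * (K0 : ℝ)) * (cc φ * ‖z‖)) ^ 2 = 4 * κ * ‖b • z‖ ^ 2 := by
        have hb2 : b ^ 2 = (1 / (2 * (K0 : ℝ))) ^ 2 / 2 := by
          rw [hb, div_pow, Real.sq_sqrt (by norm_num)]
        rw [norm_smul, Real.norm_eq_abs, abs_of_pos hb0, mul_pow, mul_pow, hc2, mul_pow b, hb2]
        ring
      rw [e3] at e2
      rw [e1]
      have e4 : 0 ≤ κ * ‖b • z‖ ^ 2 := by positivity
      nlinarith
    have hq : 0 < 1 + ‖b • z‖ ^ 2 := by positivity
    have h7 : cc φ * Real.cos φ / (1 - Real.sin φ * ⟪f (u₀ + cc φ • z), f u₀⟫)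
        ≤ 2 / (1 + ‖b • z‖ ^ 2) := by
      have h8 : cc φ * Real.cos φ ≤ 2 * κ := by
        have h9 : (cc φ * Real.cos φ) ^ 2 ≤ (2 * κ) ^ 2 := by
          rw [mul_pow, hc2, hcos2]
          have : 1 + Real.sin φ ≤ 2 := by linarith [hφ.2.1]
          nlinarith [mul_pos hκ0 hκ0]
        exact le_of_sq_le_sq h9 (by positivity)
      rw [div_le_div_iff₀ (lt_of_lt_of_le (by positivity) hs) hq]
      have h10 := mul_le_mul_of_nonneg_right h8 hq.le
      linarith
    have h11 : cc φ ^ m * (Real.cos φ ^ m / (1 - Real.sin φ * ⟪f (u₀ + cc φ • z), f u₀⟫) ^ m)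
        ≤ (2 / (1 + ‖b • z‖ ^ 2)) ^ m := by
      rw [← div_pow, ← mul_pow, ← mul_div_assoc]
      have h12 : 0 < 1 - Real.sin φ * ⟪f (u₀ + cc φ • z), f u₀⟫ := lt_of_lt_of_le (by positivity) hs
      exact pow_le_pow_left₀ (div_nonneg (mul_nonneg hc.le hφ.2.2.le) h12.le) h7 m
    rw [mul_comm (D u₀ + 1)]
    exact mul_le_mul h11 hD1 hD0 (by positivity)
  have key := tendsto_lintegral_filter_of_dominated_convergence'
    (μ := (volume : Measure (EuclideanSpace ℝ (Fin m)))) (F := K)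
    (f := fun z => ENNReal.ofReal ((2 / (1 + ‖L z‖ ^ 2)) ^ m * D u₀))
    (l := nhdsWithin (Real.pi / 2) (Set.Iio (Real.pi / 2)))
    (fun z => ENNReal.ofReal ((D u₀ + 1) * (2 / (1 + ‖b • z‖ ^ 2)) ^ m))
    (Eventually.of_forall hmeas) hdom (lint_bound hm hb0) (Eventually.of_forall hlim)
  rw [lint_linear hm L hinj] at key
  refine key.congr' ?_
  filter_upwards [hccpos] with φ hc
  rw [← lintegral_indicator Metric.isOpen_ball.measurableSet]
  rw [lint_scale u₀ hc ((Metric.ball u₀ δ).indicator (g φ)),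
    ← lintegral_const_mul' _ _ ENNReal.ofReal_ne_top]

section

open Module Metric

variable {V W M : Type*} [NormedAddCommGroup V] [InnerProductSpace ℝ V] [FiniteDimensional ℝ V]
  [NormedAddCommGroup W] [InnerProductSpace ℝ W] [FiniteDimensional ℝ W]
  [TopologicalSpace M] [ChartedSpace V M] {F : M → W}
  [MeasurableSpace V] [BorelSpace V] [MeasurableSpace M] [BorelSpace M]

/-- The conformal density of a small neighbourhood of a point. -/
theorem density_at_tendsto [IsManifold 𝓘(ℝ, V) ∞ M] (hm : 0 < finrank ℝ V)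
    (hW : finrank ℝ W = finrank ℝ V + 2) (hF : SphImm V F) (p : M) :
    ∃ N : Set M, IsOpen N ∧ p ∈ N ∧ Tendsto (fun φ =>
      ∫⁻ x in N, ENNReal.ofReal ((Real.cos φ / (1 - ⟪F x, F p⟫ * Real.sin φ)) ^ (finrank ℝ V))
          ∂(volM V F)) (𝓝[<] (Real.pi / 2)) (𝓝 (ENNReal.ofReal (sphereVol (finrank ℝ V)))) := by
  set χ := chartAt V p with hχ
  have hps := mem_chart_source V p
  have hut : χ p ∈ χ.target := χ.map_source hps
  have hI := (immV_rep hF p)
  have hI' := hI.imm hW
  have hmem : iV V (χ p) ∈ (iV V).symm ⁻¹' χ.target := by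
    rw [mem_preimage, (iV V).symm_apply_apply]; exact hut
  obtain ⟨δ₀, hδ₀, hd⟩ := density_local_tendsto hm (tr hW (rep (V := V) F p))
    ((iV V).symm ⁻¹' χ.target) hI'.isOpen
    (iV V (χ p)) hmem (hI'.smooth.of_le (by norm_cast)) hI'.unit (hI'.inj _ hmem)
  obtain ⟨δ₁, hδ₁, hball⟩ := Metric.isOpen_iff.mp χ.open_target _ hut
  set δ : ℝ := min δ₀ δ₁ with hδ
  have hδ0 : 0 < δ := lt_min hδ₀ hδ₁
  have hballT : Metric.ball (χ p) δ ⊆ χ.target :=
    (Metric.ball_subset_ball (min_le_right _ _)).trans hball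
  have hsub : Metric.ball (iV V (χ p)) δ ⊆ (iV V).symm ⁻¹' χ.target := by
    intro u hu
    rw [mem_preimage]
    have : (iV V).symm u ∈ Metric.ball (χ p) δ := by
      rw [mem_ball] at hu ⊢
      rw [← (iV V).symm.dist_map] at hu
      simpa using hu
    exact hballT this
  have hd' := hd δ hδ0 (min_le_left _ _) hsub
  set N : Set M := χ.source ∩ χ ⁻¹' (Metric.ball (χ p) δ) with hNdef
  have hN : IsOpen N := χ.isOpen_inter_preimage Metric.isOpen_ball
  refine ⟨N, hN, ⟨hps, mem_ball_self hδ0⟩, ?_⟩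
  refine hd'.congr fun φ => ?_
  have hNm := hN.measurableSet
  have hle : (volM V F).restrict N = (chartMeas (V := V) F p).restrict N := by
    rw [← volM_restrict_source hF p, Measure.restrict_restrict_of_subset inter_subset_left]
  set K : M → ℝ≥0∞ := fun x =>
    ENNReal.ofReal ((Real.cos φ / (1 - ⟪F x, F p⟫ * Real.sin φ)) ^ (finrank ℝ V)) with hK
  have hKm : Measurable K := by
    have hFc : Continuous F := hF.1.continuous
    exact ENNReal.measurable_ofReal.comp ((measurable_const.div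
      (measurable_const.sub ((hFc.inner continuous_const).measurable.mul_const _))).pow_const _)
  rw [hle, ← lintegral_indicator hNm]
  have hTm := χ.open_target.measurableSet
  unfold chartMeas
  rw [lintegral_map' (hKm.indicator hNm).aemeasurable
      (χ.continuousOn_symm.aemeasurable hTm), restrict_withDensity hTm,
      lintegral_withDensity_eq_lintegral_mul₀]
  · have hmp : MeasurePreserving (iV V) := (iV V).measurePreserving
    have hme : MeasurableEmbedding (iV V) := (iV V).toHomeomorph.measurableEmbedding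
    have hpre : (iV V) ⁻¹' (Metric.ball (iV V (χ p)) δ) = Metric.ball (χ p) δ := by
      ext u
      rw [mem_preimage, mem_ball, mem_ball, (iV V).dist_map]
    rw [← hmp.setLIntegral_comp_preimage_emb hme, hpre]
    have h3 : ∀ u ∈ χ.target, ((fun u : V =>
        ENNReal.ofReal (Real.sqrt (metricMat (rep F p) u).det)) *
          fun a => N.indicator K (χ.symm a)) u = (Metric.ball (χ p) δ).indicator (fun u =>
          ENNReal.ofReal (Real.sqrt (metricMat (rep F p) u).det) * K (χ.symm u)) u := by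
      intro u hu
      rw [Pi.mul_apply]
      by_cases hb : u ∈ Metric.ball (χ p) δ
      · have huN : χ.symm u ∈ N := ⟨χ.map_target hu, by rw [mem_preimage, χ.right_inv hu]; exact hb⟩
        rw [indicator_of_mem hb, indicator_of_mem huN]
      · have huN : χ.symm u ∉ N := fun h => hb (by
          have := h.2
          rwa [mem_preimage, χ.right_inv hu] at this)
        rw [indicator_of_notMem hb, indicator_of_notMem huN, mul_zero]
    rw [setLIntegral_congr_fun hTm h3, lintegral_indicator measurableSet_ball,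
      Measure.restrict_restrict_of_subset hballT]
    refine setLIntegral_congr_fun measurableSet_ball fun u hu => ?_
    have e1 : tr hW (rep (V := V) F p) (iV V u) = iW hW (F (χ.symm u)) := by
      unfold tr rep
      rw [(iV V).symm_apply_apply]
    have e2 : tr hW (rep (V := V) F p) (iV V (χ p)) = iW hW (F p) := by
      unfold tr rep
      rw [(iV V).symm_apply_apply, χ.left_inv hps]
    have e3 : (Matrix.of fun i j => ⟪fderiv ℝ (tr hW (rep (V := V) F p)) (iV V u)
        (EuclideanSpace.single i 1), fderiv ℝ (tr hW (rep (V := V) F p)) (iV V u)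
        (EuclideanSpace.single j 1)⟫) = metricMat (rep F p) u := by
      rw [← G_tr hW (rep F p) u]
      rfl
    rw [e1, e2, e3, (iW hW).inner_map_map, hK]
    beta_reduce
    rw [mul_comm (Real.cos φ ^ finrank ℝ V / _), ENNReal.ofReal_mul (Real.sqrt_nonneg _),
      div_pow, mul_comm (Real.sin φ)]
  · exact ((measurable_rep_det hF p).aemeasurable hTm).ennreal_ofReal
  · exact (hKm.indicator hNm).comp_aemeasurable (χ.continuousOn_symm.aemeasurable hTm)

end

end Vale.Agent.P224.UE
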