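import Mathlib

/-!
The final algebra of the unbalanced case.
-/

namespace Vale.Agent.P224.UE

open scoped RealInnerProductSpace

/-- the decisive inequality between numbers: `A` is the volume, `S` the volume of the sphere, `C`
the target ratio, `J` the square of the norm of the integral of the normal -/
theorem final_num {A S C γ k J : ℝ} (hS : 0 < S) (hA : 0 < A) (hC : 1 < C) (hγ : 0 < γ)
    (hk : 4 * γ * C ^ 2 * k ≤ (C - 1) ^ 2) (hJ0 : 0 ≤ J) (hJ : J ≤ A ^ 2) (hSA : S < A)
    (hlow : γ * (C * S - A) < (C - 1) ^ 2 * A)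
    (h : ∀ l : ℝ, 0 ≤ A ^ 2 + γ * J - C * S * A - l * ((A - S) * J) + k * l ^ 2 * (J * (A ^ 2 - J))) :
    C * S ≤ A := by
  by_contra hlt
  push Not at hlt
  set w : ℝ := C * S - A with hw
  have hw0 : 0 < w := by rw [hw]; linarith
  have hJpos : 0 < J := by
    rcases eq_or_lt_of_le hJ0 with h0 | h0
    · exfalso
      have := h 0
      rw [← h0] at this
      nlinarith [mul_pos hw0 hA]
    · exact h0
  rcases eq_or_lt_of_le hJ with h1 | h1
  · -- the normal is constant
    have h2 := h ((A ^ 2 + γ * J + 1) / ((A - S) * J))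
    have h3 : 0 < (A - S) * J := mul_pos (by linarith) hJpos
    rw [div_mul_cancel₀ _ h3.ne', h1] at h2
    have h4 : k * ((A ^ 2 + γ * A ^ 2 + 1) / ((A - S) * A ^ 2)) ^ 2 * (A ^ 2 * (A ^ 2 - A ^ 2)) = 0 := by
      ring
    rw [h4] at h2
    nlinarith [mul_pos (by linarith : 0 < C * S) hA]
  · -- discriminant
    have hk4 : 0 < A ^ 2 - J := by linarith
    have key : ∀ l : ℝ, 0 ≤ (k * (J * (A ^ 2 - J))) * (l * l) + (-((A - S) * J)) * l
        + (A ^ 2 + γ * J - C * S * A) := by
      intro l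
      have := h l
      nlinarith
    have hd := discrim_le_zero key
    unfold discrim at hd
    -- (A - S)^2 J <= 4 k (A^2 - J) (γ J - w A)
    have hd2 : (A - S) ^ 2 * J ≤ 4 * k * (A ^ 2 - J) * (γ * J - w * A) := by
      have e1 : A ^ 2 + γ * J - C * S * A = γ * J - w * A := by rw [hw]; ring
      rw [e1] at hd
      have e2 : J * ((A - S) ^ 2 * J - 4 * k * (A ^ 2 - J) * (γ * J - w * A)) ≤ 0 := by nlinarith
      have e3 := nonpos_of_mul_nonpos_right e2 hJpos
      linarith
    have hpos1 : 0 < γ * J - w * A ∨ γ * J - w * A ≤ 0 := by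
      rcases lt_or_ge 0 (γ * J - w * A) with h | h
      · exact Or.inl h
      · exact Or.inr h
    have hg0 := h 0
    have hg : 0 ≤ γ * J - w * A := by
      have e1 : A ^ 2 + γ * J - C * S * A = γ * J - w * A := by rw [hw]; ring
      linarith
    -- multiply by γ C^2
    have hd3 : γ * C ^ 2 * ((A - S) ^ 2 * J) ≤ (C - 1) ^ 2 * ((A ^ 2 - J) * (γ * J - w * A)) := by
      have e1 := mul_le_mul_of_nonneg_left hd2 (by positivity : 0 ≤ γ * C ^ 2)
      have e2 := mul_le_mul_of_nonneg_right hk (mul_nonneg hk4.le hg)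
      nlinarith
    -- C (A - S) = (C - 1) A - w
    have hCA : C * (A - S) = (C - 1) * A - w := by rw [hw]; ring
    have hid : γ * ((C - 1) * A - w) ^ 2 * J - (C - 1) ^ 2 * ((A ^ 2 - J) * (γ * J - w * A))
        = w * (A ^ 2 - J) * ((C - 1) ^ 2 * A - γ * w) + γ * ((C - 1) * J - w * A) ^ 2 := by
      ring
    have e5 : γ * C ^ 2 * ((A - S) ^ 2 * J) = γ * ((C - 1) * A - w) ^ 2 * J := by
      rw [← hCA]; ring
    have p1 : 0 < w * (A ^ 2 - J) * ((C - 1) ^ 2 * A - γ * w) := by
      have : 0 < (C - 1) ^ 2 * A - γ * w := by linarith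
      positivity
    have p2 : 0 ≤ γ * ((C - 1) * J - w * A) ^ 2 := by positivity
    rw [e5] at hd3
    linarith

end Vale.Agent.P224.UE
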