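import Vale.Agent.P224.UE.RowsE

/-!
Functionals of pairs with a fixed vector.
-/

namespace Vale.Agent.P224.UE

open MeasureTheory Set Filter Function
open Vale.Agent.P224.SM2 hiding ker
open scoped Topology RealInnerProductSpace

set_option linter.unusedSectionVars false

abbrev R9 := Fin 9 → ℝ

/-- the pair data of four vectors and a fixed vector: the products of `x` with `y, w`, of `N` with
`y, w`, of `N, w, x, y` with `e`, and the square of `e` -/
noncomputable def dv {E : Type*} [NormedAddCommGroup E] [InnerProductSpace ℝ E]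
    (x N y w e : E) : R9 :=
  ![⟪x, y⟫, ⟪x, w⟫, ⟪N, y⟫, ⟪N, w⟫, ⟪N, e⟫, ⟪w, e⟫, ⟪x, e⟫, ⟪y, e⟫, ⟪e, e⟫]

/-- a box containing all pair data -/
def KE (B : ℝ) : Set R9 := Icc (fun _ => -B) (fun _ => B) ∩ {d | d 0 ∈ Icc (-1 : ℝ) 1}

lemma isCompact_KE (B : ℝ) : IsCompact (KE B) := by
  refine isCompact_Icc.inter_right ?_
  exact isClosed_Icc.preimage (continuous_apply 0)

/-- exchange of the two points -/
def sw9 (d : R9) : R9 := ![d 0, d 2, d 1, d 3, d 5, d 4, d 7, d 6, d 8]

/-- the row at level `T` as a function of pair data -/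
noncomputable def rT (k : Fin 6) (m : ℝ) (T : ℝ) (q i j : ℕ) (d : R9) : ℝ :=
  rowT k m T q i j (d 0) (d 1) (d 2) (d 3) (d 4) (d 5) (d 6) (d 7) (d 8)

section

variable {E : Type*} [NormedAddCommGroup E] [InnerProductSpace ℝ E]

/-- the bound of the pair data -/
noncomputable def bE (e : E) : ℝ := 1 + ‖e‖ + ‖e‖ ^ 2

lemma dv_mem {x N y w e : E} (hx : ‖x‖ = 1) (hN : ‖N‖ = 1) (hy : ‖y‖ = 1) (hw : ‖w‖ = 1) :
    dv x N y w e ∈ KE (bE e) := by
  have h0 : 0 ≤ ‖e‖ := norm_nonneg e
  have key : ∀ a b : E, ‖a‖ = 1 → ‖b‖ = 1 → |⟪a, b⟫| ≤ bE e := by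
    intro a b ha hb
    have := abs_real_inner_le_norm a b
    rw [ha, hb, mul_one] at this
    unfold bE
    nlinarith
  have key2 : ∀ a : E, ‖a‖ = 1 → |⟪a, e⟫| ≤ bE e := by
    intro a ha
    have := abs_real_inner_le_norm a e
    rw [ha, one_mul] at this
    unfold bE
    nlinarith
  have key3 : |⟪e, e⟫| ≤ bE e := by
    rw [real_inner_self_eq_norm_sq, abs_of_nonneg (sq_nonneg _)]
    unfold bE
    nlinarith
  have hs : |⟪x, y⟫| ≤ 1 := by
    have := abs_real_inner_le_norm x y
    rwa [hx, hy, mul_one] at this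
  have h : ∀ i, |dv x N y w e i| ≤ bE e := by
    intro i
    fin_cases i
    · exact key _ _ hx hy
    · exact key _ _ hx hw
    · exact key _ _ hN hy
    · exact key _ _ hN hw
    · exact key2 _ hN
    · exact key2 _ hw
    · exact key2 _ hx
    · exact key2 _ hy
    · exact key3
  refine ⟨⟨fun i => (abs_le.1 (h i)).1, fun i => (abs_le.1 (h i)).2⟩, ?_⟩
  exact abs_le.1 hs

lemma sw_dv (x N y w e : E) : sw9 (dv x N y w e) = dv y w x N e := by
  unfold sw9 dv
  ext i
  fin_cases i <;> simp [real_inner_comm]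

end

section

variable {X : Type*} [MeasurableSpace X] {E : Type*} [NormedAddCommGroup E]
  [InnerProductSpace ℝ E] [MeasurableSpace E] [BorelSpace E] [SecondCountableTopology E]

/-- the pair data of a pair of points -/
noncomputable def dat (p n : X → E) (e : E) (q : X × X) : R9 :=
  dv (p q.1) (n q.1) (p q.2) (n q.2) e

/-- the data of the two point method with a fixed vector -/
structure TwoE (μ : Measure X) (m : ℕ) (p n : X → E) : Prop extends FV.Pts p n where
  pn : ∀ x, ⟪p x, n x⟫ = 0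
  row : ∀ (z : X) (e : E), ∀ T ∈ Ioo (0 : ℝ) 1, ∀ (k : Fin 6) (q i j : ℕ),
    ∫ x, rT k m T q i j (dat p n e (x, z)) ∂μ = 0

variable {μ : Measure X} [IsFiniteMeasure μ] {m : ℕ} {p n : X → E}

lemma measurable_dat (h : FV.Pts p n) (e : E) : Measurable (dat p n e) := by
  have mp1 : Measurable (fun q : X × X => p q.1) := h.mp.comp measurable_fst
  have mp2 : Measurable (fun q : X × X => p q.2) := h.mp.comp measurable_snd
  have mn1 : Measurable (fun q : X × X => n q.1) := h.mn.comp measurable_fst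
  have mn2 : Measurable (fun q : X × X => n q.2) := h.mn.comp measurable_snd
  rw [measurable_pi_iff]
  intro i
  fin_cases i
  · exact mp1.inner mp2
  · exact mp1.inner mn2
  · exact mn1.inner mp2
  · exact mn1.inner mn2
  · exact mn1.inner measurable_const
  · exact mn2.inner measurable_const
  · exact mp1.inner measurable_const
  · exact mp2.inner measurable_const
  · exact measurable_const

lemma dat_mem (h : FV.Pts p n) (e : E) (q : X × X) : dat p n e q ∈ KE (bE e) :=
  dv_mem (h.np _) (h.nn _) (h.np _) (h.nn _)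

lemma sw_dat (e : E) (q : X × X) : sw9 (dat p n e q) = dat p n e q.swap := sw_dv _ _ _ _ _

/-- functions of pair data with vanishing double integral -/
def Null (μ : Measure X) (p n : X → E) (e : E) (f : R9 → ℝ) : Prop :=
  Integrable (fun q => f (dat p n e q)) (μ.prod μ) ∧ ∫ q, f (dat p n e q) ∂(μ.prod μ) = 0

lemma Null.zero (e : E) : Null μ p n e (fun _ => 0) :=
  ⟨integrable_zero _ _ _, by simp⟩

lemma Null.add {e : E} {f g : R9 → ℝ} (hf : Null μ p n e f) (hg : Null μ p n e g) :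
    Null μ p n e (fun d => f d + g d) :=
  ⟨hf.1.add hg.1, by rw [integral_add hf.1 hg.1, hf.2, hg.2, add_zero]⟩

lemma Null.sub {e : E} {f g : R9 → ℝ} (hf : Null μ p n e f) (hg : Null μ p n e g) :
    Null μ p n e (fun d => f d - g d) :=
  ⟨hf.1.sub hg.1, by rw [integral_sub hf.1 hg.1, hf.2, hg.2, sub_zero]⟩

lemma Null.const_mul {e : E} {f : R9 → ℝ} (hf : Null μ p n e f) (a : ℝ) :
    Null μ p n e (fun d => a * f d) :=
  ⟨hf.1.const_mul a, by rw [integral_const_mul, hf.2, mul_zero]⟩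

lemma Null.neg {e : E} {f : R9 → ℝ} (hf : Null μ p n e f) : Null μ p n e (fun d => -f d) :=
  ⟨hf.1.neg, by rw [integral_neg, hf.2, neg_zero]⟩

lemma Null.sum {ι : Type*} {e : E} (s : Finset ι) {f : ι → R9 → ℝ}
    (hf : ∀ i ∈ s, Null μ p n e (f i)) : Null μ p n e (fun d => ∑ i ∈ s, f i d) := by
  classical
  induction s using Finset.induction_on with
  | empty => simpa using Null.zero e
  | insert a s ha ih =>
    simp only [Finset.sum_insert ha]
    exact (hf a (Finset.mem_insert_self a s)).add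
      (ih fun i hi => hf i (Finset.mem_insert_of_mem hi))

lemma Null.swap {e : E} {f : R9 → ℝ} (hf : Null μ p n e f) :
    Null μ p n e (fun d => f (sw9 d)) := by
  refine ⟨?_, ?_⟩
  · simp only [sw_dat]
    exact hf.1.swap
  · simp only [sw_dat]
    rw [← hf.2]
    exact integral_prod_swap (μ := μ) (ν := μ) (fun q => f (dat p n e q))

lemma measurable_rT (k : Fin 6) (m T : ℝ) (q i j : ℕ) : Measurable (rT k m T q i j) := by
  have h1 := measurable_ker T q
  have h2 := measurable_ker T (q + 1)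
  unfold rT rowT rowE
  fin_cases k <;> simp only <;> fun_prop

lemma contOn_kerE {T : ℝ} (hT : T ∈ Ico (0 : ℝ) 1) (q : ℕ) (B : ℝ) :
    ContinuousOn (fun d : R9 => SM2.ker T q (d 0)) (KE B) := by
  unfold SM2.ker
  refine ContinuousOn.inv₀ (by fun_prop) fun k hk => ?_
  exact pow_ne_zero _ (one_sub_pos' hT hk.2.2).ne'

lemma contOn_kerE2 (q : ℕ) (B : ℝ) :
    ContinuousOn (fun z : ℝ × R9 => SM2.ker z.1 q (z.2 0)) (Ico 0 1 ×ˢ KE B) := by
  unfold SM2.ker
  refine ContinuousOn.inv₀ (by fun_prop) ?_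
  rintro ⟨T, k⟩ ⟨hT, hk⟩
  exact pow_ne_zero _ (one_sub_pos' hT hk.2.2).ne'

lemma contOn_rT (k : Fin 6) (m : ℝ) {T : ℝ} (hT : T ∈ Ico (0 : ℝ) 1) (q i j : ℕ) (B : ℝ) :
    ContinuousOn (rT k m T q i j) (KE B) := by
  have h1 := contOn_kerE hT q B
  have h2 := contOn_kerE hT (q + 1) B
  unfold rT rowT rowE
  fin_cases k <;> simp only <;> fun_prop

/-- the rows with weights depending on the second point -/
theorem TwoE.null_row (h : TwoE μ m p n) (e : E) {T : ℝ} (hT : T ∈ Ioo (0 : ℝ) 1) (k : Fin 6)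
    (q i j : ℕ) {w : ℝ → ℝ → ℝ} (hw : Continuous (uncurry w)) :
    Null μ p n e (fun d => w (d 5) (d 7) * rT k m T q i j d) := by
  have hT' : T ∈ Ico (0 : ℝ) 1 := ⟨hT.1.le, hT.2⟩
  have hwc : Continuous (fun d : R9 => w (d 5) (d 7)) := by
    have h57 : Continuous (fun d : R9 => (d 5, d 7)) := by fun_prop
    exact hw.comp h57
  have hint : Integrable (fun q' => w (dat p n e q' 5) (dat p n e q' 7)
      * rT k m T q i j (dat p n e q')) (μ.prod μ) :=
    integrable_param (μ.prod μ) (measurable_dat h.toPts e) (isCompact_KE (bE e))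
      (dat_mem h.toPts e) (f := fun d => w (d 5) (d 7) * rT k m T q i j d)
      (hwc.measurable.mul (measurable_rT k m T q i j))
      (hwc.continuousOn.mul (contOn_rT k m hT' q i j _))
  refine ⟨hint, ?_⟩
  rw [integral_prod_symm _ hint]
  have hz : ∀ z, ∫ x, w (dat p n e (x, z) 5) (dat p n e (x, z) 7)
      * rT k m T q i j (dat p n e (x, z)) ∂μ = 0 := by
    intro z
    have e1 : ∀ x, w (dat p n e (x, z) 5) (dat p n e (x, z) 7) = w ⟪n z, e⟫ ⟪p z, e⟫ := by
      intro x
      rfl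
    simp only [e1]
    rw [integral_const_mul, h.row z e T hT k q i j, mul_zero]
  simp only [hz, integral_zero]

/-- the monotone functional -/
theorem TwoE.antitone (h : TwoE μ m p n) (e : E) {g g' : ℝ → R9 → ℝ}
    (hgm : ∀ T, Measurable (g T)) (hg'm : ∀ T, Measurable (g' T))
    (hgc : ContinuousOn (uncurry g) (Ico 0 1 ×ˢ KE (bE e)))
    (hg'c : ContinuousOn (uncurry g') (Ioo 0 1 ×ˢ KE (bE e)))
    (hd : ∀ T ∈ Ioo (0 : ℝ) 1, ∀ k ∈ KE (bE e), HasDerivAt (fun T => g T k) (g' T k) T)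
    (hR : ∀ T ∈ Ioo (0 : ℝ) 1, ∃ R : R9 → ℝ, Null μ p n e R ∧
      ∀ x N y w : E, ‖x‖ = 1 → ‖N‖ = 1 → ‖y‖ = 1 → ‖w‖ = 1 → ⟪x, N⟫ = 0 → ⟪y, w⟫ = 0 →
        g' T (dv x N y w e) ≤ R (dv x N y w e)) :
    AntitoneOn (fun T => ∫ q, g T (dat p n e q) ∂(μ.prod μ)) (Ico 0 1) := by
  have hder : ∀ T ∈ Ioo (0 : ℝ) 1, HasDerivAt (fun T => ∫ q, g T (dat p n e q) ∂(μ.prod μ))
      (∫ q, g' T (dat p n e q) ∂(μ.prod μ)) T := fun T hT =>
    deriv_param (μ.prod μ) (measurable_dat h.toPts e) (isCompact_KE (bE e))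
      (dat_mem h.toPts e) hgm hg'm hgc hg'c hd hT
  refine antitoneOn_of_deriv_nonpos (convex_Ico 0 1) ?_ ?_ ?_
  · exact contOn_param (μ.prod μ) (measurable_dat h.toPts e) (isCompact_KE (bE e))
      (dat_mem h.toPts e) hgm hgc
  · rw [interior_Ico]
    exact fun T hT => (hder T hT).differentiableAt.differentiableWithinAt
  · rw [interior_Ico]
    intro T hT
    rw [(hder T hT).deriv]
    obtain ⟨R, hR1, hR2⟩ := hR T hT
    rw [← hR1.2]
    refine integral_mono ?_ hR1.1 fun q => ?_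
    · exact integrable_param (μ.prod μ) (measurable_dat h.toPts e) (isCompact_KE (bE e))
        (dat_mem h.toPts e) (hg'm T) (contOn_slice hg'c hT)
    · exact hR2 _ _ _ _ (h.np _) (h.nn _) (h.np _) (h.nn _) (h.pn _) (h.pn _)

end

section

open Module Vale.Agent.P224
open scoped ContDiff Manifold

variable {V W M : Type*} [NormedAddCommGroup V] [InnerProductSpace ℝ V] [FiniteDimensional ℝ V]
  [NormedAddCommGroup W] [InnerProductSpace ℝ W] [FiniteDimensional ℝ W]
  [TopologicalSpace M] [ChartedSpace V M]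
  [MeasurableSpace V] [BorelSpace V] [MeasurableSpace M] [BorelSpace M]

/-- the data of a minimal immersion with a normal field -/
theorem twoE_of_min [MeasurableSpace W] [BorelSpace W] [IsManifold 𝓘(ℝ, V) ∞ M] [CompactSpace M]
    [T2Space M] (hW : finrank ℝ W = finrank ℝ V + 2) {F : M → W}
    (hF : SphImm V F) (hmin : ∀ x n, IsUnitNormal V F x n → meanCurv V F x n = 0)
    {N : M → W} (hNs : ContMDiff 𝓘(ℝ, V) 𝓘(ℝ, W) ∞ N) (hN : ∀ x, IsUnitNormal V F x (N x)) :
    TwoE (volM V F) (finrank ℝ V) F N :=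
  { mp := hF.smooth.continuous.measurable
    mn := hNs.continuous.measurable
    np := hF.unit
    nn := fun x => (hN x).1
    pn := fun x => (hN x).2.1
    row := fun z e _ hT k q i j => row_T hW hF hmin hNs hN z e hT k q i j }

end

end Vale.Agent.P224.UE
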