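import Vale.Agent.P224.UE.LawM

/-!
Domination of the rows by powers of the distance to the diagonal, all exponents.
-/

namespace Vale.Agent.P224.UE

open MeasureTheory Set Filter Function
open Vale.Agent.P224.SM2 hiding ker
open scoped Topology RealInnerProductSpace ENNReal

set_option linter.unusedSectionVars false

/-- the refined bound for four of the rows -/
lemma rowE_bound2 (k : Fin 6) (hk : k = 0 ∨ k = 1 ∨ k = 3 ∨ k = 4)
    {m s t p c n1 n2 x1 x2 E K fs ft fe B D r2 ρ : ℝ} (hm : 0 ≤ m)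
    (hB : 1 ≤ B) (hD : 0 ≤ D) (hρ : 0 ≤ ρ) (hr2 : 0 ≤ r2)
    (hs : |s| ≤ B) (ht : |t| ≤ B) (hp : |p| ≤ B) (hc : |c| ≤ B) (hn : |n1| ≤ B) (hx : |x1| ≤ B)
    (hA1 : |1 - s ^ 2 - p ^ 2| ≤ B * r2) (hA2 : |-(s * t) - p * c| ≤ B * r2)
    (hD2 : |1 - t ^ 2 - c ^ 2| ≤ B * r2) (hp2 : |p| ≤ B * r2)
    (hG : |E - x1 ^ 2 - n1 ^ 2| ≤ B)
    (hA3' : |x2 - s * x1 - p * n1| ≤ B) (hD3' : |n2 - t * x1 - c * n1| ≤ B)
    (hK : |K| ≤ D * ρ) (hfe : |fe| ≤ D * ρ) (hfs : |fs| * r2 ≤ D * ρ) (hft : |ft| * r2 ≤ D * ρ) :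
    |rowE k m s t p c n1 n2 x1 x2 E K fs ft fe| ≤ (6 + 2 * m) * B ^ 2 * (D * ρ) := by
  have hB0 : 0 ≤ B := zero_le_one.trans hB
  have hDρ : 0 ≤ D * ρ := mul_nonneg hD hρ
  have hBB : B ≤ B ^ 2 := by nlinarith
  have P1 : ∀ {f A : ℝ}, |f| * r2 ≤ D * ρ → |A| ≤ B * r2 → |f * A| ≤ B * (D * ρ) := by
    intro f A h1 h2
    rw [abs_mul]
    calc |f| * |A| ≤ |f| * (B * r2) := mul_le_mul_of_nonneg_left h2 (abs_nonneg _)
      _ = B * (|f| * r2) := by ring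
      _ ≤ B * (D * ρ) := mul_le_mul_of_nonneg_left h1 hB0
  have P2 : ∀ {f A : ℝ}, |f| ≤ D * ρ → |A| ≤ B → |f * A| ≤ B * (D * ρ) := by
    intro f A h1 h2
    rw [abs_mul]
    calc |f| * |A| ≤ (D * ρ) * B := mul_le_mul h1 h2 (abs_nonneg _) hDρ
      _ = B * (D * ρ) := by ring
  have P3 : ∀ {a X : ℝ}, |a| ≤ B → |X| ≤ 3 * (B * (D * ρ)) → |a * X| ≤ 3 * (B ^ 2 * (D * ρ)) := by
    intro a X h1 h2
    rw [abs_mul]
    calc |a| * |X| ≤ B * (3 * (B * (D * ρ))) := mul_le_mul h1 h2 (abs_nonneg _) hB0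
      _ = _ := by ring
  -- products with the small factor `p`
  have P4 : ∀ {f A : ℝ}, |f| * r2 ≤ D * ρ → |A| ≤ B → |p * (f * A)| ≤ B ^ 2 * (D * ρ) := by
    intro f A h1 h2
    rw [abs_mul, abs_mul]
    calc |p| * (|f| * |A|) ≤ (B * r2) * (|f| * B) :=
          mul_le_mul hp2 (mul_le_mul_of_nonneg_left h2 (abs_nonneg _)) (by positivity)
            (by positivity)
      _ = B ^ 2 * (|f| * r2) := by ring
      _ ≤ B ^ 2 * (D * ρ) := mul_le_mul_of_nonneg_left h1 (by positivity)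
  have P5 : ∀ {f A : ℝ}, |f| ≤ D * ρ → |A| ≤ B → |p * (f * A)| ≤ B ^ 2 * (D * ρ) := by
    intro f A h1 h2
    rw [abs_mul]
    calc |p| * |f * A| ≤ B * (B * (D * ρ)) := mul_le_mul hp (P2 h1 h2) (abs_nonneg _) hB0
      _ = _ := by ring
  have S3 : ∀ {X Y Z : ℝ}, |X| ≤ B * (D * ρ) → |Y| ≤ B * (D * ρ) → |Z| ≤ B * (D * ρ) →
      |X + Y + Z| ≤ 3 * (B * (D * ρ)) := by
    intro X Y Z h1 h2 h3
    have := abs_add_three X Y Z
    linarith
  have M1 : ∀ {a : ℝ}, |a| ≤ B → |m * a * K| ≤ m * (B * (D * ρ)) := by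
    intro a h1
    rw [abs_mul, abs_mul, abs_of_nonneg hm]
    calc m * |a| * |K| = m * (|a| * |K|) := by ring
      _ ≤ m * (B * (D * ρ)) :=
        mul_le_mul_of_nonneg_left (mul_le_mul h1 hK (abs_nonneg _) hB0) hm
  have M2 : ∀ {a b c d : ℝ}, |a| ≤ B → |b| ≤ B → |c| ≤ B → |d| ≤ B →
      |m * (a * b - c * d) * K| ≤ 2 * (m * (B ^ 2 * (D * ρ))) := by
    intro a b c d h1 h2 h3 h4
    have h5 : |a * b - c * d| ≤ 2 * B ^ 2 := by
      have e1 := abs_sub (a * b) (c * d)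
      have e2 : |a * b| ≤ B * B := by
        rw [abs_mul]
        exact mul_le_mul h1 h2 (abs_nonneg _) hB0
      have e3 : |c * d| ≤ B * B := by
        rw [abs_mul]
        exact mul_le_mul h3 h4 (abs_nonneg _) hB0
      linarith
    rw [abs_mul, abs_mul, abs_of_nonneg hm]
    calc m * |a * b - c * d| * |K| = m * (|a * b - c * d| * |K|) := by ring
      _ ≤ m * (2 * B ^ 2 * (D * ρ)) :=
        mul_le_mul_of_nonneg_left (mul_le_mul h5 hK (abs_nonneg _) (by positivity)) hm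
      _ = _ := by ring
  have hfin1 : 3 * (B * (D * ρ)) + m * (B * (D * ρ)) ≤ (6 + 2 * m) * B ^ 2 * (D * ρ) := by
    have h1 : B * (D * ρ) ≤ B ^ 2 * (D * ρ) := mul_le_mul_of_nonneg_right hBB hDρ
    have h2 := mul_le_mul_of_nonneg_left h1 hm
    have h3 : 0 ≤ B ^ 2 * (D * ρ) := by positivity
    have h4 := mul_nonneg hm h3
    linarith
  have T1 := S3 (P1 hfs hA1) (P1 hft hA2) (P2 hfe hA3')
  have T2 := S3 (P1 hfs hA2) (P1 hft hD2) (P2 hfe hD3')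
  rcases hk with rfl | rfl | rfl | rfl
  · have h1 := abs_sub (fs * (1 - s ^ 2 - p ^ 2) + ft * (-(s * t) - p * c)
      + fe * (x2 - s * x1 - p * n1)) (m * s * K)
    have h2 := M1 hs
    simp only [rowE]
    linarith
  · have h1 := abs_sub (fs * (-(s * t) - p * c) + ft * (1 - t ^ 2 - c ^ 2)
      + fe * (n2 - t * x1 - c * n1)) (m * t * K)
    have h2 := M1 ht
    simp only [rowE]
    linarith
  · have h1 := abs_sub (p * (fs * (-(s * t) - p * c) + ft * (1 - t ^ 2 - c ^ 2)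
      + fe * (n2 - t * x1 - c * n1)) - c * (fs * (1 - s ^ 2 - p ^ 2) + ft * (-(s * t) - p * c)
      + fe * (x2 - s * x1 - p * n1))) (m * (p * t - c * s) * K)
    have h0 := abs_sub (p * (fs * (-(s * t) - p * c) + ft * (1 - t ^ 2 - c ^ 2)
      + fe * (n2 - t * x1 - c * n1))) (c * (fs * (1 - s ^ 2 - p ^ 2) + ft * (-(s * t) - p * c)
      + fe * (x2 - s * x1 - p * n1)))
    have h2 := M2 hp ht hc hs
    have h3 := P3 hp T2
    have h4 := P3 hc T1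
    simp only [rowE]
    linarith
  · have h1 := abs_sub (p * (fs * (x2 - s * x1 - p * n1) + ft * (n2 - t * x1 - c * n1)
      + fe * (E - x1 ^ 2 - n1 ^ 2)) - n1 * (fs * (1 - s ^ 2 - p ^ 2) + ft * (-(s * t) - p * c)
      + fe * (x2 - s * x1 - p * n1))) (m * (p * x1 - n1 * s) * K)
    have h0 := abs_sub (p * (fs * (x2 - s * x1 - p * n1) + ft * (n2 - t * x1 - c * n1)
      + fe * (E - x1 ^ 2 - n1 ^ 2))) (n1 * (fs * (1 - s ^ 2 - p ^ 2) + ft * (-(s * t) - p * c)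
      + fe * (x2 - s * x1 - p * n1)))
    have h2 := M2 hp hx hn hs
    have h3 : |p * (fs * (x2 - s * x1 - p * n1) + ft * (n2 - t * x1 - c * n1)
        + fe * (E - x1 ^ 2 - n1 ^ 2))| ≤ 3 * (B ^ 2 * (D * ρ)) := by
      have q1 := P4 hfs hA3'
      have q2 := P4 hft hD3'
      have q3 := P5 hfe hG
      have q4 := abs_add_three (p * (fs * (x2 - s * x1 - p * n1)))
        (p * (ft * (n2 - t * x1 - c * n1))) (p * (fe * (E - x1 ^ 2 - n1 ^ 2)))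
      rw [mul_add, mul_add]
      linarith
    have h4 := P3 hn T1
    simp only [rowE]
    linarith

/-- the exponent condition: `b` is the order of the singularity of the profile -/
def Sub (k : Fin 6) (b i l : ℕ) : Prop :=
  (b + 1 ≤ 2 * i + l) ∨ ((k = 0 ∨ k = 1 ∨ k = 3 ∨ k = 4) ∧ b ≤ 2 * i + l)

/-- the rows are dominated by a power of the distance to the diagonal, all exponents -/
theorem rG_domH (k : Fin 6) {m : ℝ} (hm : 0 ≤ m) {b i j l : ℕ} (h : Sub k b i l) {B : ℝ}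
    (hB : 1 ≤ B) : ∃ D, 0 ≤ D ∧ ∀ (φ φ' : ℝ → ℝ) (Φ : ℝ), 0 ≤ Φ → ∀ d : R9, CB B d →
      |φ (d 0)| ≤ Φ * (√(1 - d 0) ^ b)⁻¹ →
      |φ' (d 0)| ≤ Φ * (√(1 - d 0) ^ (b + 2))⁻¹ →
      |rG k m φ φ' i j d| ≤ D * Φ * sg l (d 0) := by
  have hB0 : 0 ≤ B := zero_le_one.trans hB
  -- the exponent of the gain
  obtain ⟨a, ha, ha1, hab⟩ : ∃ a : ℕ, (a = 1 ∨ a = 2) ∧
      (a = 1 ∨ (k = 0 ∨ k = 1 ∨ k = 3 ∨ k = 4)) ∧ b + 2 ≤ 2 * i + a + l := by
    rcases h with h | ⟨hk, h⟩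
    · exact ⟨1, Or.inl rfl, Or.inl rfl, by omega⟩
    · exact ⟨2, Or.inr rfl, Or.inr hk, by omega⟩
  set D1 : ℝ := B ^ j * (B ^ i * 2 ^ (2 * i + l)) with hD1
  set D2 : ℝ := B ^ j * (B ^ i * 2 ^ (2 * i + a + l)) with hD2
  set D3 : ℝ := B ^ j * (i * B ^ (i - 1) * 2 ^ (2 * (i - 1) + a + l)) with hD3
  set D4 : ℝ := j * B ^ (j - 1) * (B ^ i * 2 ^ (2 * i + l)) with hD4
  have p1 : 0 ≤ D1 := by positivity
  have p2 : 0 ≤ D2 := by positivity
  have p3 : 0 ≤ D3 := by positivity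
  have p4 : 0 ≤ D4 := by positivity
  refine ⟨(6 + 2 * m) * (4 * B) ^ 2 * (D1 + D2 + D3 + D4), by positivity, ?_⟩
  intro φ φ' Φ hΦ d hd hφ hφ'
  set r := √(1 - d 0) with hr
  have hr0 : 0 < r := Real.sqrt_pos.2 (by linarith [hd.s1])
  have hrs : r ^ 2 = 1 - d 0 := Real.sq_sqrt (by linarith [hd.s1])
  have hr2 : r ≤ 2 := by
    rw [hr, Real.sqrt_le_left (by norm_num)]
    linarith [hd.s0]
  have hsg : sg l (d 0) = (r ^ l)⁻¹ := rfl
  have hρ : 0 ≤ (r ^ l)⁻¹ := by positivity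
  have hti : ∀ i, |d 1 ^ i| ≤ B ^ i * r ^ (2 * i) := by
    intro i
    rw [abs_pow, pow_mul, ← mul_pow]
    refine pow_le_pow_left₀ (abs_nonneg _) ?_ i
    rw [hrs]
    exact hd.t
  have hxj : ∀ j, |d 6 ^ j| ≤ B ^ j := by
    intro j
    rw [abs_pow]
    exact pow_le_pow_left₀ (abs_nonneg _) (hd.b 6) j
  have hr2r : r ^ 2 ≤ 2 * r := by nlinarith
  have hr2a : r ^ 2 ≤ 2 * r ^ a := by
    rcases ha with rfl | rfl
    · rw [pow_one]
      exact hr2r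
    · have := sq_nonneg r
      linarith
  have hsq : ∀ {X : ℝ}, |X| ≤ B * (1 - d 0) → |X| ≤ 4 * B * r ^ a := by
    intro X hX
    rw [← hrs] at hX
    have h1 := mul_le_mul_of_nonneg_left hr2a hB0
    have h2 : 0 ≤ B * r ^ a := by positivity
    linarith
  have hlr' : ∀ {X : ℝ}, |X| ≤ B * r → |X| ≤ 4 * B := by
    intro X hX
    have := mul_le_mul_of_nonneg_left hr2 hB0
    linarith
  have hb2 : ∀ i, |d i| ≤ 4 * B := fun i => (hd.b i).trans (by linarith)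
  have hΦl : 0 ≤ Φ * (r ^ l)⁻¹ := mul_nonneg hΦ hρ
  have e0 : (6 + 2 * m) * (4 * B) ^ 2 * (D1 + D2 + D3 + D4) * Φ * sg l (d 0)
      = (6 + 2 * m) * (4 * B) ^ 2 * ((D1 + D2 + D3 + D4) * (Φ * (r ^ l)⁻¹)) := by
    rw [hsg]
    ring
  rw [e0]
  have hK : |d 6 ^ j * (d 1 ^ i * φ (d 0))| ≤ (D1 + D2 + D3 + D4) * (Φ * (r ^ l)⁻¹) := by
    have h1 : |d 6 ^ j * (d 1 ^ i * φ (d 0))| ≤ D1 * (Φ * (r ^ l)⁻¹) := by
      rw [abs_mul, abs_mul]
      calc |d 6 ^ j| * (|d 1 ^ i| * |φ (d 0)|)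
          ≤ B ^ j * ((B ^ i * r ^ (2 * i)) * (Φ * (r ^ b)⁻¹)) := by
            have := hxj j
            have := hti i
            gcongr
        _ = B ^ j * (B ^ i * Φ) * (r ^ (2 * i) * (r ^ b)⁻¹) := by ring
        _ ≤ B ^ j * (B ^ i * Φ) * (2 ^ (2 * i + l) * (r ^ l)⁻¹) := by
            have := rpow_key (a := 2 * i) (b := b) (l := l) hr0 hr2 (by omega)
            gcongr
        _ = D1 * (Φ * (r ^ l)⁻¹) := by rw [hD1]; ring
    exact h1.trans (mul_le_mul_of_nonneg_right (by linarith) hΦl)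
  have hfe : |j * d 6 ^ (j - 1) * (d 1 ^ i * φ (d 0))|
      ≤ (D1 + D2 + D3 + D4) * (Φ * (r ^ l)⁻¹) := by
    have h1 : |j * d 6 ^ (j - 1) * (d 1 ^ i * φ (d 0))| ≤ D4 * (Φ * (r ^ l)⁻¹) := by
      rw [abs_mul, abs_mul, abs_mul, Nat.abs_cast]
      calc j * |d 6 ^ (j - 1)| * (|d 1 ^ i| * |φ (d 0)|)
          ≤ j * B ^ (j - 1) * ((B ^ i * r ^ (2 * i)) * (Φ * (r ^ b)⁻¹)) := by
            have := hxj (j - 1)
            have := hti i
            gcongr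
        _ = j * B ^ (j - 1) * (B ^ i * Φ) * (r ^ (2 * i) * (r ^ b)⁻¹) := by ring
        _ ≤ j * B ^ (j - 1) * (B ^ i * Φ) * (2 ^ (2 * i + l) * (r ^ l)⁻¹) := by
            have := rpow_key (a := 2 * i) (b := b) (l := l) hr0 hr2 (by omega)
            gcongr
        _ = D4 * (Φ * (r ^ l)⁻¹) := by rw [hD4]; ring
    exact h1.trans (mul_le_mul_of_nonneg_right (by linarith) hΦl)
  have hfs : |d 6 ^ j * (d 1 ^ i * φ' (d 0))| * r ^ a
      ≤ (D1 + D2 + D3 + D4) * (Φ * (r ^ l)⁻¹) := by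
    have h1 : |d 6 ^ j * (d 1 ^ i * φ' (d 0))| * r ^ a ≤ D2 * (Φ * (r ^ l)⁻¹) := by
      rw [abs_mul, abs_mul]
      calc |d 6 ^ j| * (|d 1 ^ i| * |φ' (d 0)|) * r ^ a
          ≤ B ^ j * ((B ^ i * r ^ (2 * i)) * (Φ * (r ^ (b + 2))⁻¹)) * r ^ a := by
            have := hxj j
            have := hti i
            gcongr
        _ = B ^ j * (B ^ i * Φ) * (r ^ (2 * i + a) * (r ^ (b + 2))⁻¹) := by
            rw [pow_add r (2 * i)]
            ring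
        _ ≤ B ^ j * (B ^ i * Φ) * (2 ^ (2 * i + a + l) * (r ^ l)⁻¹) := by
            have := rpow_key (a := 2 * i + a) (b := b + 2) (l := l) hr0 hr2 hab
            gcongr
        _ = D2 * (Φ * (r ^ l)⁻¹) := by rw [hD2]; ring
    exact h1.trans (mul_le_mul_of_nonneg_right (by linarith) hΦl)
  have hft : |d 6 ^ j * (i * d 1 ^ (i - 1) * φ (d 0))| * r ^ a
      ≤ (D1 + D2 + D3 + D4) * (Φ * (r ^ l)⁻¹) := by
    have h1 : |d 6 ^ j * (i * d 1 ^ (i - 1) * φ (d 0))| * r ^ a ≤ D3 * (Φ * (r ^ l)⁻¹) := by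
      rcases Nat.eq_zero_or_pos i with hi | hi
      · subst hi
        rw [hD3]
        simp
      rw [abs_mul, abs_mul, abs_mul, Nat.abs_cast]
      calc |d 6 ^ j| * (i * |d 1 ^ (i - 1)| * |φ (d 0)|) * r ^ a
          ≤ B ^ j * (i * (B ^ (i - 1) * r ^ (2 * (i - 1))) * (Φ * (r ^ b)⁻¹)) * r ^ a := by
            have := hxj j
            have := hti (i - 1)
            gcongr
        _ = B ^ j * (i * B ^ (i - 1) * Φ) * (r ^ (2 * (i - 1) + a) * (r ^ b)⁻¹) := by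
            rw [pow_add r (2 * (i - 1))]
            ring
        _ ≤ B ^ j * (i * B ^ (i - 1) * Φ) * (2 ^ (2 * (i - 1) + a + l) * (r ^ l)⁻¹) := by
            have := rpow_key (a := 2 * (i - 1) + a) (b := b) (l := l) hr0 hr2 (by omega)
            gcongr
        _ = D3 * (Φ * (r ^ l)⁻¹) := by rw [hD3]; ring
    exact h1.trans (mul_le_mul_of_nonneg_right (by linarith) hΦl)
  rcases ha1 with rfl | hk
  · rw [pow_one] at hfs hft
    have hsq1 : ∀ {X : ℝ}, |X| ≤ B * (1 - d 0) → |X| ≤ 4 * B * r := by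
      intro X hX
      have := hsq hX
      rwa [pow_one] at this
    have hlr1 : ∀ {X : ℝ}, |X| ≤ B * r → |X| ≤ 4 * B * r := by
      intro X hX
      have : 0 ≤ B * r := by positivity
      linarith
    exact rowE_bound k hm (by linarith) (by positivity) hΦl (r := r) (hb2 0) (hb2 1) (hb2 2)
      (hb2 3) (hb2 4) (hb2 6) (hsq1 hd.A1) (hsq1 hd.A2) (hlr1 hd.A3) (hsq1 hd.D2) (hlr1 hd.D3)
      (hd.G.trans (by linarith)) (hlr' hd.A3) (hlr' hd.D3) hK hfe hfs hft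
  · exact rowE_bound2 k hk hm (by linarith) (by positivity) hΦl (r2 := r ^ a) (by positivity)
      (hb2 0) (hb2 1) (hb2 2) (hb2 3) (hb2 4) (hb2 6) (hsq hd.A1) (hsq hd.A2) (hsq hd.D2)
      (hsq hd.p) (hd.G.trans (by linarith)) (hlr' hd.A3) (hlr' hd.D3) hK hfe hfs hft

end Vale.Agent.P224.UE
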