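import Vale.Agent.P224.UE.Half1

/-!
Null rows with general singular profiles.
-/

namespace Vale.Agent.P224.UE

open MeasureTheory Set Filter Function
open Vale.Agent.P224.SM2 hiding ker
open scoped Topology RealInnerProductSpace ENNReal ContDiff

set_option linter.unusedSectionVars false

/-- an admissible profile with a singularity of order `b` at one -/
structure Prof (b : ℕ) (Φ : ℝ) (φ φ' : ℝ → ℝ) : Prop where
  nn : 0 ≤ Φ
  smooth : ∀ s ∈ Ioo (-1 : ℝ) 1, ContDiffAt ℝ ∞ φ s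
  deriv : ∀ s ∈ Ioo (-1 : ℝ) 1, HasDerivAt φ (φ' s) s
  cont : ContinuousOn φ (Ico (-1) 1)
  cont' : ContinuousOn φ' (Ico (-1) 1)
  meas : Measurable φ
  meas' : Measurable φ'
  bd : ∀ s ∈ Ico (-1 : ℝ) 1, |φ s| ≤ Φ * (√(1 - s) ^ b)⁻¹
  bd' : ∀ s ∈ Ico (-1 : ℝ) 1, |φ' s| ≤ Φ * (√(1 - s) ^ (b + 2))⁻¹

lemma scale_mem {T s : ℝ} (hT : T ∈ Ioc (0 : ℝ) 1) (hs : s ∈ Ico (-1 : ℝ) 1) :
    T * s ∈ Ico (-1 : ℝ) 1 := by
  have h1 := hT.1
  have h2 := hT.2
  have h3 := hs.1
  have h4 := hs.2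
  constructor <;> nlinarith

lemma scale_le {T s : ℝ} (hT : T ∈ Ioc (0 : ℝ) 1) (hs : s ∈ Ico (-1 : ℝ) 1) (b : ℕ) :
    (√(1 - T * s) ^ b)⁻¹ ≤ 2 ^ b * (√(1 - s) ^ b)⁻¹ := by
  have hr : 0 < √(1 - s) := Real.sqrt_pos.2 (by linarith [hs.2])
  have h1 : √(1 - s) / 2 ≤ √(1 - T * s) := by
    rw [Real.le_sqrt' (by positivity), div_pow, Real.sq_sqrt (by linarith [hs.2])]
    have h1 := hT.1
    have h2 := hT.2
    have h3 := hs.1
    have h4 := hs.2
    by_cases h : 0 ≤ s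
    · nlinarith
    · push Not at h
      nlinarith
  calc (√(1 - T * s) ^ b)⁻¹ ≤ ((√(1 - s) / 2) ^ b)⁻¹ :=
        inv_anti₀ (by positivity) (pow_le_pow_left₀ (by positivity) h1 b)
    _ = 2 ^ b * (√(1 - s) ^ b)⁻¹ := by
        rw [div_pow, inv_div, div_eq_mul_inv]

section

variable {X : Type*} [MeasurableSpace X] {E : Type*} [NormedAddCommGroup E]
  [InnerProductSpace ℝ E] [MeasurableSpace E] [BorelSpace E] [SecondCountableTopology E]
  {μ : Measure X} [IsFiniteMeasure μ] {m : ℕ} {p n : X → E}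

/-- The rows with a general singular profile are null. -/
theorem TwoG.null_prof (h : TwoG μ m p n) (hm : 0 < m) {C : ℝ} (hc : Contact p n C) (e : E)
    {k : Fin 6} {b i j l : ℕ} (hl : l < m) (hsub : Sub k b i l) {Φ : ℝ} {φ φ' : ℝ → ℝ}
    (hP : Prof b Φ φ φ') {w : ℝ → ℝ → ℝ} (hw : Continuous (uncurry w)) :
    Null μ p n e (fun d => w (d 5) (d 7) * rG k m φ φ' i j d) := by
  obtain ⟨Cw, hCw0, hCw⟩ := weight_bound hw (bE e)
  have hB1 := one_le_bC (le_max_right C 1) e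
  obtain ⟨D, hD0, hD⟩ := rG_domH k (m := m) (Nat.cast_nonneg m) (j := j) hsub hB1
  set Ψ : ℝ := 2 ^ (b + 2) * Φ with hΨ
  have hΨ0 : 0 ≤ Ψ := mul_nonneg (by positivity) hP.nn
  set f : ℝ → X × X → ℝ := fun T y => w (dat p n e y 5) (dat p n e y 7)
    * rG k m (fun s => φ (T * s)) (fun s => T * φ' (T * s)) i j (dat p n e y) with hf
  have hfm : ∀ T, AEStronglyMeasurable (f T) (μ.prod μ) := by
    intro T
    have m1 : Measurable (fun s => φ (T * s)) := hP.meas.comp (measurable_const_mul T)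
    have m2 : Measurable (fun s => T * φ' (T * s)) :=
      (hP.meas'.comp (measurable_const_mul T)).const_mul T
    have h1 := measurable_rG k (m : ℝ) m1 m2 i j
    exact (((cont_psi hw).measurable.mul h1).comp (measurable_dat h.toPts e)).aestronglyMeasurable
  have hdom : ∀ T ∈ Ioc (0 : ℝ) 1, ∀ᵐ y ∂(μ.prod μ),
      ‖f T y‖ ≤ Cw * (D * Ψ) * sg l (dat p n e y 0) := by
    intro T hT
    filter_upwards [h.ae_lt hm e] with y hy
    have hcb := hc.cb h.toPts e hy
    have hs : dat p n e y 0 ∈ Ico (-1 : ℝ) 1 := ⟨hcb.s0, hcb.s1⟩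
    have hsm := scale_mem hT hs
    have b1 : |φ (T * dat p n e y 0)| ≤ Ψ * (√(1 - dat p n e y 0) ^ b)⁻¹ := by
      have h0 : (0 : ℝ) ≤ (√(1 - dat p n e y 0) ^ b)⁻¹ := by positivity
      calc _ ≤ Φ * (√(1 - T * dat p n e y 0) ^ b)⁻¹ := hP.bd _ hsm
        _ ≤ Φ * (2 ^ b * (√(1 - dat p n e y 0) ^ b)⁻¹) :=
          mul_le_mul_of_nonneg_left (scale_le hT hs b) hP.nn
        _ ≤ Φ * (2 ^ (b + 2) * (√(1 - dat p n e y 0) ^ b)⁻¹) := by
          refine mul_le_mul_of_nonneg_left (mul_le_mul_of_nonneg_right ?_ h0) hP.nn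
          exact pow_le_pow_right₀ (by norm_num) (by omega)
        _ = _ := by rw [hΨ]; ring
    have b2 : |T * φ' (T * dat p n e y 0)| ≤ Ψ * (√(1 - dat p n e y 0) ^ (b + 2))⁻¹ := by
      rw [abs_mul, abs_of_nonneg hT.1.le]
      calc _ ≤ 1 * (Φ * (√(1 - T * dat p n e y 0) ^ (b + 2))⁻¹) :=
          mul_le_mul hT.2 (hP.bd' _ hsm) (abs_nonneg _) zero_le_one
        _ ≤ 1 * (Φ * (2 ^ (b + 2) * (√(1 - dat p n e y 0) ^ (b + 2))⁻¹)) := by
          refine mul_le_mul_of_nonneg_left (mul_le_mul_of_nonneg_left (scale_le hT hs _) hP.nn)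
            zero_le_one
        _ = _ := by rw [hΨ]; ring
    have h2 := hD (fun s => φ (T * s)) (fun s => T * φ' (T * s)) Ψ hΨ0 _ hcb b1 b2
    have h3 := hCw _ (dat_mem h.toPts e y)
    rw [Real.norm_eq_abs, abs_mul]
    calc _ ≤ Cw * (D * Ψ * sg l (dat p n e y 0)) := mul_le_mul h3 h2 (abs_nonneg _) hCw0
      _ = _ := by ring
  have hint : Integrable (fun y => Cw * (D * Ψ) * sg l (dat p n e y 0)) (μ.prod μ) :=
    (h.integrable_sg hm e hl).const_mul _
  have h01 : (1 : ℝ) ∈ Ioc (0 : ℝ) 1 := ⟨zero_lt_one, le_rfl⟩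
  have hf1 : ∀ y, f 1 y = w (dat p n e y 5) (dat p n e y 7) * rG k m φ φ' i j (dat p n e y) := by
    intro y
    simp only [hf, one_mul]
  have hint1 : Integrable (f 1) (μ.prod μ) := hint.mono' (hfm 1) (hdom 1 h01)
  have h0 : ∀ᶠ T in 𝓝[<] (1 : ℝ), T ∈ Ioo (0 : ℝ) 1 := Ioo_mem_nhdsLT one_pos
  have hlim : Tendsto (fun T => ∫ y, f T y ∂(μ.prod μ)) (𝓝[<] 1) (𝓝 (∫ y, f 1 y ∂(μ.prod μ))) := by
    refine tendsto_integral_filter_of_dominated_convergence _
      (Eventually.of_forall hfm) ?_ hint ?_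
    · filter_upwards [h0] with T hT
      exact hdom T ⟨hT.1, hT.2.le⟩
    · filter_upwards [h.ae_lt hm e] with y hy
      have hs : dat p n e y 0 ∈ Ico (-1 : ℝ) 1 := ⟨(dat0_mem h.toPts e y).1, hy⟩
      have hT1 : Tendsto (fun T : ℝ => T * dat p n e y 0) (𝓝[<] 1)
          (𝓝[Ico (-1) 1] (dat p n e y 0)) := by
        refine tendsto_nhdsWithin_iff.2 ⟨?_, ?_⟩
        · have h1 : ContinuousAt (fun T : ℝ => T * dat p n e y 0) 1 := by fun_prop
          have h2 := h1.tendsto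
          rw [one_mul] at h2
          exact h2.mono_left nhdsWithin_le_nhds
        · filter_upwards [h0] with T hT
          exact scale_mem ⟨hT.1, hT.2.le⟩ hs
      have c1 : Tendsto (fun T : ℝ => φ (T * dat p n e y 0)) (𝓝[<] 1)
          (𝓝 (φ (dat p n e y 0))) := (hP.cont _ hs).tendsto.comp hT1
      have c2 : Tendsto (fun T : ℝ => φ' (T * dat p n e y 0)) (𝓝[<] 1)
          (𝓝 (φ' (dat p n e y 0))) := (hP.cont' _ hs).tendsto.comp hT1
      have c3 : Tendsto (fun T : ℝ => T) (𝓝[<] 1) (𝓝 1) :=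
        tendsto_id.mono_left nhdsWithin_le_nhds
      have c4 := c3.mul c2
      rw [hf1 y, rG_form]
      simp only [hf, rG_form]
      rw [one_mul] at c4
      exact ((c1.const_mul _).add (c4.const_mul _)).const_mul _
  have hz : ∀ᶠ T in 𝓝[<] (1 : ℝ), ∫ y, f T y ∂(μ.prod μ) = 0 := by
    filter_upwards [h0] with T hT
    have hmem : ∀ s ∈ Icc (-1 : ℝ) 1, T * s ∈ Ioo (-1 : ℝ) 1 := by
      intro s hs
      have h1 := hT.1
      have h2 := hT.2
      have h3 := hs.1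
      have h4 := hs.2
      constructor <;> nlinarith
    have m1 : Measurable (fun s => φ (T * s)) := hP.meas.comp (measurable_const_mul T)
    have m2 : Measurable (fun s => T * φ' (T * s)) :=
      (hP.meas'.comp (measurable_const_mul T)).const_mul T
    have hco : ContinuousOn (fun s => T * φ' (T * s)) (Icc (-1) 1) := by
      have h1 : ContinuousOn (fun s : ℝ => T * s) (Icc (-1) 1) := by fun_prop
      exact continuousOn_const.mul (hP.cont'.comp h1 fun s hs => Ioo_subset_Ico_self (hmem s hs))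
    exact (h.null_G e (φ := fun s => φ (T * s)) (φ' := fun s => T * φ' (T * s))
      (fun s hs => ⟨(hP.smooth _ (hmem s hs)).comp s (contDiffAt_const.mul contDiffAt_id), by
        have h1 := (hP.deriv _ (hmem s hs)).comp s ((hasDerivAt_id s).const_mul T)
        refine h1.congr_deriv ?_
        simp only [mul_one]
        ring⟩) m1 m2 hco k i j hw).2
  have hfin := tendsto_nhds_unique (hlim.congr' hz) tendsto_const_nhds
  refine ⟨?_, ?_⟩
  · refine hint1.congr (Eventually.of_forall hf1)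
  · rw [← hfin]
    exact integral_congr_ae (Eventually.of_forall fun y => (hf1 y).symm)

end

/-! ### powers of the chordal distance -/

/-- half of the chordal distance -/
noncomputable def rr (s : ℝ) : ℝ := √((1 - s) / 2)

/-- the profile `r ^ e` -/
noncomputable def rh (e : ℤ) (s : ℝ) : ℝ := rr s ^ e

/-- the derivative of the profile -/
noncomputable def rh' (e : ℤ) (s : ℝ) : ℝ := -(e / 4) * rr s ^ (e - 2)

lemma rr_pos {s : ℝ} (hs : s < 1) : 0 < rr s := Real.sqrt_pos.2 (by linarith)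

lemma rr_sq {s : ℝ} (hs : s < 1) : rr s ^ 2 = (1 - s) / 2 := Real.sq_sqrt (by linarith)

lemma rr_le_one {s : ℝ} (hs : -1 ≤ s) : rr s ≤ 1 := by
  unfold rr
  rw [Real.sqrt_le_one]
  linarith

lemma hasDerivAt_rh (e : ℤ) {s : ℝ} (hs : s < 1) : HasDerivAt (rh e) (rh' e s) s := by
  have h0 := rr_pos hs
  have h1 : HasDerivAt (fun s : ℝ => (1 - s) / 2) (-1 / 2) s := by
    simpa using ((hasDerivAt_id s).const_sub 1).div_const 2
  have h2 : HasDerivAt rr (-1 / 2 / (2 * rr s)) s := h1.sqrt (by linarith)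
  have h3 := (hasDerivAt_zpow e (rr s) (Or.inl h0.ne')).comp s h2
  refine h3.congr_deriv ?_
  unfold rh'
  rw [zpow_sub₀ h0.ne', zpow_sub₀ h0.ne', zpow_one]
  have : rr s ^ (2 : ℤ) = rr s * rr s := by
    rw [zpow_ofNat, sq]
  rw [this]
  field_simp
  ring

lemma contDiffAt_rh (e : ℤ) {s : ℝ} (hs : s < 1) : ContDiffAt ℝ ∞ (rh e) s := by
  have h0 := rr_pos hs
  have h1 : ContDiffAt ℝ ∞ rr s := by
    unfold rr
    refine ContDiffAt.sqrt (by fun_prop) ?_
    have : 0 < (1 - s) / 2 := by linarith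
    exact this.ne'
  unfold rh
  rcases e with e | e
  · simp only [Int.ofNat_eq_natCast, zpow_natCast]
    exact h1.pow e
  · simp only [zpow_negSucc]
    exact (h1.pow (e + 1)).inv (pow_ne_zero _ h0.ne')

lemma measurable_rr : Measurable rr := by
  unfold rr
  fun_prop

lemma measurable_rh (e : ℤ) : Measurable (rh e) := by
  unfold rh
  rcases e with e | e
  · simp only [Int.ofNat_eq_natCast, zpow_natCast]
    exact measurable_rr.pow_const e
  · simp only [zpow_negSucc]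
    exact (measurable_rr.pow_const _).inv

lemma rh'_eq (e : ℤ) (s : ℝ) : rh' e s = -(e / 4) * rh (e - 2) s := rfl

lemma measurable_rh' (e : ℤ) : Measurable (rh' e) := by
  have := (measurable_rh (e - 2)).const_mul (-(e / 4 : ℝ))
  exact this

lemma rr_eq {s : ℝ} : rr s = √(1 - s) / √2 := by
  unfold rr
  rw [Real.sqrt_div' _ (by norm_num)]

lemma rh_le {e : ℤ} {b : ℕ} (hb : -e ≤ b) {s : ℝ} (hs : s ∈ Ico (-1 : ℝ) 1) :
    rh e s ≤ 2 ^ b * (√(1 - s) ^ b)⁻¹ := by
  have h0 := rr_pos hs.2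
  have h1 := rr_le_one hs.1
  have hr : 0 < √(1 - s) := Real.sqrt_pos.2 (by linarith [hs.2])
  have h2 : √(1 - s) / 2 ≤ rr s := by
    rw [rr_eq]
    refine div_le_div_of_nonneg_left hr.le (by positivity) ?_
    rw [Real.sqrt_le_left (by norm_num)]
    norm_num
  unfold rh
  calc rr s ^ e ≤ rr s ^ (-(b : ℤ)) := by
        exact zpow_le_zpow_right_of_le_one₀ h0 h1 (by omega)
    _ = (rr s ^ b)⁻¹ := by rw [zpow_neg, zpow_natCast]
    _ ≤ ((√(1 - s) / 2) ^ b)⁻¹ :=
        inv_anti₀ (by positivity) (pow_le_pow_left₀ (by positivity) h2 b)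
    _ = _ := by rw [div_pow, inv_div, div_eq_mul_inv]

lemma rh_nonneg (e : ℤ) (s : ℝ) : 0 ≤ rh e s := zpow_nonneg (Real.sqrt_nonneg _) e

/-- the powers are admissible profiles -/
lemma prof_rh {e : ℤ} {b : ℕ} (hb : -e ≤ b) :
    Prof b ((|(e : ℝ)| + 1) * 2 ^ (b + 2)) (rh e) (rh' e) where
  nn := by positivity
  smooth s hs := contDiffAt_rh e hs.2
  deriv s hs := hasDerivAt_rh e hs.2
  cont s hs := (hasDerivAt_rh e hs.2).continuousAt.continuousWithinAt
  cont' s hs := by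
    have h1 := (hasDerivAt_rh (e - 2) hs.2).continuousAt.continuousWithinAt (s := Ico (-1) 1)
    exact continuousWithinAt_const.mul h1
  meas := measurable_rh e
  meas' := measurable_rh' e
  bd s hs := by
    rw [abs_of_nonneg (rh_nonneg e s)]
    have h0 : (0 : ℝ) ≤ (√(1 - s) ^ b)⁻¹ := by positivity
    calc rh e s ≤ 2 ^ b * (√(1 - s) ^ b)⁻¹ := rh_le hb hs
      _ ≤ ((|(e : ℝ)| + 1) * 2 ^ (b + 2)) * (√(1 - s) ^ b)⁻¹ := by
        refine mul_le_mul_of_nonneg_right ?_ h0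
        have h1 : (2 : ℝ) ^ b ≤ 2 ^ (b + 2) := pow_le_pow_right₀ (by norm_num) (by omega)
        have h2 : (0 : ℝ) ≤ |(e : ℝ)| * 2 ^ (b + 2) := by positivity
        linarith
  bd' s hs := by
    have h3 : |rh' e s| = |(e : ℝ)| / 4 * rh (e - 2) s := by
      rw [rh'_eq, abs_mul, abs_neg, abs_div, abs_of_nonneg (rh_nonneg _ s)]
      norm_num
    have h0 : (0 : ℝ) ≤ (√(1 - s) ^ (b + 2))⁻¹ := by positivity
    have h4 := rh_le (e := e - 2) (b := b + 2) (by push_cast; omega) hs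
    rw [h3]
    calc _ ≤ |(e : ℝ)| / 4 * (2 ^ (b + 2) * (√(1 - s) ^ (b + 2))⁻¹) :=
          mul_le_mul_of_nonneg_left h4 (by positivity)
      _ ≤ ((|(e : ℝ)| + 1) * 2 ^ (b + 2)) * (√(1 - s) ^ (b + 2))⁻¹ := by
        rw [← mul_assoc]
        refine mul_le_mul_of_nonneg_right ?_ h0
        refine mul_le_mul_of_nonneg_right ?_ (by positivity)
        have := abs_nonneg (e : ℝ)
        linarith

end Vale.Agent.P224.UE
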