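import Vale.Agent.P224.UE.Sing9
import Vale.Agent.P224.UE.LawS

/-!
The law of a certificate on the diagonal level in even dimension.
-/

namespace Vale.Agent.P224.UE

open MeasureTheory Set Filter Function Module Vale.Agent.P224
open Vale.Agent.P224.SM2 hiding ker
open scoped Topology RealInnerProductSpace ENNReal ContDiff Manifold

set_option linter.unusedSectionVars false

/-- the coefficients of the critical profile in dimension `2 * h` -/
noncomputable def gam (h : ℕ) : ℕ → ℝ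
  | 0 => 0
  | 1 => 1 / (2 * h - 1)
  | (j + 2) => ((2 * h - 2 * ((j : ℝ) + 1)) / (2 * h - ((j : ℝ) + 1) - 1)) * gam h (j + 1)

lemma gam_pos {h : ℕ} (hh : 1 ≤ h) : ∀ j, 1 ≤ j → j ≤ h → 0 < gam h j := by
  intro j
  induction j with
  | zero => intro h0; omega
  | succ j ih =>
    intro _ hj
    have hh' : (1 : ℝ) ≤ h := by exact_mod_cast hh
    rcases j with _ | j
    · change (0 : ℝ) < 1 / (2 * h - 1)
      have : (0 : ℝ) < 2 * h - 1 := by linarith
      positivity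
    · have h1 := ih (by omega) (by omega)
      change 0 < ((2 * h - 2 * ((j : ℝ) + 1)) / (2 * h - ((j : ℝ) + 1) - 1)) * gam h (j + 1)
      have h2 : (j : ℝ) + 2 ≤ h := by exact_mod_cast hj
      have h3 : (0 : ℝ) < 2 * h - 2 * ((j : ℝ) + 1) := by linarith
      have h4 : (0 : ℝ) < 2 * h - ((j : ℝ) + 1) - 1 := by
        have : (0 : ℝ) ≤ j := Nat.cast_nonneg j
        linarith
      positivity

theorem phE_gam {h : ℕ} (hh : 1 ≤ h) : PhE (2 * h) h (gam h) := by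
  have hh' : (1 : ℝ) ≤ h := by exact_mod_cast hh
  refine phE_even hh ?_ ?_
  · have : (2 * (h : ℝ) - 1) ≠ 0 := by linarith
    push_cast
    change (2 * (h : ℝ) - 1) * (1 / (2 * h - 1)) = 1
    field_simp
  · intro j hj1 hj2
    obtain ⟨i, rfl⟩ : ∃ i, j = i + 1 := ⟨j - 1, by omega⟩
    have h2 : (i : ℝ) + 2 ≤ h := by exact_mod_cast hj2
    have h4 : (2 * (h : ℝ) - ((i : ℝ) + 1) - 1) ≠ 0 := by
      have : (0 : ℝ) ≤ i := Nat.cast_nonneg i
      have h5 : (0 : ℝ) < 2 * h - ((i : ℝ) + 1) - 1 := by linarith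
      exact h5.ne'
    push_cast
    change (2 * (h : ℝ) - ((i : ℝ) + 1) - 1) * (((2 * h - 2 * ((i : ℝ) + 1))
      / (2 * h - ((i : ℝ) + 1) - 1)) * gam h (i + 1)) = (2 * h - 2 * ((i : ℝ) + 1)) * gam h (i + 1)
    field_simp

section

variable {X : Type*} [MeasurableSpace X] {E : Type*} [NormedAddCommGroup E]
  [InnerProductSpace ℝ E] [MeasurableSpace E] [BorelSpace E] [SecondCountableTopology E]
  {μ : Measure X} [IsFiniteMeasure μ] {m : ℕ} {p n : X → E} {C S : ℝ}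

/-- The rows with the critical profile `s ^ a (1 - s)⁻ʰ` in dimension `2 * h`. -/
theorem EmbD.crit_E {h : ℕ} (hD : EmbD μ (2 * h) p n C S) (hh : 1 ≤ h) (e : E) {k : Fin 6}
    (hk : k = 0 ∨ k = 3 ∨ k = 4) (a j : ℕ) {w : ℝ → ℝ → ℝ} (hw : Continuous (uncurry w)) :
    Val μ p n e (fun d => w (d 5) (d 7)
      * rG k ((2 * h : ℕ) : ℝ) (sk 1 a h) (sk' 1 a h) 0 j d)
      ((gam h h)⁻¹ * (S * fluxV μ p n e w k j)) := by
  have hm : 0 < 2 * h := by omega
  have hG := hD.toTwoG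
  have hg := gam_pos hh h hh le_rfl
  have hnull : ∀ a q, q + 1 ≤ h → Null μ p n e
      (fun d => w (d 5) (d 7) * rG k ((2 * h : ℕ) : ℝ) (sk 1 a q) (sk' 1 a q) 0 j d) := by
    intro a q hq
    exact hG.null_S hm hD.contact e k (a := a) (q := q) (i := 0) (j := j) (l := 2 * h - 1)
      (by omega) (by omega) hw
  induction a with
  | zero =>
    obtain ⟨h', rfl⟩ : ∃ h', h = h' + 1 := ⟨h - 1, by omega⟩
    have h1 := hD.crit_M (by omega) e hk j hw
    have hsum : Null μ p n e (fun d => ∑ i ∈ Finset.range h', gam (h' + 1) (i + 1)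
        * (w (d 5) (d 7) * rG k ((2 * (h' + 1) : ℕ) : ℝ) (sk 1 0 (i + 1)) (sk' 1 0 (i + 1))
          0 j d)) := by
      refine Null.sum _ fun i hi => ?_
      exact (hnull 0 (i + 1) (by have := Finset.mem_range.1 hi; omega)).const_mul _
    have h2 := ((h1.sub hsum.val).congr (sub_zero _)).const_mul (gam (h' + 1) (h' + 1))⁻¹
    refine h2.congr_ae ?_
    filter_upwards [hG.ae_lt hm e] with y hy
    have hs : dat p n e y 0 ∈ Ico (-1 : ℝ) 1 := ⟨(dat0_mem hD.toPts e y).1, hy⟩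
    obtain ⟨e1, e2⟩ := phE_gam hh _ hs
    have hsk : ∀ q s, sk 1 0 q s = SM2.ker 1 q s := fun q s => by simp [sk]
    have hsk' : ∀ q s, sk' 1 0 q s = q * SM2.ker 1 (q + 1) s := fun q s => by simp [sk']
    have e3 : rG k ((2 * (h' + 1) : ℕ) : ℝ) (ph (2 * (h' + 1)) 1) (ph' (2 * (h' + 1)) 1) 0 j
        (dat p n e y) = ∑ i ∈ Finset.range (h' + 1), gam (h' + 1) (i + 1)
          * rG k ((2 * (h' + 1) : ℕ) : ℝ) (sk 1 0 (i + 1)) (sk' 1 0 (i + 1)) 0 j
            (dat p n e y) := by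
      rw [rG_form, e1, e2, Finset.mul_sum, Finset.mul_sum, ← Finset.sum_add_distrib]
      refine Finset.sum_congr rfl fun i _ => ?_
      rw [rG_form k _ (sk 1 0 (i + 1)), hsk, hsk']
      push_cast
      ring
    rw [e3, Finset.sum_range_succ]
    have e4 : ∑ i ∈ Finset.range h', gam (h' + 1) (i + 1)
        * (w (dat p n e y 5) (dat p n e y 7)
          * rG k ((2 * (h' + 1) : ℕ) : ℝ) (sk 1 0 (i + 1)) (sk' 1 0 (i + 1)) 0 j (dat p n e y))
        = w (dat p n e y 5) (dat p n e y 7) * ∑ i ∈ Finset.range h', gam (h' + 1) (i + 1)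
          * rG k ((2 * (h' + 1) : ℕ) : ℝ) (sk 1 0 (i + 1)) (sk' 1 0 (i + 1)) 0 j
            (dat p n e y) := by
      rw [Finset.mul_sum]
      refine Finset.sum_congr rfl fun i _ => ?_
      ring
    rw [e4]
    field_simp
    ring
  | succ a ih =>
    obtain ⟨h', rfl⟩ : ∃ h', h = h' + 1 := ⟨h - 1, by omega⟩
    have h2 := (ih.sub (hnull a h' le_rfl).val).congr (sub_zero _)
    refine h2.congr_ae ?_
    filter_upwards [hG.ae_lt hm e] with y hy
    have h4 := sk_succ (a := a) (q := h') hy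
    have h3 : rG k ((2 * (h' + 1) : ℕ) : ℝ) (sk 1 (a + 1) (h' + 1)) (sk' 1 (a + 1) (h' + 1)) 0 j
          (dat p n e y)
        = 1 * rG k ((2 * (h' + 1) : ℕ) : ℝ) (sk 1 a (h' + 1)) (sk' 1 a (h' + 1)) 0 j
            (dat p n e y)
          + (-1) * rG k ((2 * (h' + 1) : ℕ) : ℝ) (sk 1 a h') (sk' 1 a h') 0 j (dat p n e y) := by
      rw [rG_lin]
      exact rG_congr k _ 0 j h4.1 h4.2
    rw [h3]
    ring

end

/-- the row of a term in dimension `m` -/
noncomputable def RTerm.FM (m : ℕ) (T : RTerm) (d : R9) : ℝ :=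
  (d 8 ^ T.l * (d 5 ^ T.k * d 7 ^ T.d)) * rG T.fam m (sk 1 T.a T.q) (sk' 1 T.a T.q) T.i T.j d

/-- subcritical terms -/
def RTerm.subM (m : ℕ) (T : RTerm) : Bool := decide (2 * T.q + 2 ≤ 2 * T.i + m)

/-- critical terms with a computable flux -/
def RTerm.criM (m : ℕ) (T : RTerm) : Bool :=
  decide (2 * T.q = m) && decide (T.i = 0) && (decide (T.fam = 0) || decide (T.fam = 3)
    || decide (T.fam = 4)) &&
  ((decide (T.kn = 0) && decide (T.kx = 0)) || (decide (T.kn = 1) && decide (T.kx = 0))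
    || (decide (T.kn = 2) && decide (T.kx = 0)) || (decide (T.kn = 0) && decide (T.kx = 1))
    || (decide (T.kn = 0) && decide (T.kx = 2)))

/-- admissible terms -/
def RTerm.okM (m : ℕ) (T : RTerm) : Bool := T.subM m || T.criM m

/-- the moments of the components with the mean normal -/
noncomputable def momM (m : ℕ) (u r : ℝ) (a b : ℕ) : ℝ :=
  match a, b with
  | 0, 0 => 1
  | 1, 0 => u
  | 2, 0 => r
  | 0, 2 => (u - r) / (m + 1)
  | _, _ => 0

/-- the normalized value of a term -/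
noncomputable def RTerm.VM (m : ℕ) (T : RTerm) (u r : ℝ) : ℝ :=
  if T.subM m = true then 0
  else (if T.fam = 0 then 1 else -1) * (u ^ T.l * momM m u r T.kn T.kx)

section

variable {X : Type*} [MeasurableSpace X] {E : Type*} [NormedAddCommGroup E]
  [InnerProductSpace ℝ E] [MeasurableSpace E] [BorelSpace E] [SecondCountableTopology E]
  {μ : Measure X} [IsFiniteMeasure μ] {m : ℕ} {p n : X → E} {C S : ℝ}

/-- the moments at the mean normal -/
lemma TwoG.momM_eq [Nonempty X] (h : TwoG μ m p n) (hm : 0 < m) {e : E}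
    (he : (μ.real univ) • e = ∫ x, n x ∂μ) (hA : 0 < μ.real univ) {a b : ℕ}
    (hab : (a = 0 ∧ b = 0) ∨ (a = 1 ∧ b = 0) ∨ (a = 2 ∧ b = 0) ∨ (a = 0 ∧ b = 1)
      ∨ (a = 0 ∧ b = 2)) [CompleteSpace E] :
    ∫ y, ⟪n y, e⟫ ^ a * ⟪p y, e⟫ ^ b ∂μ
      = μ.real univ * momM m (‖e‖ ^ 2) ((∫ y, ⟪n y, e⟫ ^ 2 ∂μ) / μ.real univ) a b := by
  obtain ⟨z⟩ := ‹Nonempty X›
  have hne := hA.ne'
  have hm1 : (m : ℝ) + 1 ≠ 0 := by positivity
  rcases hab with ⟨rfl, rfl⟩ | ⟨rfl, rfl⟩ | ⟨rfl, rfl⟩ | ⟨rfl, rfl⟩ | ⟨rfl, rfl⟩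
  · simp [momM, measureReal_def]
  · simp only [pow_one, pow_zero, mul_one, momM]
    rw [integral_in h.mn h.nn, ← he, real_inner_smul_left, real_inner_self_eq_norm_sq]
  · simp only [pow_zero, mul_one, momM]
    field_simp
  · simp only [pow_one, pow_zero, one_mul, momM]
    rw [h.mean_p hm e z, mul_zero]
  · simp only [pow_zero, one_mul, momM]
    have h1 := h.moment e z
    field_simp
    linarith

omit [MeasurableSpace E] [BorelSpace E] [SecondCountableTopology E] [IsFiniteMeasure μ] in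
lemma flux_eq (hn : ∀ x, ‖n x‖ = 1) (e : E) (T : RTerm)
    (hk' : T.fam = 0 ∨ T.fam = 3 ∨ T.fam = 4) :
    fluxV μ p n e (fun a b => (‖e‖ ^ 2) ^ T.l * (a ^ T.k * b ^ T.d)) T.fam T.j
      = (if T.fam = 0 then 1 else -1) * ((‖e‖ ^ 2) ^ T.l
        * ∫ y, ⟪n y, e⟫ ^ T.kn * ⟪p y, e⟫ ^ T.kx ∂μ) := by
  unfold fluxV
  rw [← integral_const_mul, ← integral_const_mul]
  refine integral_congr_ae (Eventually.of_forall fun y => ?_)
  have hnn : ⟪n y, n y⟫ = 1 := by rw [real_inner_self_eq_norm_sq, hn]; norm_num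
  have r3 : dat p n e (y, y) 3 = 1 := hnn
  have r4 : dat p n e (y, y) 4 = ⟪n y, e⟫ := rfl
  simp only
  rcases hk' with hf | hf | hf
  · simp only [RTerm.kn, RTerm.kx, hf, sgm, if_true]
    rw [if_neg (by decide)]
    ring
  · simp only [RTerm.kn, RTerm.kx, hf, sgm, r3]
    rw [if_neg (by decide), if_neg (by decide)]
    ring
  · simp only [RTerm.kn, RTerm.kx, hf, sgm, r4, if_true]
    rw [if_neg (by decide)]
    ring

/-- the value of a term -/
theorem EmbD.val_termM [CompleteSpace E] [Nonempty X] {h : ℕ} (hD : EmbD μ (2 * h) p n C S)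
    (hh : 1 ≤ h) {e : E} (he : (μ.real univ) • e = ∫ x, n x ∂μ) (hA : 0 < μ.real univ)
    {T : RTerm} (hT : T.okM (2 * h) = true) :
    Val μ p n e (T.FM (2 * h)) ((gam h h)⁻¹ * S * (μ.real univ
      * T.VM (2 * h) (‖e‖ ^ 2) ((∫ y, ⟪n y, e⟫ ^ 2 ∂μ) / μ.real univ))) := by
  have hm : 0 < 2 * h := by omega
  have hG := hD.toTwoG
  have hw : Continuous (uncurry fun a b : ℝ => (‖e‖ ^ 2) ^ T.l * (a ^ T.k * b ^ T.d)) := by
    unfold Function.uncurry
    fun_prop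
  have hE : ∀ q, dat p n e q 8 = ‖e‖ ^ 2 := fun q => real_inner_self_eq_norm_sq e
  by_cases hs : T.subM (2 * h) = true
  · have hq : 2 * T.q + 2 ≤ 2 * T.i + 2 * h := by
      simpa only [RTerm.subM, decide_eq_true_eq] using hs
    have h1 := hG.null_S hm hD.contact e T.fam (a := T.a) (q := T.q) (i := T.i) (j := T.j)
      (l := 2 * h - 1) (by omega) (by omega) hw
    have h2 : Val μ p n e (T.FM (2 * h)) 0 := by
      refine h1.val.congr_ae (Eventually.of_forall fun q => ?_)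
      unfold RTerm.FM
      rw [hE q]
    refine h2.congr ?_
    unfold RTerm.VM
    rw [if_pos hs]
    ring
  · have hc : T.criM (2 * h) = true := by
      rcases Bool.eq_false_or_eq_true (T.subM (2 * h)) with h1 | h1
      · exact absurd h1 hs
      · unfold RTerm.okM at hT
        rw [h1, Bool.false_or] at hT
        exact hT
    simp only [RTerm.criM, Bool.and_eq_true, Bool.or_eq_true, decide_eq_true_eq] at hc
    obtain ⟨⟨⟨hq, hi⟩, hk⟩, hmom⟩ := hc
    have hqh : T.q = h := by omega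
    have hk' : T.fam = 0 ∨ T.fam = 3 ∨ T.fam = 4 := or_assoc.1 hk
    have hab : (T.kn = 0 ∧ T.kx = 0) ∨ (T.kn = 1 ∧ T.kx = 0) ∨ (T.kn = 2 ∧ T.kx = 0)
        ∨ (T.kn = 0 ∧ T.kx = 1) ∨ (T.kn = 0 ∧ T.kx = 2) := by
      rcases hmom with (((h1 | h1) | h1) | h1) | h1
      · exact Or.inl h1
      · exact Or.inr (Or.inl h1)
      · exact Or.inr (Or.inr (Or.inl h1))
      · exact Or.inr (Or.inr (Or.inr (Or.inl h1)))
      · exact Or.inr (Or.inr (Or.inr (Or.inr h1)))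
    have h1 := hD.crit_E hh e hk' T.a T.j hw
    have h2 := h1.congr_ae (g := T.FM (2 * h)) (Eventually.of_forall fun q => by
      unfold RTerm.FM
      rw [hE q, hqh, hi])
    refine h2.congr ?_
    have hmo := hG.momM_eq hm he hA hab
    have e1 := flux_eq (μ := μ) (p := p) hD.nn e T hk'
    rw [e1, hmo]
    unfold RTerm.VM
    rw [if_neg hs]
    ring

end

/-- the symmetrized sum of terms -/
noncomputable def rsumM (m : ℕ) (l : List (ℝ × RTerm)) (d : R9) : ℝ :=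
  (l.map fun cT => cT.1 * ((cT.2.FM m d + cT.2.FM m (sw9 d)) / 2)).sum

/-- the normalized value of a sum of terms -/
noncomputable def rvalM (m : ℕ) (l : List (ℝ × RTerm)) (u r : ℝ) : ℝ :=
  (l.map fun cT => cT.1 * cT.2.VM m u r).sum

section

variable {X : Type*} [MeasurableSpace X] {E : Type*} [NormedAddCommGroup E]
  [InnerProductSpace ℝ E] [MeasurableSpace E] [BorelSpace E] [SecondCountableTopology E]
  {μ : Measure X} [IsFiniteMeasure μ] {m : ℕ} {p n : X → E} {C S : ℝ}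

theorem EmbD.val_listM [CompleteSpace E] [Nonempty X] {h : ℕ} (hD : EmbD μ (2 * h) p n C S)
    (hh : 1 ≤ h) {e : E} (he : (μ.real univ) • e = ∫ x, n x ∂μ) (hA : 0 < μ.real univ)
    {l : List (ℝ × RTerm)} (hl : ∀ cT ∈ l, cT.2.okM (2 * h) = true) :
    Val μ p n e (rsumM (2 * h) l) ((gam h h)⁻¹ * S * (μ.real univ
      * rvalM (2 * h) l (‖e‖ ^ 2) ((∫ y, ⟪n y, e⟫ ^ 2 ∂μ) / μ.real univ))) := by
  induction l with
  | nil =>
    have h0 := (Null.zero (μ := μ) (p := p) (n := n) e).val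
    refine (h0.congr ?_)
    simp [rvalM]
  | cons cT l ih =>
    have h1 := hD.val_termM hh he hA (hl cT List.mem_cons_self)
    have h2 := ih fun cT hcT => hl cT (List.mem_cons_of_mem _ hcT)
    have h3 := ((h1.add h1.swap).const_mul (cT.1 / 2)).add h2
    have e1 : rsumM (2 * h) (cT :: l) = fun d => cT.1 / 2 * (cT.2.FM (2 * h) d
        + cT.2.FM (2 * h) (sw9 d)) + rsumM (2 * h) l d := by
      funext d
      simp only [rsumM, List.map_cons, List.sum_cons]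
      ring
    rw [e1]
    refine h3.congr ?_
    simp only [rvalM, List.map_cons, List.sum_cons]
    ring

/-- The law of a certificate on the diagonal level in dimension `2 * h`. -/
theorem EmbD.law_M [CompleteSpace E] [Nonempty X] {h : ℕ} (hD : EmbD μ (2 * h) p n C S)
    (hh : 1 ≤ h) {e : E} (he : (μ.real univ) • e = ∫ x, n x ∂μ) (hA : 0 < μ.real univ)
    {L : R9 → ℝ} {Cc γ : ℝ}
    (hLi : Integrable (fun q => L (dat p n e q)) (μ.prod μ))
    (hL : ∫ q, L (dat p n e q) ∂(μ.prod μ) + Cc * S * μ.real univ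
      ≤ μ.real univ ^ 2 + γ * ‖∫ x, n x ∂μ‖ ^ 2)
    {b0 b1 b2 b3 b4 b5 b6 b7 b8 : ℝ} {l : List (ℝ × RTerm)}
    (hl : ∀ cT ∈ l, cT.2.okM (2 * h) = true)
    (hpos : ∀ x N y w : E, ‖x‖ = 1 → ‖N‖ = 1 → ‖y‖ = 1 → ‖w‖ = 1 → ⟪x, N⟫ = 0 → ⟪y, w⟫ = 0 →
      ⟪x, y⟫ < 1 → 0 ≤ L (dv x N y w e) + W9 b0 b1 b2 b3 b4 b5 b6 b7 b8 (dv x N y w e)
        + rsumM (2 * h) l (dv x N y w e)) :
    ∃ r : ℝ, (‖e‖ ^ 2) ^ 2 ≤ r ∧ r ≤ ‖e‖ ^ 2 ∧
      Cc * S ≤ μ.real univ * (1 + γ * ‖e‖ ^ 2 + (b0 + (b1 + b2 + b3) * ‖e‖ ^ 2 + (b4 + b7) * r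
          + (b5 + b6) * (‖e‖ ^ 2) ^ 2 + b8 * ((‖e‖ ^ 2 - r) / (2 * h + 1))))
        + (gam h h)⁻¹ * S * rvalM (2 * h) l (‖e‖ ^ 2) r := by
  have hm : 0 < 2 * h := by omega
  have hG := hD.toTwoG
  obtain ⟨z₀⟩ := ‹Nonempty X›
  set A := μ.real univ with hAdef
  set q2 := ∫ x, ⟪n x, e⟫ ^ 2 ∂μ with hq2
  set z2 := ∫ x, ⟪p x, e⟫ ^ 2 ∂μ with hz2
  have hm1 : (0 : ℝ) < 2 * h + 1 := by positivity
  have hmom := hG.moment e z₀
  rw [← hAdef, ← hz2, ← hq2] at hmom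
  push_cast at hmom
  have hz0 : 0 ≤ z2 := integral_nonneg fun x => sq_nonneg _
  have hI1 : ⟪∫ x, n x ∂μ, e⟫ = A * ‖e‖ ^ 2 := by
    rw [← he, real_inner_smul_left, real_inner_self_eq_norm_sq]
  have hcs : (A * ‖e‖ ^ 2) ^ 2 ≤ A * q2 := by
    have := inner_integral_sq_le (μ := μ) (n := n) (integrable_unit hG.mn hG.nn) e
      (integrable_in_sq hG.mn hG.nn e)
    rwa [hI1] at this
  refine ⟨q2 / A, ?_, ?_, ?_⟩
  · rw [le_div_iff₀ hA]
    have h3 : A * ((‖e‖ ^ 2) ^ 2 * A) ≤ A * q2 := by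
      calc A * ((‖e‖ ^ 2) ^ 2 * A) = (A * ‖e‖ ^ 2) ^ 2 := by ring
        _ ≤ _ := hcs
    exact le_of_mul_le_mul_left h3 hA
  · rw [div_le_iff₀ hA]
    have := mul_nonneg hm1.le hz0
    linarith
  · have hv := hD.val_listM hh he hA hl
    rw [← hAdef, ← hq2] at hv
    have hW := value_W9 hG he b0 b1 b2 b3 b4 b5 b6 b7 b8
    rw [← hAdef, ← hq2, ← hz2] at hW
    have hWi : Integrable (fun q => W9 b0 b1 b2 b3 b4 b5 b6 b7 b8 (dat p n e q)) (μ.prod μ) := by
      have c3 : Continuous (W9 b0 b1 b2 b3 b4 b5 b6 b7 b8) := by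
        unfold W9
        fun_prop
      exact integrable_param _ (measurable_dat hD.toPts e) (isCompact_KE (bE e))
        (dat_mem hD.toPts e) c3.measurable c3.continuousOn
    have hLW : Integrable (fun q => L (dat p n e q) + W9 b0 b1 b2 b3 b4 b5 b6 b7 b8 (dat p n e q))
        (μ.prod μ) := hLi.add hWi
    have h0 : 0 ≤ ∫ q, (L (dat p n e q) + W9 b0 b1 b2 b3 b4 b5 b6 b7 b8 (dat p n e q)
        + rsumM (2 * h) l (dat p n e q)) ∂(μ.prod μ) := by
      refine integral_nonneg_of_ae ?_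
      filter_upwards [hG.ae_lt hm e] with q hq
      exact hpos _ _ _ _ (hD.np _) (hD.nn _) (hD.np _) (hD.nn _) (hD.pn _) (hD.pn _) hq
    rw [integral_add hLW hv.1, integral_add hLi hWi, hv.2, hW] at h0
    have hnorm : ‖∫ x, n x ∂μ‖ ^ 2 = A ^ 2 * ‖e‖ ^ 2 := by
      rw [← he, norm_smul, mul_pow, Real.norm_eq_abs, sq_abs]
    rw [hnorm] at hL
    have hz2' : z2 = A * ((‖e‖ ^ 2 - q2 / A) / (2 * h + 1)) := by
      field_simp
      linarith
    have hq2' : q2 = A * (q2 / A) := by field_simp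
    generalize q2 / A = r at *
    rw [hz2', hq2'] at h0
    have hfin : A * (Cc * S) ≤ A * (A * (1 + γ * ‖e‖ ^ 2 + (b0 + (b1 + b2 + b3) * ‖e‖ ^ 2
        + (b4 + b7) * r + (b5 + b6) * (‖e‖ ^ 2) ^ 2 + b8 * ((‖e‖ ^ 2 - r) / (2 * h + 1))))
        + (gam h h)⁻¹ * S * rvalM (2 * h) l (‖e‖ ^ 2) r) := by
      linarith
    exact le_of_mul_le_mul_left hfin hA

end

lemma gam_inv_2 : (gam 2 2)⁻¹ = 3 := by norm_num [gam]

lemma gam_inv_3 : (gam 3 3)⁻¹ = 15 / 2 := by norm_num [gam]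

lemma gam_inv_4 : (gam 4 4)⁻¹ = 35 / 2 := by norm_num [gam]

lemma gam_inv_5 : (gam 5 5)⁻¹ = 315 / 8 := by norm_num [gam]

lemma gam_inv_6 : (gam 6 6)⁻¹ = 693 / 8 := by norm_num [gam]

lemma gam_inv_7 : (gam 7 7)⁻¹ = 3003 / 16 := by norm_num [gam]

lemma gam_inv_8 : (gam 8 8)⁻¹ = 6435 / 16 := by norm_num [gam]

end Vale.Agent.P224.UE
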