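import Vale.Agent.P224.UE.DensUp
import Vale.Agent.P224.UE.Quad

/-!
The limit of two point integrals at the diagonal for an injective immersion.
-/

namespace Vale.Agent.P224.UE

open MeasureTheory Filter Set Function Module Vale.Agent.P224
open scoped RealInnerProductSpace ContDiff ENNReal Manifold Topology

section

variable {V W M : Type*} [NormedAddCommGroup V] [InnerProductSpace ℝ V] [FiniteDimensional ℝ V]
  [NormedAddCommGroup W] [InnerProductSpace ℝ W] [FiniteDimensional ℝ W]
  [TopologicalSpace M] [ChartedSpace V M] {F : M → W}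
  [MeasurableSpace V] [BorelSpace V] [MeasurableSpace M] [BorelSpace M]

/-- away from a point the inner product is bounded away from one -/
lemma inner_le_off [CompactSpace M] (hF : SphImm V F) (hinj : Injective F) (p : M) {N : Set M}
    (hN : IsOpen N) (hp : p ∈ N) : ∃ η > 0, ∀ x ∉ N, ⟪F x, F p⟫ ≤ 1 - η := by
  have hFc : Continuous F := hF.1.continuous
  rcases (Nᶜ).eq_empty_or_nonempty with h | h
  · refine ⟨1, one_pos, fun x hx => ?_⟩
    have : x ∈ Nᶜ := hx
    rw [h] at this
    exact this.elim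
  · obtain ⟨x₀, hx₀, hmax⟩ := hN.isClosed_compl.isCompact.exists_isMaxOn h
      ((hFc.inner (𝕜 := ℝ) continuous_const).continuousOn (f := fun x => ⟪F x, F p⟫))
    have hlt : ⟪F x₀, F p⟫ < 1 := by
      rcases (real_inner_le_norm (F x₀) (F p)).lt_or_eq with h1 | h1
      · rwa [hF.unit, hF.unit, mul_one] at h1
      · exfalso
        rw [hF.unit, hF.unit, mul_one] at h1
        have h2 := (inner_eq_one_iff_of_norm_eq_one (hF.unit _) (hF.unit _)).mp h1
        exact hx₀ (hinj h2 ▸ hp)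
    refine ⟨1 - ⟪F x₀, F p⟫, by linarith, fun x hx => ?_⟩
    have := hmax hx
    simp only [Set.mem_ofPred_eq] at this
    linarith

/-- The conformal density of an embedded closed hypersurface. -/
theorem density_tendsto [IsManifold 𝓘(ℝ, V) ∞ M] [CompactSpace M] [T2Space M]
    (hm : 0 < finrank ℝ V) (hW : finrank ℝ W = finrank ℝ V + 2) (hF : SphImm V F)
    (hinj : Injective F) (p : M) :
    Tendsto (fun φ => ∫ x, FV.cf φ ⟪F x, F p⟫ ^ (finrank ℝ V) ∂(volM V F))
      (𝓝[<] (Real.pi / 2)) (𝓝 (sphereVol (finrank ℝ V))) := by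
  have hfin : IsFiniteMeasure (volM V F) := isFiniteMeasure_volM hF
  obtain ⟨N, hN, hp, hlim⟩ := density_at_tendsto hm hW hF p
  obtain ⟨η, hη, hoff⟩ := inner_le_off hF hinj p hN hp
  have hFc : Continuous F := hF.1.continuous
  set m := finrank ℝ V with hmdef
  set K : ℝ → M → ℝ := fun φ x => FV.cf φ ⟪F x, F p⟫ ^ m with hK
  have hKm : ∀ φ, Measurable (K φ) := by
    intro φ
    have : Measurable fun x => ⟪F x, F p⟫ := (hFc.inner continuous_const).measurable
    simp only [hK]
    unfold FV.cf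
    fun_prop
  have h0 : ∀ᶠ φ in 𝓝[<] (Real.pi / 2), φ ∈ Ioo 0 (Real.pi / 2) :=
    Ioo_mem_nhdsLT (by have := Real.pi_pos; positivity)
  -- the outer part
  have hout : Tendsto (fun φ => ∫⁻ x in Nᶜ, ENNReal.ofReal (K φ x) ∂(volM V F))
      (𝓝[<] (Real.pi / 2)) (𝓝 0) := by
    have h1 := (FV.tendsto_cf (s := 1 - η) (by linarith)).pow m
    rw [zero_pow hm.ne'] at h1
    have h2 := ENNReal.tendsto_ofReal h1
    rw [ENNReal.ofReal_zero] at h2
    have h3 := ENNReal.Tendsto.mul_const (b := volM V F Nᶜ) h2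
      (Or.inr (measure_ne_top _ _))
    rw [zero_mul] at h3
    refine tendsto_of_tendsto_of_tendsto_of_le_of_le' tendsto_const_nhds h3
      (Eventually.of_forall fun φ => zero_le) ?_
    filter_upwards [h0] with φ hφ
    have hφI : φ ∈ Ioo (-(Real.pi / 2)) (Real.pi / 2) :=
      ⟨by linarith [hφ.1, Real.pi_pos], hφ.2⟩
    have hcos := Real.cos_pos_of_mem_Ioo hφI
    have hsin0 : 0 < Real.sin φ :=
      Real.sin_pos_of_pos_of_lt_pi hφ.1 (by linarith [hφ.2, Real.pi_pos])
    have hs1 := FV.abs_sin_lt_one hφI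
    rw [abs_of_pos hsin0] at hs1
    calc ∫⁻ x in Nᶜ, ENNReal.ofReal (K φ x) ∂(volM V F)
        ≤ ∫⁻ _ in Nᶜ, ENNReal.ofReal (FV.cf φ (1 - η) ^ m) ∂(volM V F) := by
          refine setLIntegral_mono' hN.measurableSet.compl fun x hx => ?_
          apply ENNReal.ofReal_le_ofReal
          have hq' := hoff x hx
          have h5 : |⟪F x, F p⟫| ≤ 1 := FV.abs_FF_le hF x p
          have h6 : FV.cf φ ⟪F x, F p⟫ ≤ FV.cf φ (1 - η) := by
            unfold FV.cf
            have h7 : 0 < 1 - (1 - η) * Real.sin φ := by nlinarith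
            have h8 : 1 - (1 - η) * Real.sin φ ≤ 1 - ⟪F x, F p⟫ * Real.sin φ := by
              have := mul_le_mul_of_nonneg_right hq' hsin0.le
              linarith
            exact div_le_div_of_nonneg_left hcos.le h7 h8
          exact pow_le_pow_left₀ (FV.cf_pos hφI h5).le h6 m
      _ = ENNReal.ofReal (FV.cf φ (1 - η) ^ m) * volM V F Nᶜ := by
          rw [setLIntegral_const]
  have htot : Tendsto (fun φ => ∫⁻ x, ENNReal.ofReal (K φ x) ∂(volM V F))
      (𝓝[<] (Real.pi / 2)) (𝓝 (ENNReal.ofReal (sphereVol m))) := by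
    have h4 := hlim.add hout
    rw [add_zero] at h4
    refine h4.congr fun φ => ?_
    exact lintegral_add_compl (fun x => ENNReal.ofReal (K φ x)) hN.measurableSet
  have hreal := (ENNReal.tendsto_toReal (ENNReal.ofReal_ne_top (r := sphereVol m))).comp htot
  rw [ENNReal.toReal_ofReal (sphereVol_pos' m).le] at hreal
  refine hreal.congr' ?_
  filter_upwards [h0] with φ hφ
  have hφI : φ ∈ Ioo (-(Real.pi / 2)) (Real.pi / 2) :=
    ⟨by linarith [hφ.1, Real.pi_pos], hφ.2⟩
  rw [Function.comp_apply, ← integral_eq_lintegral_of_nonneg_ae]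
  · exact Eventually.of_forall fun x => pow_nonneg (FV.cf_pos hφI (FV.abs_FF_le hF x p)).le m
  · exact (hKm φ).aestronglyMeasurable

/-- the parameter change -/
lemma tendsto_arcsin_one : Tendsto Real.arcsin (𝓝[<] 1) (𝓝[<] (Real.pi / 2)) := by
  refine tendsto_nhdsWithin_iff.2 ⟨?_, ?_⟩
  · have := (Real.continuous_arcsin.tendsto 1).mono_left (nhdsWithin_le_nhds (s := Iio (1 : ℝ)))
    rwa [Real.arcsin_one] at this
  · filter_upwards [self_mem_nhdsWithin] with T hT
    exact Real.arcsin_lt_pi_div_two.2 hT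

/-- The conformal density in the parameter T. -/
theorem density_tendsto_T [IsManifold 𝓘(ℝ, V) ∞ M] [CompactSpace M] [T2Space M]
    (hm : 0 < finrank ℝ V) (hW : finrank ℝ W = finrank ℝ V + 2) (hF : SphImm V F)
    (hinj : Injective F) (p : M) :
    Tendsto (fun T => ∫ x, kp T ^ (finrank ℝ V) * SM2.ker T (finrank ℝ V) ⟪F x, F p⟫ ∂(volM V F))
      (𝓝[<] 1) (𝓝 (sphereVol (finrank ℝ V))) := by
  have h := (density_tendsto hm hW hF hinj p).comp tendsto_arcsin_one
  refine h.congr' ?_
  have h0 : ∀ᶠ T in 𝓝[<] (1 : ℝ), T ∈ Ioo (0 : ℝ) 1 := Ioo_mem_nhdsLT one_pos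
  filter_upwards [h0] with T hT
  simp only [Function.comp_apply]
  refine integral_congr_ae (Eventually.of_forall fun x => ?_)
  simp only [FV.cf, SM2.ker, kp]
  rw [Real.sin_arcsin (by linarith [hT.1]) hT.2.le, Real.cos_arcsin, div_pow, div_eq_mul_inv,
    mul_comm T]

end

section

variable {X : Type*} [TopologicalSpace X] [CompactSpace X] [MeasurableSpace X]
  {E : Type*} [NormedAddCommGroup E] [InnerProductSpace ℝ E] [MeasurableSpace E] [BorelSpace E]
  [SecondCountableTopology E] {μ : Measure X} [IsFiniteMeasure μ] {m : ℕ} {p : X → E}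

/-- pairs close in the ambient space are close to the diagonal -/
lemma close_diag (hp : Continuous p) (hinj : Injective p) (np : ∀ x, ‖p x‖ = 1)
    {Q : X × X → ℝ} (hQ : Continuous Q) {ε : ℝ} (hε : 0 < ε) :
    ∃ δ, 0 < δ ∧ ∀ q : X × X, 1 - δ < ⟪p q.1, p q.2⟫ → |Q q - Q (q.2, q.2)| < ε := by
  set K : Set (X × X) := {q | ε ≤ |Q q - Q (q.2, q.2)|} with hK
  have hKc : IsCompact K := by
    apply IsClosed.isCompact
    apply isClosed_le continuous_const
    exact (hQ.sub (hQ.comp (continuous_snd.prodMk continuous_snd))).abs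
  rcases K.eq_empty_or_nonempty with hE | hne
  · refine ⟨1, one_pos, fun q _ => ?_⟩
    by_contra hcon
    have : q ∈ K := not_lt.mp hcon
    rw [hE] at this
    exact this
  · obtain ⟨q, hq, hmax⟩ := hKc.exists_isMaxOn hne
      ((hp.comp continuous_fst).inner (𝕜 := ℝ) (hp.comp continuous_snd)).continuousOn
    have hlt : ⟪p q.1, p q.2⟫ < 1 := by
      rcases (real_inner_le_norm (p q.1) (p q.2)).lt_or_eq with h | h
      · rwa [np, np, mul_one] at h
      · exfalso
        rw [np, np, mul_one] at h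
        have h1 : p q.1 = p q.2 := (inner_eq_one_iff_of_norm_eq_one (np _) (np _)).mp h
        have h2 := hinj h1
        have h3 : ε ≤ |Q q - Q (q.2, q.2)| := hq
        have h4 : q = (q.2, q.2) := Prod.ext h2 rfl
        rw [← h4, sub_self, abs_zero] at h3
        linarith
    refine ⟨1 - ⟪p q.1, p q.2⟫, by linarith only [hlt], fun x hxy => ?_⟩
    by_contra hcon
    have h4 : x ∈ K := not_lt.mp hcon
    have h5 := hmax h4
    simp only [Set.mem_ofPred_eq, Function.comp_apply] at h5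
    linarith only [hxy, h5]

lemma cv_nonneg {T s : ℝ} (hT : T ∈ Ico (0 : ℝ) 1) (hs : s ∈ Icc (-1 : ℝ) 1) (m : ℕ) :
    0 ≤ cv m T s :=
  mul_nonneg (pow_nonneg (kp_pos hT).le _) (ker_nonneg hT hs m)

/-- the kernel is small away from the diagonal -/
lemma cv_le {T s δ : ℝ} (hT : T ∈ Ico (0 : ℝ) 1) (hδ : 0 < δ) (hδ1 : δ ≤ 1) (hs : s ≤ 1 - δ)
    (m : ℕ) : cv m T s ≤ kp T ^ m * (δ ^ m)⁻¹ := by
  refine mul_le_mul_of_nonneg_left ?_ (pow_nonneg (kp_pos hT).le _)
  unfold SM2.ker
  have h1 : δ ≤ 1 - T * s := by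
    have := mul_le_mul_of_nonneg_left hs hT.1
    nlinarith [mul_nonneg (sub_nonneg.2 hT.2.le) (sub_nonneg.2 hδ1)]
  exact inv_anti₀ (pow_pos hδ m) (pow_le_pow_left₀ hδ.le h1 m)

lemma tendsto_kp : Tendsto kp (𝓝[<] 1) (𝓝 0) := by
  have h : Continuous kp := by
    unfold kp
    fun_prop
  have h1 := (h.tendsto 1).mono_left (nhdsWithin_le_nhds (s := Iio (1 : ℝ)))
  simpa [kp] using h1

/-- The limit of the two point integrals at the diagonal. -/
theorem two_point_tendsto (hm : 0 < m) (hp : Continuous p) (hpm : Measurable p)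
    (hinj : Injective p) (np : ∀ x, ‖p x‖ = 1) {A S : ℝ}
    (hA : ∀ T ∈ Ioo (0 : ℝ) 1, ∀ z, ∫ x, cv m T ⟪p x, p z⟫ ∂μ ≤ A)
    (hS : ∀ z, Tendsto (fun T => ∫ x, cv m T ⟪p x, p z⟫ ∂μ) (𝓝[<] 1) (𝓝 S))
    {Q : X × X → ℝ} (hQ : Continuous Q) (hQm : Measurable Q) :
    Tendsto (fun T => ∫ q : X × X, Q q * cv m T ⟪p q.1, p q.2⟫ ∂(μ.prod μ)) (𝓝[<] 1)
      (𝓝 (S * ∫ y, Q (y, y) ∂μ)) := by
  have h0 : ∀ᶠ T in 𝓝[<] (1 : ℝ), T ∈ Ioo (0 : ℝ) 1 := Ioo_mem_nhdsLT one_pos
  have mp1 : Measurable (fun q : X × X => p q.1) := hpm.comp measurable_fst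
  have mp2 : Measurable (fun q : X × X => p q.2) := hpm.comp measurable_snd
  have hs : Measurable (fun q : X × X => ⟪p q.1, p q.2⟫) := mp1.inner mp2
  have bs : ∀ x y, ⟪p x, p y⟫ ∈ Icc (-1 : ℝ) 1 := by
    intro x y
    have := abs_real_inner_le_norm (p x) (p y)
    rw [np, np, mul_one] at this
    exact ⟨(abs_le.1 this).1, (abs_le.1 this).2⟩
  have hkm : ∀ T, Measurable (fun q : X × X => cv m T ⟪p q.1, p q.2⟫) := fun T =>
    (measurable_cv m T).comp hs
  have hk0 : ∀ T ∈ Ioo (0 : ℝ) 1, ∀ q : X × X, 0 ≤ cv m T ⟪p q.1, p q.2⟫ := fun T hT q =>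
    cv_nonneg ⟨hT.1.le, hT.2⟩ (bs _ _) m
  have hik : ∀ T ∈ Ioo (0 : ℝ) 1, Integrable (fun q : X × X => cv m T ⟪p q.1, p q.2⟫)
      (μ.prod μ) := by
    intro T hT
    unfold cv
    exact (integrable_ker1 (μ := μ.prod μ) hs (fun q => bs _ _) ⟨hT.1.le, hT.2⟩ m).const_mul _
  obtain ⟨B, hB⟩ := isCompact_univ.exists_bound_of_continuousOn hQ.continuousOn
  have hB' : ∀ q, |Q q| ≤ B := fun q => by
    have := hB q (mem_univ _)
    rwa [Real.norm_eq_abs] at this
  have hQd : Measurable (fun q : X × X => Q (q.2, q.2)) :=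
    hQm.comp (measurable_snd.prodMk measurable_snd)
  have hQd1 : Measurable (fun y : X => Q (y, y)) :=
    hQm.comp (measurable_id.prodMk measurable_id)
  have hi1 : ∀ T ∈ Ioo (0 : ℝ) 1, Integrable
      (fun q : X × X => Q q * cv m T ⟪p q.1, p q.2⟫) (μ.prod μ) := fun T hT =>
    (hik T hT).bdd_mul (c := B) hQm.aestronglyMeasurable (Eventually.of_forall fun q => by
      rw [Real.norm_eq_abs]; exact hB' q)
  have hi2 : ∀ T ∈ Ioo (0 : ℝ) 1, Integrable
      (fun q : X × X => Q (q.2, q.2) * cv m T ⟪p q.1, p q.2⟫) (μ.prod μ) := fun T hT =>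
    (hik T hT).bdd_mul (c := B) hQd.aestronglyMeasurable (Eventually.of_forall fun q => by
      rw [Real.norm_eq_abs]; exact hB' _)
  -- the diagonal part
  have hdiag : Tendsto (fun T => ∫ q : X × X, Q (q.2, q.2) * cv m T ⟪p q.1, p q.2⟫ ∂(μ.prod μ))
      (𝓝[<] 1) (𝓝 (S * ∫ y, Q (y, y) ∂μ)) := by
    have h1 : Tendsto (fun T => ∫ y, Q (y, y) * ∫ x, cv m T ⟪p x, p y⟫ ∂μ ∂μ) (𝓝[<] 1)
        (𝓝 (∫ y, Q (y, y) * S ∂μ)) := by
      refine tendsto_integral_filter_of_dominated_convergence (fun _ => B * A) ?_ ?_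
        (integrable_const _) ?_
      · filter_upwards with T
        refine hQd1.aestronglyMeasurable.mul ?_
        have h3 : StronglyMeasurable (uncurry fun (y x : X) => cv m T ⟪p x, p y⟫) := by
          refine Measurable.stronglyMeasurable ?_
          exact (measurable_cv m T).comp ((hpm.comp measurable_snd).inner (hpm.comp measurable_fst))
        exact h3.integral_prod_right.aestronglyMeasurable
      · filter_upwards [h0] with T hT
        filter_upwards with y
        rw [norm_mul, Real.norm_eq_abs, Real.norm_eq_abs, abs_of_nonneg (a := ∫ x, cv m T _ ∂μ)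
          (integral_nonneg fun x => cv_nonneg ⟨hT.1.le, hT.2⟩ (bs _ _) m)]
        exact mul_le_mul (hB' _) (hA T hT y)
          (integral_nonneg fun x => cv_nonneg ⟨hT.1.le, hT.2⟩ (bs _ _) m)
          ((abs_nonneg _).trans (hB' (y, y)))
      · filter_upwards with y
        exact (hS y).const_mul _
    rw [integral_mul_const, mul_comm] at h1
    refine h1.congr' ?_
    filter_upwards [h0] with T hT
    rw [integral_prod_symm _ (hi2 T hT)]
    simp only [integral_const_mul]
  -- the off diagonal part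
  have hoff : Tendsto (fun T => ∫ q : X × X, (Q q - Q (q.2, q.2)) * cv m T ⟪p q.1, p q.2⟫
      ∂(μ.prod μ)) (𝓝[<] 1) (𝓝 0) := by
    rw [Metric.tendsto_nhds]
    intro ε hε
    set V := μ.real univ with hV
    have hV0 : 0 ≤ V := measureReal_nonneg
    set A' : ℝ := max A 0 with hA'
    have hA'0 : 0 ≤ A' := le_max_right _ _
    have hε1 : 0 < ε / (2 * (A' * V + 1)) := by positivity
    obtain ⟨δ₀, hδ₀, hclose⟩ := close_diag hp hinj np hQ hε1
    set δ := min δ₀ 1 with hδdef
    have hδ : 0 < δ := lt_min hδ₀ one_pos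
    have hδ1 : δ ≤ 1 := min_le_right _ _
    have hlim : Tendsto (fun T => 2 * B * (kp T ^ m * (δ ^ m)⁻¹) * V ^ 2) (𝓝[<] 1) (𝓝 0) := by
      have h1 := ((tendsto_kp.pow m).mul_const ((δ ^ m)⁻¹)).const_mul (2 * B)
      have h2 := h1.mul_const (V ^ 2)
      rw [zero_pow hm.ne', zero_mul, mul_zero, zero_mul] at h2
      exact h2
    have hsm := hlim.eventually_lt_const (half_pos hε)
    filter_upwards [h0, hsm] with T hT hTs
    have hTI : T ∈ Ico (0 : ℝ) 1 := ⟨hT.1.le, hT.2⟩
    have hJ : ∫ q : X × X, cv m T ⟪p q.1, p q.2⟫ ∂(μ.prod μ) ≤ A' * V := by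
      rw [integral_prod_symm _ (hik T hT)]
      calc ∫ y, ∫ x, cv m T ⟪p x, p y⟫ ∂μ ∂μ ≤ ∫ _, A' ∂μ := by
            refine integral_mono_of_nonneg ?_ (integrable_const _) ?_
            · filter_upwards with y
              exact integral_nonneg fun x => cv_nonneg hTI (bs _ _) m
            · filter_upwards with y
              exact (hA T hT y).trans (le_max_left _ _)
        _ = A' * V := by
            rw [integral_const, smul_eq_mul, mul_comm]
    have hpt : ∀ q : X × X, |(Q q - Q (q.2, q.2)) * cv m T ⟪p q.1, p q.2⟫| ≤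
        ε / (2 * (A' * V + 1)) * cv m T ⟪p q.1, p q.2⟫ + 2 * B * (kp T ^ m * (δ ^ m)⁻¹) := by
      intro q
      have hq0 := hk0 T hT q
      have hB0 : 0 ≤ B := (abs_nonneg _).trans (hB' q)
      rw [abs_mul, abs_of_nonneg hq0]
      by_cases hq : 1 - δ < ⟪p q.1, p q.2⟫
      · have h1 := hclose q (by
          have : δ ≤ δ₀ := min_le_left _ _
          linarith)
        have h2 := mul_le_mul_of_nonneg_right h1.le hq0
        have h3 : 0 ≤ 2 * B * (kp T ^ m * (δ ^ m)⁻¹) := by
          have := kp_pos hTI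
          positivity
        linarith
      · have h1 := cv_le hTI hδ hδ1 (not_lt.1 hq) m
        have h2 : |Q q - Q (q.2, q.2)| ≤ 2 * B := by
          have h3 := abs_sub (Q q) (Q (q.2, q.2))
          have h4 := hB' q
          have h5 := hB' (q.2, q.2)
          linarith
        have h3 : |Q q - Q (q.2, q.2)| * cv m T ⟪p q.1, p q.2⟫
            ≤ 2 * B * (kp T ^ m * (δ ^ m)⁻¹) := mul_le_mul h2 h1 hq0 (by positivity)
        have h4 : 0 ≤ ε / (2 * (A' * V + 1)) * cv m T ⟪p q.1, p q.2⟫ :=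
          mul_nonneg hε1.le hq0
        linarith
    have hi3 : Integrable (fun q : X × X => (Q q - Q (q.2, q.2)) * cv m T ⟪p q.1, p q.2⟫)
        (μ.prod μ) := by
      refine ((hi1 T hT).sub (hi2 T hT)).congr ?_
      filter_upwards with q
      simp only [Pi.sub_apply]
      ring
    rw [Real.dist_eq, sub_zero]
    calc |∫ q : X × X, (Q q - Q (q.2, q.2)) * cv m T ⟪p q.1, p q.2⟫ ∂(μ.prod μ)|
        ≤ ∫ q : X × X, |(Q q - Q (q.2, q.2)) * cv m T ⟪p q.1, p q.2⟫| ∂(μ.prod μ) :=
          abs_integral_le_integral_abs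
      _ ≤ ∫ q : X × X, (ε / (2 * (A' * V + 1)) * cv m T ⟪p q.1, p q.2⟫
            + 2 * B * (kp T ^ m * (δ ^ m)⁻¹)) ∂(μ.prod μ) :=
          integral_mono hi3.abs (((hik T hT).const_mul _).add (integrable_const _)) hpt
      _ = ε / (2 * (A' * V + 1)) * (∫ q : X × X, cv m T ⟪p q.1, p q.2⟫ ∂(μ.prod μ))
            + 2 * B * (kp T ^ m * (δ ^ m)⁻¹) * V ^ 2 := by
          rw [integral_add ((hik T hT).const_mul _) (integrable_const _), integral_const_mul,
            integral_const, smul_eq_mul, ← univ_prod_univ, measureReal_prod_prod]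
          ring
      _ ≤ ε / (2 * (A' * V + 1)) * (A' * V) + 2 * B * (kp T ^ m * (δ ^ m)⁻¹) * V ^ 2 := by
          gcongr
      _ < ε / 2 + ε / 2 := by
          have h1 : ε / (2 * (A' * V + 1)) * (A' * V) ≤ ε / 2 := by
            rw [div_mul_eq_mul_div, div_le_div_iff₀ (by positivity) two_pos]
            nlinarith
          linarith
      _ = ε := by ring
  have h := hoff.add hdiag
  rw [zero_add] at h
  refine h.congr' ?_
  filter_upwards [h0] with T hT
  rw [← integral_add]
  · refine integral_congr_ae (Eventually.of_forall fun q => ?_)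
    simp only
    ring
  · refine ((hi1 T hT).sub (hi2 T hT)).congr ?_
    filter_upwards with q
    simp only [Pi.sub_apply]
    ring
  · exact hi2 T hT

end

section

variable {V W M : Type*} [NormedAddCommGroup V] [InnerProductSpace ℝ V] [FiniteDimensional ℝ V]
  [NormedAddCommGroup W] [InnerProductSpace ℝ W] [FiniteDimensional ℝ W]
  [TopologicalSpace M] [ChartedSpace V M] {F : M → W}
  [MeasurableSpace V] [BorelSpace V] [MeasurableSpace M] [BorelSpace M]

/-- The limit of the two point integrals for an embedded closed hypersurface. -/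
theorem two_point_tendsto_inj [MeasurableSpace W] [BorelSpace W] [IsManifold 𝓘(ℝ, V) ∞ M]
    [CompactSpace M] [T2Space M]
    (hm : 0 < finrank ℝ V) (hW : finrank ℝ W = finrank ℝ V + 2) (hF : SphImm V F)
    (hinj : Injective F) {N : M → W} (hNm : Measurable N) (hN1 : ∀ x, ‖N x‖ = 1)
    (hrow : ConfRow (volM V F) (finrank ℝ V) F N)
    {Q : M × M → ℝ} (hQ : Continuous Q) (hQm : Measurable Q) :
    Tendsto (fun T => ∫ q : M × M, Q q * cv (finrank ℝ V) T ⟪F q.1, F q.2⟫
      ∂((volM V F).prod (volM V F))) (𝓝[<] 1)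
      (𝓝 (sphereVol (finrank ℝ V) * ∫ y, Q (y, y) ∂(volM V F))) := by
  have hfin : IsFiniteMeasure (volM V F) := isFiniteMeasure_volM hF
  have hFc : Continuous F := hF.1.continuous
  refine two_point_tendsto (A := (volM V F).real univ) hm hFc hFc.measurable hinj hF.unit
    ?_ ?_ hQ hQm
  · intro T hT z
    have h1 := conf_le (μ := volM V F) (m := finrank ℝ V) (s := fun x => ⟪F x, F z⟫)
      (q := fun x => ⟪N x, F z⟫) ((hFc.inner continuous_const).measurable)
      (hNm.inner measurable_const) (fun x => abs_le.1 (FV.abs_FF_le hF x z))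
      (fun x => by
        have h2 := abs_real_inner_le_norm (N x) (F z)
        rw [hN1, hF.unit, mul_one] at h2
        exact abs_le.1 h2) (fun T hT => hrow z T hT) (T := T) ⟨hT.1.le, hT.2⟩
    unfold cv
    rw [integral_const_mul]
    exact h1
  · intro z
    have h1 := density_tendsto_T hm hW hF hinj z
    exact h1

end

end Vale.Agent.P224.UE
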