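import Vale.Agent.P224.UE.Law

/-!
Integrability of powers of the distance to the diagonal.
-/

namespace Vale.Agent.P224.UE

open MeasureTheory Set Filter Function
open Vale.Agent.P224.SM2 hiding ker
open scoped Topology RealInnerProductSpace ENNReal

set_option linter.unusedSectionVars false

/-- the singular power of the distance to the diagonal -/
noncomputable def sg (l : ℕ) (s : ℝ) : ℝ := (√(1 - s) ^ l)⁻¹

lemma measurable_sg (l : ℕ) : Measurable (sg l) := by
  unfold sg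
  fun_prop

lemma sg_nonneg (l : ℕ) (s : ℝ) : 0 ≤ sg l s := by
  unfold sg
  positivity

/-- the dyadic levels -/
noncomputable def Tk (k : ℕ) : ℝ := 1 - (1 / 2) ^ k

lemma half_pow_pos (k : ℕ) : 0 < (1 / 2 : ℝ) ^ k := by positivity

lemma half_pow_le (k : ℕ) : (1 / 2 : ℝ) ^ k ≤ 1 := pow_le_one₀ (by norm_num) (by norm_num)

lemma Tk_mem (k : ℕ) : Tk k ∈ Ico (0 : ℝ) 1 := by
  unfold Tk
  exact ⟨by linarith [half_pow_le k], by linarith [half_pow_pos k]⟩

/-- the conformal kernel at a dyadic level -/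
lemma cv_Tk_ge {m k : ℕ} {s : ℝ} (hs1 : s ≤ 1) (h2 : 1 - s ≤ 2 * (1 / 2) ^ k) :
    1 ≤ 3 ^ m * (√((1 / 2) ^ k) ^ m * cv m (Tk k) s) := by
  set a : ℝ := (1 / 2) ^ k with ha
  have ha0 : 0 < a := half_pow_pos k
  have ha1 : a ≤ 1 := half_pow_le k
  have hT : Tk k = 1 - a := rfl
  have hr0 : 0 < √a := Real.sqrt_pos.2 ha0
  have hr2 : √a ^ 2 = a := Real.sq_sqrt ha0.le
  have hkp : √a ≤ kp (1 - a) := by
    unfold kp
    apply Real.sqrt_le_sqrt
    nlinarith
  have hv0 : 0 < 1 - (1 - a) * s := by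
    by_cases hs0 : 0 ≤ s
    · nlinarith
    · push Not at hs0
      nlinarith
  have hv : 1 - (1 - a) * s ≤ 3 * a := by nlinarith
  have hk : ((3 * a) ^ m)⁻¹ ≤ SM2.ker (1 - a) m s := by
    unfold SM2.ker
    exact inv_anti₀ (pow_pos hv0 m) (pow_le_pow_left₀ hv0.le hv m)
  rw [hT]
  unfold cv
  have h3 : √a ^ m * ((3 * a) ^ m)⁻¹ ≤ kp (1 - a) ^ m * SM2.ker (1 - a) m s :=
    mul_le_mul (pow_le_pow_left₀ hr0.le hkp m) hk (by positivity)
      (pow_nonneg (Real.sqrt_nonneg _) m)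
  calc (1 : ℝ) = 3 ^ m * (√a ^ m * (√a ^ m * ((3 * a) ^ m)⁻¹)) := by
        have e1 : √a ^ m * √a ^ m = a ^ m := by rw [← mul_pow, ← sq, hr2]
        rw [mul_pow]
        field_simp
        linarith [e1]
    _ ≤ _ := by gcongr

lemma sg_le_cv {m l : ℕ} (hl : l ≤ m) {s : ℝ} (hs0 : -1 ≤ s) (hs : s < 1) :
    ∃ k : ℕ, sg l s ≤ 3 ^ m * ((√(1 / 2) ^ (m - l)) ^ k * cv m (Tk k) s) := by
  obtain ⟨k, hk1, hk2⟩ := exists_nat_pow_near_of_lt_one (x := (1 - s) / 2) (y := 1 / 2)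
    (by linarith) (by linarith) (by norm_num) (by norm_num)
  refine ⟨k, ?_⟩
  set a : ℝ := (1 / 2) ^ k with ha
  have ha0 : 0 < a := half_pow_pos k
  have h1 : a < 1 - s := by
    rw [pow_succ] at hk1
    rw [ha]
    linarith
  have h2 : 1 - s ≤ 2 * a := by
    rw [ha]
    linarith
  have hr0 : 0 < √a := Real.sqrt_pos.2 ha0
  have hge := cv_Tk_ge (m := m) hs.le h2
  rw [← ha] at hge
  have hrk : (√(1 / 2) ^ (m - l)) ^ k = √a ^ (m - l) := by
    rw [← pow_mul, mul_comm, pow_mul]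
    congr 1
    rw [ha, Real.sqrt_eq_rpow, Real.sqrt_eq_rpow, ← Real.rpow_natCast, ← Real.rpow_mul (by norm_num),
      ← Real.rpow_natCast, ← Real.rpow_mul (by norm_num), mul_comm]
  have hsg : sg l s ≤ (√a ^ l)⁻¹ := by
    unfold sg
    exact inv_anti₀ (pow_pos hr0 l) (pow_le_pow_left₀ hr0.le (Real.sqrt_le_sqrt h1.le) l)
  rw [hrk]
  calc sg l s ≤ (√a ^ l)⁻¹ := hsg
    _ = (√a ^ l)⁻¹ * 1 := (mul_one _).symm
    _ ≤ (√a ^ l)⁻¹ * (3 ^ m * (√a ^ m * cv m (Tk k) s)) := by gcongr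
    _ = 3 ^ m * (√a ^ (m - l) * cv m (Tk k) s) := by
        have e1 : √a ^ m = √a ^ (m - l) * √a ^ l := by
          rw [← pow_add, Nat.sub_add_cancel hl]
        rw [e1]
        field_simp

section

variable {Y : Type*} [MeasurableSpace Y] {ν : Measure Y} [IsFiniteMeasure ν] {m : ℕ} {s : Y → ℝ}

/-- the singular powers are integrable -/
lemma integrable_sg (hs : Measurable s) (bs : ∀ y, s y ∈ Icc (-1 : ℝ) 1) {B : ℝ}
    (hB : ∀ T ∈ Ico (0 : ℝ) 1, ∫ y, cv m T (s y) ∂ν ≤ B) {l : ℕ} (hl : l < m) :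
    Integrable (fun y => sg l (s y)) ν := by
  rcases Nat.eq_zero_or_pos l with h0 | hl0
  · subst h0
    simp only [sg, pow_zero, inv_one]
    exact integrable_const _
  set ρ : ℝ := √(1 / 2) ^ (m - l) with hρ
  have hρ0 : 0 ≤ ρ := by positivity
  have hρ1 : ρ < 1 := by
    have h1 : √(1 / 2 : ℝ) < 1 := by
      rw [Real.sqrt_lt' one_pos]
      norm_num
    exact pow_lt_one₀ (Real.sqrt_nonneg _) h1 (by omega)
  have hcm : ∀ k, Measurable (fun y => cv m (Tk k) (s y)) := fun k => (measurable_cv m _).comp hs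
  have hci : ∀ k, Integrable (fun y => cv m (Tk k) (s y)) ν := by
    intro k
    unfold cv
    exact (integrable_ker1 (μ := ν) hs bs (Tk_mem k) m).const_mul _
  have hB0 : 0 ≤ B := (integral_nonneg fun y => cv_nonneg ⟨le_rfl, one_pos⟩ (bs y) m).trans
    (hB 0 ⟨le_rfl, one_pos⟩)
  refine ⟨((measurable_sg l).comp hs).aestronglyMeasurable, ?_⟩
  rw [hasFiniteIntegral_iff_ofReal (Eventually.of_forall fun y => sg_nonneg l _)]
  have hpt : ∀ y, ENNReal.ofReal (sg l (s y))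
      ≤ ∑' k, ENNReal.ofReal (3 ^ m * ρ ^ k * cv m (Tk k) (s y)) := by
    intro y
    rcases (bs y).2.lt_or_eq with h1 | h1
    · obtain ⟨k, hk⟩ := sg_le_cv hl.le (bs y).1 h1
      refine le_trans (ENNReal.ofReal_le_ofReal ?_)
        (ENNReal.le_tsum (f := fun k => ENNReal.ofReal (3 ^ m * ρ ^ k * cv m (Tk k) (s y))) k)
      rw [mul_assoc]
      exact hk
    · have : sg l (s y) = 0 := by
        unfold sg
        rw [h1, sub_self, Real.sqrt_zero, zero_pow hl0.ne', inv_zero]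
      rw [this, ENNReal.ofReal_zero]
      exact zero_le
  refine (lintegral_mono hpt).trans_lt ?_
  rw [lintegral_tsum fun k => (((hcm k).const_mul _).ennreal_ofReal).aemeasurable]
  have hk : ∀ k, ∫⁻ y, ENNReal.ofReal (3 ^ m * ρ ^ k * cv m (Tk k) (s y)) ∂ν
      ≤ ENNReal.ofReal (3 ^ m * B * ρ ^ k) := by
    intro k
    rw [← ofReal_integral_eq_lintegral_ofReal ((hci k).const_mul _)
      (Eventually.of_forall fun y => mul_nonneg (by positivity) (cv_nonneg (Tk_mem k) (bs y) m)),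
      integral_const_mul]
    apply ENNReal.ofReal_le_ofReal
    have h1 := mul_le_mul_of_nonneg_left (hB _ (Tk_mem k)) (by positivity : 0 ≤ 3 ^ m * ρ ^ k)
    linarith
  refine (ENNReal.tsum_le_tsum hk).trans_lt ?_
  have hsum : Summable fun k => 3 ^ m * B * ρ ^ k :=
    (summable_geometric_of_lt_one hρ0 hρ1).mul_left _
  rw [← ENNReal.ofReal_tsum_of_nonneg (fun k => by positivity) hsum]
  exact ENNReal.ofReal_lt_top

/-- the diagonal has measure zero -/
lemma ae_lt_one (hm : 0 < m) (hs : Measurable s) (bs : ∀ y, s y ∈ Icc (-1 : ℝ) 1) {B : ℝ}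
    (hB : ∀ T ∈ Ico (0 : ℝ) 1, ∫ y, cv m T (s y) ∂ν ≤ B) : ∀ᵐ y ∂ν, s y < 1 := by
  set D : Set Y := {y | s y = 1} with hD
  have hDm : MeasurableSet D := hs (measurableSet_singleton 1)
  have hz : ν.real D = 0 := by
    by_contra hne
    have hpos : 0 < ν.real D := lt_of_le_of_ne measureReal_nonneg (Ne.symm hne)
    have hr1 : 1 < (√2 : ℝ) ^ m := one_lt_pow₀ (by
      rw [Real.lt_sqrt zero_le_one]
      norm_num) hm.ne'
    obtain ⟨k, hk⟩ := pow_unbounded_of_one_lt (3 ^ m * B / ν.real D) hr1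
    have hci : Integrable (fun y => cv m (Tk k) (s y)) ν := by
      unfold cv
      exact (integrable_ker1 (μ := ν) hs bs (Tk_mem k) m).const_mul _
    have h1 : ν.real D * cv m (Tk k) 1 ≤ B := by
      refine le_trans ?_ (hB _ (Tk_mem k))
      calc ν.real D * cv m (Tk k) 1 = ∫ y in D, cv m (Tk k) 1 ∂ν := by
            rw [setIntegral_const, smul_eq_mul]
        _ = ∫ y in D, cv m (Tk k) (s y) ∂ν := by
            refine setIntegral_congr_fun hDm fun y hy => ?_
            rw [show s y = 1 from hy]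
        _ ≤ ∫ y, cv m (Tk k) (s y) ∂ν :=
            setIntegral_le_integral hci
              (Eventually.of_forall fun y => cv_nonneg (Tk_mem k) (bs y) m)
    have h2 := cv_Tk_ge (m := m) (k := k) (s := 1) le_rfl (by
      have := half_pow_pos k
      linarith)
    set a : ℝ := (1 / 2) ^ k with ha
    have hsq : (√2 ^ m) ^ k * √a ^ m = 1 := by
      rw [← pow_mul, mul_comm m k, pow_mul, ← mul_pow]
      have : √2 ^ k * √a = 1 := by
        rw [show (√2 : ℝ) ^ k = √(2 ^ k) by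
          rw [Real.sqrt_eq_rpow, Real.sqrt_eq_rpow, ← Real.rpow_natCast,
            ← Real.rpow_mul (by norm_num), ← Real.rpow_natCast, ← Real.rpow_mul (by norm_num),
            mul_comm],
          ← Real.sqrt_mul (by positivity), ha, ← mul_pow]
        norm_num
      rw [this, one_pow]
    have h3 : (√2 ^ m) ^ k ≤ 3 ^ m * cv m (Tk k) 1 := by
      have h4 := mul_le_mul_of_nonneg_left h2 (by positivity : (0 : ℝ) ≤ (√2 ^ m) ^ k)
      calc (√2 ^ m) ^ k = (√2 ^ m) ^ k * 1 := (mul_one _).symm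
        _ ≤ _ := h4
        _ = ((√2 ^ m) ^ k * √a ^ m) * (3 ^ m * cv m (Tk k) 1) := by ring
        _ = _ := by rw [hsq, one_mul]
    rw [div_lt_iff₀ hpos] at hk
    have h5 := mul_le_mul_of_nonneg_right h3 hpos.le
    have h6 := mul_le_mul_of_nonneg_left h1 (by positivity : (0 : ℝ) ≤ 3 ^ m)
    linarith
  have hz2 : ν D = 0 := by
    rwa [measureReal_def, ENNReal.toReal_eq_zero_iff, or_iff_left (measure_ne_top _ _)] at hz
  rw [ae_iff]
  convert hz2 using 2
  ext y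
  simp only [hD, Set.mem_ofPred_eq, not_lt]
  exact ⟨fun h => le_antisymm (bs y).2 h, fun h => h.ge⟩

end

end Vale.Agent.P224.UE
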