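import Vale.Agent.P224.UE.Sing1

/-!
The rows with singular profiles at the diagonal.
-/

namespace Vale.Agent.P224.UE

open MeasureTheory Set Filter Function
open Vale.Agent.P224.SM2 hiding ker
open scoped Topology RealInnerProductSpace ENNReal

set_option linter.unusedSectionVars false

/-- the general bound for the rows -/
lemma rowE_bound (k : Fin 6) {m s t p c n1 n2 x1 x2 E K fs ft fe B D r ρ : ℝ} (hm : 0 ≤ m)
    (hB : 1 ≤ B) (hD : 0 ≤ D) (hρ : 0 ≤ ρ)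
    (hs : |s| ≤ B) (ht : |t| ≤ B) (hp : |p| ≤ B) (hc : |c| ≤ B) (hn : |n1| ≤ B) (hx : |x1| ≤ B)
    (hA1 : |1 - s ^ 2 - p ^ 2| ≤ B * r) (hA2 : |-(s * t) - p * c| ≤ B * r)
    (hA3 : |x2 - s * x1 - p * n1| ≤ B * r) (hD2 : |1 - t ^ 2 - c ^ 2| ≤ B * r)
    (hD3 : |n2 - t * x1 - c * n1| ≤ B * r) (hG : |E - x1 ^ 2 - n1 ^ 2| ≤ B)
    (hA3' : |x2 - s * x1 - p * n1| ≤ B) (hD3' : |n2 - t * x1 - c * n1| ≤ B)
    (hK : |K| ≤ D * ρ) (hfe : |fe| ≤ D * ρ) (hfs : |fs| * r ≤ D * ρ) (hft : |ft| * r ≤ D * ρ) :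
    |rowE k m s t p c n1 n2 x1 x2 E K fs ft fe| ≤ (6 + 2 * m) * B ^ 2 * (D * ρ) := by
  have hB0 : 0 ≤ B := zero_le_one.trans hB
  have hDρ : 0 ≤ D * ρ := mul_nonneg hD hρ
  have hBB : B ≤ B ^ 2 := by nlinarith
  have P1 : ∀ {f A : ℝ}, |f| * r ≤ D * ρ → |A| ≤ B * r → |f * A| ≤ B * (D * ρ) := by
    intro f A h1 h2
    rw [abs_mul]
    calc |f| * |A| ≤ |f| * (B * r) := mul_le_mul_of_nonneg_left h2 (abs_nonneg _)
      _ = B * (|f| * r) := by ring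
      _ ≤ B * (D * ρ) := mul_le_mul_of_nonneg_left h1 hB0
  have P2 : ∀ {f A : ℝ}, |f| ≤ D * ρ → |A| ≤ B → |f * A| ≤ B * (D * ρ) := by
    intro f A h1 h2
    rw [abs_mul]
    calc |f| * |A| ≤ (D * ρ) * B := mul_le_mul h1 h2 (abs_nonneg _) hDρ
      _ = B * (D * ρ) := by ring
  have P3 : ∀ {a X : ℝ}, |a| ≤ B → |X| ≤ 3 * (B * (D * ρ)) → |a * X| ≤ 3 * (B ^ 2 * (D * ρ)) := by
    intro a X h1 h2
    rw [abs_mul]
    calc |a| * |X| ≤ B * (3 * (B * (D * ρ))) := mul_le_mul h1 h2 (abs_nonneg _) hB0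
      _ = _ := by ring
  have S3 : ∀ {X Y Z : ℝ}, |X| ≤ B * (D * ρ) → |Y| ≤ B * (D * ρ) → |Z| ≤ B * (D * ρ) →
      |X + Y + Z| ≤ 3 * (B * (D * ρ)) := by
    intro X Y Z h1 h2 h3
    have := abs_add_three X Y Z
    linarith
  have M1 : ∀ {a : ℝ}, |a| ≤ B → |m * a * K| ≤ m * (B * (D * ρ)) := by
    intro a h1
    rw [abs_mul, abs_mul, abs_of_nonneg hm]
    calc m * |a| * |K| = m * (|a| * |K|) := by ring
      _ ≤ m * (B * (D * ρ)) :=
        mul_le_mul_of_nonneg_left (mul_le_mul h1 hK (abs_nonneg _) hB0) hm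
  have M2 : ∀ {a b c d : ℝ}, |a| ≤ B → |b| ≤ B → |c| ≤ B → |d| ≤ B →
      |m * (a * b - c * d) * K| ≤ 2 * (m * (B ^ 2 * (D * ρ))) := by
    intro a b c d h1 h2 h3 h4
    have h5 : |a * b - c * d| ≤ 2 * B ^ 2 := by
      have e1 := abs_sub (a * b) (c * d)
      have e2 : |a * b| ≤ B * B := by
        rw [abs_mul]
        exact mul_le_mul h1 h2 (abs_nonneg _) hB0
      have e3 : |c * d| ≤ B * B := by
        rw [abs_mul]
        exact mul_le_mul h3 h4 (abs_nonneg _) hB0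
      linarith
    rw [abs_mul, abs_mul, abs_of_nonneg hm]
    calc m * |a * b - c * d| * |K| = m * (|a * b - c * d| * |K|) := by ring
      _ ≤ m * (2 * B ^ 2 * (D * ρ)) :=
        mul_le_mul_of_nonneg_left (mul_le_mul h5 hK (abs_nonneg _) (by positivity)) hm
      _ = _ := by ring
  have hfin1 : 3 * (B * (D * ρ)) + m * (B * (D * ρ)) ≤ (6 + 2 * m) * B ^ 2 * (D * ρ) := by
    have h1 : B * (D * ρ) ≤ B ^ 2 * (D * ρ) := mul_le_mul_of_nonneg_right hBB hDρ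
    have h2 := mul_le_mul_of_nonneg_left h1 hm
    have h3 : 0 ≤ B ^ 2 * (D * ρ) := by positivity
    have h4 := mul_nonneg hm h3
    linarith
  have T1 := S3 (P1 hfs hA1) (P1 hft hA2) (P2 hfe hA3')
  have T2 := S3 (P1 hfs hA2) (P1 hft hD2) (P2 hfe hD3')
  have T3 := S3 (P1 hfs hA3) (P1 hft hD3) (P2 hfe hG)
  fin_cases k
  · have h1 := abs_sub (fs * (1 - s ^ 2 - p ^ 2) + ft * (-(s * t) - p * c)
      + fe * (x2 - s * x1 - p * n1)) (m * s * K)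
    have h2 := M1 hs
    simp only [rowE]
    linarith
  · have h1 := abs_sub (fs * (-(s * t) - p * c) + ft * (1 - t ^ 2 - c ^ 2)
      + fe * (n2 - t * x1 - c * n1)) (m * t * K)
    have h2 := M1 ht
    simp only [rowE]
    linarith
  · have h1 := abs_sub (fs * (x2 - s * x1 - p * n1) + ft * (n2 - t * x1 - c * n1)
      + fe * (E - x1 ^ 2 - n1 ^ 2)) (m * x1 * K)
    have h2 := M1 hx
    simp only [rowE]
    linarith
  · have h1 := abs_sub (p * (fs * (-(s * t) - p * c) + ft * (1 - t ^ 2 - c ^ 2)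
      + fe * (n2 - t * x1 - c * n1)) - c * (fs * (1 - s ^ 2 - p ^ 2) + ft * (-(s * t) - p * c)
      + fe * (x2 - s * x1 - p * n1))) (m * (p * t - c * s) * K)
    have h0 := abs_sub (p * (fs * (-(s * t) - p * c) + ft * (1 - t ^ 2 - c ^ 2)
      + fe * (n2 - t * x1 - c * n1))) (c * (fs * (1 - s ^ 2 - p ^ 2) + ft * (-(s * t) - p * c)
      + fe * (x2 - s * x1 - p * n1)))
    have h2 := M2 hp ht hc hs
    have h3 := P3 hp T2
    have h4 := P3 hc T1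
    simp only [rowE]
    linarith
  · have h1 := abs_sub (p * (fs * (x2 - s * x1 - p * n1) + ft * (n2 - t * x1 - c * n1)
      + fe * (E - x1 ^ 2 - n1 ^ 2)) - n1 * (fs * (1 - s ^ 2 - p ^ 2) + ft * (-(s * t) - p * c)
      + fe * (x2 - s * x1 - p * n1))) (m * (p * x1 - n1 * s) * K)
    have h0 := abs_sub (p * (fs * (x2 - s * x1 - p * n1) + ft * (n2 - t * x1 - c * n1)
      + fe * (E - x1 ^ 2 - n1 ^ 2))) (n1 * (fs * (1 - s ^ 2 - p ^ 2) + ft * (-(s * t) - p * c)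
      + fe * (x2 - s * x1 - p * n1)))
    have h2 := M2 hp hx hn hs
    have h3 := P3 hp T3
    have h4 := P3 hn T1
    simp only [rowE]
    linarith
  · have h1 := abs_sub (c * (fs * (x2 - s * x1 - p * n1) + ft * (n2 - t * x1 - c * n1)
      + fe * (E - x1 ^ 2 - n1 ^ 2)) - n1 * (fs * (-(s * t) - p * c) + ft * (1 - t ^ 2 - c ^ 2)
      + fe * (n2 - t * x1 - c * n1))) (m * (c * x1 - n1 * t) * K)
    have h0 := abs_sub (c * (fs * (x2 - s * x1 - p * n1) + ft * (n2 - t * x1 - c * n1)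
      + fe * (E - x1 ^ 2 - n1 ^ 2))) (n1 * (fs * (-(s * t) - p * c) + ft * (1 - t ^ 2 - c ^ 2)
      + fe * (n2 - t * x1 - c * n1)))
    have h2 := M2 hc hx hn ht
    have h3 := P3 hc T3
    have h4 := P3 hn T2
    simp only [rowE]
    linarith

lemma rpow_key {a b l : ℕ} {r : ℝ} (hr0 : 0 < r) (hr2 : r ≤ 2) (h : b ≤ a + l) :
    r ^ a * (r ^ b)⁻¹ ≤ 2 ^ (a + l) * (r ^ l)⁻¹ := by
  rw [← div_eq_mul_inv, ← div_eq_mul_inv, div_le_div_iff₀ (by positivity) (by positivity)]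
  have e1 : r ^ a * r ^ l = r ^ (a + l - b) * r ^ b := by
    rw [← pow_add, ← pow_add, Nat.sub_add_cancel h]
  rw [e1]
  refine mul_le_mul_of_nonneg_right ?_ (by positivity)
  calc r ^ (a + l - b) ≤ 2 ^ (a + l - b) := pow_le_pow_left₀ hr0.le hr2 _
    _ ≤ 2 ^ (a + l) := pow_le_pow_right₀ (by norm_num) (Nat.sub_le _ _)

/-- pair data with quadratic contact -/
structure CB (B : ℝ) (d : R9) : Prop where
  s1 : d 0 < 1
  s0 : -1 ≤ d 0
  b : ∀ i, |d i| ≤ B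
  t : |d 1| ≤ B * (1 - d 0)
  p : |d 2| ≤ B * (1 - d 0)
  A1 : |1 - d 0 ^ 2 - d 2 ^ 2| ≤ B * (1 - d 0)
  A2 : |-(d 0 * d 1) - d 2 * d 3| ≤ B * (1 - d 0)
  A3 : |d 7 - d 0 * d 6 - d 2 * d 4| ≤ B * √(1 - d 0)
  A4 : |d 7 - d 0 * d 6| ≤ B * √(1 - d 0)
  D2 : |1 - d 1 ^ 2 - d 3 ^ 2| ≤ B * (1 - d 0)
  D3 : |d 5 - d 1 * d 6 - d 3 * d 4| ≤ B * √(1 - d 0)
  G : |d 8 - d 6 ^ 2 - d 4 ^ 2| ≤ B

lemma ker_le_r {T s r : ℝ} (hT0 : 0 ≤ T) (hT1 : T ≤ 1) (hr0 : 0 < r) (hs0 : -1 ≤ s)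
    (hrs : r ^ 2 = 1 - s) (q : ℕ) : |SM2.ker T q s| ≤ 2 ^ q * (r ^ (2 * q))⁻¹ := by
  have hv : r ^ 2 / 2 ≤ 1 - T * s := by
    by_cases hs : 0 ≤ s
    · nlinarith [mul_nonneg (sub_nonneg.2 hT1) hs, sq_nonneg r]
    · push Not at hs
      nlinarith [mul_nonneg hT0 (neg_nonneg.2 hs.le)]
  have hv0 : 0 < r ^ 2 / 2 := by positivity
  unfold SM2.ker
  rw [abs_of_nonneg (inv_nonneg.2 (pow_nonneg (hv0.le.trans hv) q))]
  calc ((1 - T * s) ^ q)⁻¹ ≤ ((r ^ 2 / 2) ^ q)⁻¹ :=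
        inv_anti₀ (pow_pos hv0 q) (pow_le_pow_left₀ hv0.le hv q)
    _ = 2 ^ q * (r ^ (2 * q))⁻¹ := by
        rw [div_pow, ← pow_mul, inv_div, div_eq_mul_inv]

/-- the rows are dominated by a power of the distance to the diagonal -/
theorem rG_dom (k : Fin 6) {m : ℝ} (hm : 0 ≤ m) {q i j l : ℕ} (h : 2 * q + 1 ≤ 2 * i + l) {B : ℝ}
    (hB : 1 ≤ B) : ∃ D, 0 ≤ D ∧ ∀ (φ φ' : ℝ → ℝ) (Φ : ℝ), 0 ≤ Φ → ∀ d : R9, CB B d →
      |φ (d 0)| ≤ Φ * (√(1 - d 0) ^ (2 * q))⁻¹ →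
      |φ' (d 0)| ≤ Φ * (√(1 - d 0) ^ (2 * (q + 1)))⁻¹ →
      |rG k m φ φ' i j d| ≤ D * Φ * sg l (d 0) := by
  have hB0 : 0 ≤ B := zero_le_one.trans hB
  set D1 : ℝ := B ^ j * (B ^ i * 2 ^ (2 * i + l)) with hD1
  set D2 : ℝ := B ^ j * (B ^ i * 2 ^ (2 * i + 1 + l)) with hD2
  set D3 : ℝ := B ^ j * (i * B ^ (i - 1) * 2 ^ (2 * (i - 1) + 1 + l)) with hD3
  set D4 : ℝ := j * B ^ (j - 1) * (B ^ i * 2 ^ (2 * i + l)) with hD4
  have p1 : 0 ≤ D1 := by positivity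
  have p2 : 0 ≤ D2 := by positivity
  have p3 : 0 ≤ D3 := by positivity
  have p4 : 0 ≤ D4 := by positivity
  refine ⟨(6 + 2 * m) * (2 * B) ^ 2 * (D1 + D2 + D3 + D4), by positivity, ?_⟩
  intro φ φ' Φ hΦ d hd hφ hφ'
  set r := √(1 - d 0) with hr
  have hr0 : 0 < r := Real.sqrt_pos.2 (by linarith [hd.s1])
  have hrs : r ^ 2 = 1 - d 0 := Real.sq_sqrt (by linarith [hd.s1])
  have hr2 : r ≤ 2 := by
    rw [hr, Real.sqrt_le_left (by norm_num)]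
    linarith [hd.s0]
  have hsg : sg l (d 0) = (r ^ l)⁻¹ := rfl
  have hρ : 0 ≤ (r ^ l)⁻¹ := by positivity
  have hti : ∀ i, |d 1 ^ i| ≤ B ^ i * r ^ (2 * i) := by
    intro i
    rw [abs_pow, pow_mul, ← mul_pow]
    refine pow_le_pow_left₀ (abs_nonneg _) ?_ i
    rw [hrs]
    exact hd.t
  have hxj : ∀ j, |d 6 ^ j| ≤ B ^ j := by
    intro j
    rw [abs_pow]
    exact pow_le_pow_left₀ (abs_nonneg _) (hd.b 6) j
  have hr2r : r ^ 2 ≤ 2 * r := by nlinarith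
  have hsq : ∀ {X : ℝ}, |X| ≤ B * (1 - d 0) → |X| ≤ 2 * B * r := by
    intro X hX
    rw [← hrs] at hX
    have := mul_le_mul_of_nonneg_left hr2r hB0
    linarith
  have hlr : ∀ {X : ℝ}, |X| ≤ B * r → |X| ≤ 2 * B * r := by
    intro X hX
    have : 0 ≤ B * r := by positivity
    linarith
  have hlr' : ∀ {X : ℝ}, |X| ≤ B * r → |X| ≤ 2 * B := by
    intro X hX
    have := mul_le_mul_of_nonneg_left hr2 hB0
    linarith
  have hb2 : ∀ i, |d i| ≤ 2 * B := fun i => (hd.b i).trans (by linarith)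
  have hΦl : 0 ≤ Φ * (r ^ l)⁻¹ := mul_nonneg hΦ hρ
  have e0 : (6 + 2 * m) * (2 * B) ^ 2 * (D1 + D2 + D3 + D4) * Φ * sg l (d 0)
      = (6 + 2 * m) * (2 * B) ^ 2 * ((D1 + D2 + D3 + D4) * (Φ * (r ^ l)⁻¹)) := by
    rw [hsg]
    ring
  rw [e0]
  refine rowE_bound k hm (by linarith) (by positivity) hΦl (r := r) (hb2 0) (hb2 1) (hb2 2)
    (hb2 3) (hb2 4) (hb2 6) (hsq hd.A1) (hsq hd.A2) (hlr hd.A3) (hsq hd.D2) (hlr hd.D3)
    (hd.G.trans (by linarith)) (hlr' hd.A3) (hlr' hd.D3) ?_ ?_ ?_ ?_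
  · -- K
    have h1 : |d 6 ^ j * (d 1 ^ i * φ (d 0))| ≤ D1 * (Φ * (r ^ l)⁻¹) := by
      rw [abs_mul, abs_mul]
      calc |d 6 ^ j| * (|d 1 ^ i| * |φ (d 0)|)
          ≤ B ^ j * ((B ^ i * r ^ (2 * i)) * (Φ * (r ^ (2 * q))⁻¹)) := by
            have := hxj j
            have := hti i
            gcongr
        _ = B ^ j * (B ^ i * Φ) * (r ^ (2 * i) * (r ^ (2 * q))⁻¹) := by ring
        _ ≤ B ^ j * (B ^ i * Φ) * (2 ^ (2 * i + l) * (r ^ l)⁻¹) := by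
            have := rpow_key (a := 2 * i) (b := 2 * q) (l := l) hr0 hr2 (by omega)
            gcongr
        _ = D1 * (Φ * (r ^ l)⁻¹) := by rw [hD1]; ring
    refine h1.trans (mul_le_mul_of_nonneg_right (by linarith) hΦl)
  · -- fe
    have h1 : |j * d 6 ^ (j - 1) * (d 1 ^ i * φ (d 0))| ≤ D4 * (Φ * (r ^ l)⁻¹) := by
      rw [abs_mul, abs_mul, abs_mul, Nat.abs_cast]
      calc j * |d 6 ^ (j - 1)| * (|d 1 ^ i| * |φ (d 0)|)
          ≤ j * B ^ (j - 1) * ((B ^ i * r ^ (2 * i)) * (Φ * (r ^ (2 * q))⁻¹)) := by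
            have := hxj (j - 1)
            have := hti i
            gcongr
        _ = j * B ^ (j - 1) * (B ^ i * Φ) * (r ^ (2 * i) * (r ^ (2 * q))⁻¹) := by ring
        _ ≤ j * B ^ (j - 1) * (B ^ i * Φ) * (2 ^ (2 * i + l) * (r ^ l)⁻¹) := by
            have := rpow_key (a := 2 * i) (b := 2 * q) (l := l) hr0 hr2 (by omega)
            gcongr
        _ = D4 * (Φ * (r ^ l)⁻¹) := by rw [hD4]; ring
    refine h1.trans (mul_le_mul_of_nonneg_right (by linarith) hΦl)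
  · -- fs
    have h1 : |d 6 ^ j * (d 1 ^ i * φ' (d 0))| * r ≤ D2 * (Φ * (r ^ l)⁻¹) := by
      rw [abs_mul, abs_mul]
      calc |d 6 ^ j| * (|d 1 ^ i| * |φ' (d 0)|) * r
          ≤ B ^ j * ((B ^ i * r ^ (2 * i)) * (Φ * (r ^ (2 * (q + 1)))⁻¹)) * r := by
            have := hxj j
            have := hti i
            gcongr
        _ = B ^ j * (B ^ i * Φ) * (r ^ (2 * i + 1) * (r ^ (2 * (q + 1)))⁻¹) := by
            rw [pow_succ r (2 * i)]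
            ring
        _ ≤ B ^ j * (B ^ i * Φ) * (2 ^ (2 * i + 1 + l) * (r ^ l)⁻¹) := by
            have := rpow_key (a := 2 * i + 1) (b := 2 * (q + 1)) (l := l) hr0 hr2 (by omega)
            gcongr
        _ = D2 * (Φ * (r ^ l)⁻¹) := by rw [hD2]; ring
    refine h1.trans (mul_le_mul_of_nonneg_right (by linarith) hΦl)
  · -- ft
    have h1 : |d 6 ^ j * (i * d 1 ^ (i - 1) * φ (d 0))| * r ≤ D3 * (Φ * (r ^ l)⁻¹) := by
      rcases Nat.eq_zero_or_pos i with hi | hi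
      · subst hi
        rw [hD3]
        simp
      rw [abs_mul, abs_mul, abs_mul, Nat.abs_cast]
      calc |d 6 ^ j| * (i * |d 1 ^ (i - 1)| * |φ (d 0)|) * r
          ≤ B ^ j * (i * (B ^ (i - 1) * r ^ (2 * (i - 1))) * (Φ * (r ^ (2 * q))⁻¹)) * r := by
            have := hxj j
            have := hti (i - 1)
            gcongr
        _ = B ^ j * (i * B ^ (i - 1) * Φ) * (r ^ (2 * (i - 1) + 1) * (r ^ (2 * q))⁻¹) := by
            rw [pow_succ r (2 * (i - 1))]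
            ring
        _ ≤ B ^ j * (i * B ^ (i - 1) * Φ) * (2 ^ (2 * (i - 1) + 1 + l) * (r ^ l)⁻¹) := by
            have := rpow_key (a := 2 * (i - 1) + 1) (b := 2 * q) (l := l) hr0 hr2 (by omega)
            gcongr
        _ = D3 * (Φ * (r ^ l)⁻¹) := by rw [hD3]; ring
    refine h1.trans (mul_le_mul_of_nonneg_right (by linarith) hΦl)

lemma sk_bound {T : ℝ} (hT : T ∈ Icc (0 : ℝ) 1) (a q : ℕ) {s : ℝ} (hs0 : -1 ≤ s) (hs1 : s < 1) :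
    |sk T a q s| ≤ ((a + 1) * 4 * 2 ^ (q + 1) * (q + 1)) * (√(1 - s) ^ (2 * q))⁻¹ ∧
    |sk' T a q s| ≤ ((a + 1) * 4 * 2 ^ (q + 1) * (q + 1)) * (√(1 - s) ^ (2 * (q + 1)))⁻¹ := by
  set r := √(1 - s) with hr
  have hr0 : 0 < r := Real.sqrt_pos.2 (by linarith)
  have hrs : r ^ 2 = 1 - s := Real.sq_sqrt (by linarith)
  have hsa : ∀ a, |s ^ a| ≤ 1 := by
    intro a
    rw [abs_pow]
    exact pow_le_one₀ (abs_nonneg _) (abs_le.2 ⟨hs0, hs1.le⟩)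
  have h1 := ker_le_r hT.1 hT.2 hr0 hs0 hrs q
  have h2 := ker_le_r hT.1 hT.2 hr0 hs0 hrs (q + 1)
  have hq0 : (0 : ℝ) ≤ q := Nat.cast_nonneg q
  have ha0 : (0 : ℝ) ≤ a := Nat.cast_nonneg a
  have hi1 : 0 ≤ (r ^ (2 * q))⁻¹ := by positivity
  have hi2 : 0 ≤ (r ^ (2 * (q + 1)))⁻¹ := by positivity
  have h3 : (r ^ (2 * q))⁻¹ ≤ 4 * (r ^ (2 * (q + 1)))⁻¹ := by
    have e1 : (r ^ (2 * q))⁻¹ = r ^ 2 * (r ^ (2 * (q + 1)))⁻¹ := by
      rw [mul_add, mul_one, pow_add]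
      field_simp
    rw [e1]
    exact mul_le_mul_of_nonneg_right (by linarith) hi2
  have h2q : (1 : ℝ) ≤ 2 ^ q := one_le_pow₀ (by norm_num)
  constructor
  · unfold sk
    rw [abs_mul]
    calc |s ^ a| * |SM2.ker T q s| ≤ 1 * (2 ^ q * (r ^ (2 * q))⁻¹) :=
          mul_le_mul (hsa a) h1 (abs_nonneg _) zero_le_one
      _ = 2 ^ q * (r ^ (2 * q))⁻¹ := one_mul _
      _ ≤ ((a + 1) * 4 * 2 ^ (q + 1) * (q + 1)) * (r ^ (2 * q))⁻¹ := by
          refine mul_le_mul_of_nonneg_right ?_ hi1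
          rw [pow_succ]
          have : (0 : ℝ) ≤ a * q := mul_nonneg ha0 hq0
          nlinarith
  · unfold sk'
    have e1 : |a * s ^ (a - 1) * SM2.ker T q s| ≤ a * 2 ^ q * (4 * (r ^ (2 * (q + 1)))⁻¹) := by
      rw [abs_mul, abs_mul, Nat.abs_cast]
      calc a * |s ^ (a - 1)| * |SM2.ker T q s| ≤ a * 1 * (2 ^ q * (r ^ (2 * q))⁻¹) := by
            have := hsa (a - 1)
            gcongr
        _ = a * 2 ^ q * (r ^ (2 * q))⁻¹ := by ring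
        _ ≤ _ := by gcongr
    have e2 : |s ^ a * (q * T * SM2.ker T (q + 1) s)|
        ≤ q * (2 ^ (q + 1) * (r ^ (2 * (q + 1)))⁻¹) := by
      rw [abs_mul, abs_mul, abs_mul, Nat.abs_cast, abs_of_nonneg hT.1]
      calc |s ^ a| * (q * T * |SM2.ker T (q + 1) s|)
          ≤ 1 * (q * 1 * (2 ^ (q + 1) * (r ^ (2 * (q + 1)))⁻¹)) := by
            have := hsa a
            have := hT.1
            have := hT.2
            gcongr
        _ = _ := by ring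
    have e3 := abs_add_le (a * s ^ (a - 1) * SM2.ker T q s) (s ^ a * (q * T * SM2.ker T (q + 1) s))
    refine e3.trans ((add_le_add e1 e2).trans ?_)
    have e4 : a * 2 ^ q * (4 * (r ^ (2 * (q + 1)))⁻¹) + q * (2 ^ (q + 1) * (r ^ (2 * (q + 1)))⁻¹)
        = (a * 2 ^ q * 4 + q * 2 ^ (q + 1)) * (r ^ (2 * (q + 1)))⁻¹ := by ring
    rw [e4]
    refine mul_le_mul_of_nonneg_right ?_ hi2
    rw [pow_succ]
    have : (0 : ℝ) ≤ a * q := mul_nonneg ha0 hq0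
    nlinarith

end Vale.Agent.P224.UE
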