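import Vale.Agent.P224.UE.Sing2

/-!
Null rows with singular profiles.
-/

namespace Vale.Agent.P224.UE

open MeasureTheory Set Filter Function
open Vale.Agent.P224.SM2 hiding ker
open scoped Topology RealInnerProductSpace ENNReal

set_option linter.unusedSectionVars false

/-- quadratic contact at the diagonal -/
def Contact {X E : Type*} [NormedAddCommGroup E] [InnerProductSpace ℝ E] (p n : X → E) (C : ℝ) :
    Prop :=
  ∀ x y, |⟪n x, p y⟫| ≤ C * (1 - ⟪p x, p y⟫) ∧ ‖n x - n y‖ ^ 2 ≤ C * (1 - ⟪p x, p y⟫)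

section

variable {E : Type*} [NormedAddCommGroup E] [InnerProductSpace ℝ E]

/-- the bound of the pair data with contact constant `C` -/
noncomputable def bC (C : ℝ) (e : E) : ℝ := 6 * C * (1 + ‖e‖ + ‖e‖ ^ 2)

end

lemma cb_real {s t p c n1 n2 x1 x2 Ee C B r : ℝ} (hE0 : 0 ≤ Ee) (hC : 1 ≤ C)
    (hBv : B = 6 * C * (1 + Ee + Ee ^ 2)) (hs : s < 1)
    (as : |s| ≤ 1) (at' : |t| ≤ 1) (ap : |p| ≤ 1) (ac : |c| ≤ 1) (an1 : |n1| ≤ Ee)
    (an2 : |n2| ≤ Ee) (ax1 : |x1| ≤ Ee) (ax2 : |x2| ≤ Ee) (hrs : r ^ 2 = 1 - s) (hr0 : 0 < r)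
    (hr : r = √(1 - s)) (hd1 : |x2 - x1| ≤ 2 * r * Ee) (hd2 : |n2 - n1| ≤ C * r * Ee)
    (hp : |p| ≤ C * r ^ 2) (ht : |t| ≤ C * r ^ 2) (hc : 1 - c ≤ C * r ^ 2) :
    CB B ![s, t, p, c, n1, n2, x1, x2, Ee ^ 2] := by
  have hs0 : -1 ≤ s := (abs_le.1 as).1
  have hr2 : r ≤ 2 := by
    rw [hr, Real.sqrt_le_left (by norm_num)]
    linarith
  have hr2r : r ^ 2 ≤ 2 * r := by
    have := mul_le_mul_of_nonneg_right hr2 hr0.le
    linarith [sq r]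
  have hBv' : B = 6 * C + 6 * (C * Ee) + 6 * (C * Ee ^ 2) := by
    rw [hBv]
    ring
  have hC0 : 0 ≤ C := zero_le_one.trans hC
  have hCE : Ee ≤ C * Ee := le_mul_of_one_le_left hE0 hC
  have hCE2 : Ee ^ 2 ≤ C * Ee ^ 2 := le_mul_of_one_le_left (sq_nonneg Ee) hC
  have hCE0 : 0 ≤ C * Ee := by positivity
  have hCE20 : 0 ≤ C * Ee ^ 2 := by positivity
  have hB1 : 1 ≤ B := by rw [hBv']; linarith
  have hCB : 6 * C ≤ B := by rw [hBv']; linarith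
  have hCEB : 6 * (C * Ee) ≤ B := by rw [hBv']; linarith
  have hC2B : Ee ^ 2 * 6 ≤ B := by rw [hBv']; linarith
  have hr20 : 0 ≤ r ^ 2 := sq_nonneg r
  have hc0 : 0 ≤ 1 - c := by linarith [(abs_le.1 ac).2]
  have hA4 : |x2 - s * x1| ≤ 4 * Ee * r := by
    have h1 : x2 - s * x1 = (x2 - x1) + r ^ 2 * x1 := by rw [hrs]; ring
    rw [h1]
    have h2 := abs_add_le (x2 - x1) (r ^ 2 * x1)
    have h3 : |r ^ 2 * x1| ≤ 2 * r * Ee := by
      rw [abs_mul, abs_of_nonneg hr20]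
      exact mul_le_mul hr2r ax1 (abs_nonneg _) (by positivity)
    linarith
  have hpn : |p * n1| ≤ 2 * C * Ee * r := by
    rw [abs_mul]
    calc |p| * |n1| ≤ (C * r ^ 2) * Ee := mul_le_mul hp an1 (abs_nonneg _) (by positivity)
      _ ≤ (C * (2 * r)) * Ee := by gcongr
      _ = _ := by ring
  have hBr : B * (1 - s) = B * r ^ 2 := by rw [hrs]
  have hCB' : ∀ {u v : ℝ}, u ≤ 6 * C → 0 ≤ v → u * v ≤ B * v := fun h1 h2 =>
    mul_le_mul_of_nonneg_right (h1.trans hCB) h2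
  have t2 : t ^ 2 ≤ C * r ^ 2 := by
    calc t ^ 2 = |t| * |t| := by rw [← sq, sq_abs]
      _ ≤ 1 * (C * r ^ 2) := mul_le_mul at' ht (abs_nonneg _) zero_le_one
      _ = _ := one_mul _
  have p2 : p ^ 2 ≤ C * r ^ 2 := by
    calc p ^ 2 = |p| * |p| := by rw [← sq, sq_abs]
      _ ≤ 1 * (C * r ^ 2) := mul_le_mul ap hp (abs_nonneg _) zero_le_one
      _ = _ := one_mul _
  have hCr : 0 ≤ C * r ^ 2 := by positivity
  have hCEr : 0 ≤ C * Ee * r := by positivity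
  have hEr : Ee * r ≤ C * Ee * r := mul_le_mul_of_nonneg_right hCE hr0.le
  have hBEr : 6 * (C * Ee) * r ≤ B * r := mul_le_mul_of_nonneg_right hCEB hr0.le
  refine ⟨hs, hs0, ?_, ?_, ?_, ?_, ?_, ?_, ?_, ?_, ?_, ?_⟩
  · intro i
    fin_cases i
    · exact as.trans hB1
    · exact at'.trans hB1
    · exact ap.trans hB1
    · exact ac.trans hB1
    · exact an1.trans (by linarith)
    · exact an2.trans (by linarith)
    · exact ax1.trans (by linarith)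
    · exact ax2.trans (by linarith)
    · change |Ee ^ 2| ≤ B
      rw [abs_of_nonneg (sq_nonneg _)]
      linarith [sq_nonneg Ee]
  · change |t| ≤ B * (1 - s)
    rw [hBr]
    exact ht.trans (hCB' (by linarith) hr20)
  · change |p| ≤ B * (1 - s)
    rw [hBr]
    exact hp.trans (hCB' (by linarith) hr20)
  · change |1 - s ^ 2 - p ^ 2| ≤ B * (1 - s)
    rw [hBr]
    have e1 : 1 - s ^ 2 - p ^ 2 = (1 + s) * r ^ 2 - p ^ 2 := by rw [hrs]; ring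
    have e3 : 0 ≤ (1 + s) * r ^ 2 := mul_nonneg (by linarith) hr20
    have e4 : (1 + s) * r ^ 2 ≤ 2 * r ^ 2 := mul_le_mul_of_nonneg_right (by linarith) hr20
    have e5 := hCB' (u := 2 + C) (by linarith) hr20
    have e6 := sq_nonneg p
    rw [e1]
    exact abs_le.2 ⟨by linarith, by linarith⟩
  · change |-(s * t) - p * c| ≤ B * (1 - s)
    rw [hBr]
    have h1 := abs_sub (-(s * t)) (p * c)
    have h2 : |-(s * t)| ≤ C * r ^ 2 := by
      rw [abs_neg, abs_mul]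
      calc |s| * |t| ≤ 1 * (C * r ^ 2) := mul_le_mul as ht (abs_nonneg _) zero_le_one
        _ = _ := one_mul _
    have h3 : |p * c| ≤ C * r ^ 2 := by
      rw [abs_mul]
      calc |p| * |c| ≤ (C * r ^ 2) * 1 := mul_le_mul hp ac (abs_nonneg _) (by positivity)
        _ = _ := mul_one _
    have := hCB' (u := 2 * C) (by linarith) hr20
    linarith
  · change |x2 - s * x1 - p * n1| ≤ B * √(1 - s)
    rw [← hr]
    have h1 := abs_sub (x2 - s * x1) (p * n1)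
    linarith
  · change |x2 - s * x1| ≤ B * √(1 - s)
    rw [← hr]
    linarith
  · change |1 - t ^ 2 - c ^ 2| ≤ B * (1 - s)
    rw [hBr]
    have e1 : 1 - t ^ 2 - c ^ 2 = (1 - c) * (1 + c) - t ^ 2 := by ring
    have e3 : (1 - c) * (1 + c) ≤ (C * r ^ 2) * 2 :=
      mul_le_mul hc (by linarith [(abs_le.1 ac).2]) (by linarith [(abs_le.1 ac).1])
        (by positivity)
    have e4 : 0 ≤ (1 - c) * (1 + c) := mul_nonneg hc0 (by linarith [(abs_le.1 ac).1])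
    have e5 := hCB' (u := 2 * C) (by linarith) hr20
    have e6 := sq_nonneg t
    rw [e1]
    exact abs_le.2 ⟨by linarith, by linarith⟩
  · change |n2 - t * x1 - c * n1| ≤ B * √(1 - s)
    rw [← hr]
    have e1 : n2 - t * x1 - c * n1 = (n2 - n1) + ((1 - c) * n1 - t * x1) := by ring
    have h0 := abs_add_le (n2 - n1) ((1 - c) * n1 - t * x1)
    have h1 := abs_sub ((1 - c) * n1) (t * x1)
    have h2 : |(1 - c) * n1| ≤ 2 * (C * Ee * r) := by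
      rw [abs_mul, abs_of_nonneg hc0]
      calc (1 - c) * |n1| ≤ (C * r ^ 2) * Ee := mul_le_mul hc an1 (abs_nonneg _) hCr
        _ ≤ (C * (2 * r)) * Ee := by gcongr
        _ = _ := by ring
    have h3 : |t * x1| ≤ 2 * (C * Ee * r) := by
      rw [abs_mul]
      calc |t| * |x1| ≤ (C * r ^ 2) * Ee := mul_le_mul ht ax1 (abs_nonneg _) hCr
        _ ≤ (C * (2 * r)) * Ee := by gcongr
        _ = _ := by ring
    rw [e1]
    linarith
  · change |Ee ^ 2 - x1 ^ 2 - n1 ^ 2| ≤ B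
    have h1 : x1 ^ 2 ≤ Ee ^ 2 := by
      rw [← sq_abs]
      exact pow_le_pow_left₀ (abs_nonneg _) ax1 2
    have h2 : n1 ^ 2 ≤ Ee ^ 2 := by
      rw [← sq_abs]
      exact pow_le_pow_left₀ (abs_nonneg _) an1 2
    have h3 := sq_nonneg x1
    have h4 := sq_nonneg n1
    exact abs_le.2 ⟨by linarith, by linarith⟩

section

variable {E : Type*} [NormedAddCommGroup E] [InnerProductSpace ℝ E]

lemma one_le_bC {C : ℝ} (hC : 1 ≤ C) (e : E) : 1 ≤ bC C e := by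
  have h0 : 0 ≤ ‖e‖ := norm_nonneg e
  have h1 : 1 ≤ 1 + ‖e‖ + ‖e‖ ^ 2 := by linarith [sq_nonneg ‖e‖]
  have h2 : 1 * 1 ≤ (6 * C) * (1 + ‖e‖ + ‖e‖ ^ 2) :=
    mul_le_mul (by linarith) h1 zero_le_one (by linarith)
  unfold bC
  linarith

lemma cb_dv {x N y w e : E} (hx : ‖x‖ = 1) (hN : ‖N‖ = 1) (hy : ‖y‖ = 1) (hw : ‖w‖ = 1) {C : ℝ}
    (hC : 1 ≤ C) (hs : ⟪x, y⟫ < 1) (hp : |⟪N, y⟫| ≤ C * (1 - ⟪x, y⟫))
    (ht : |⟪x, w⟫| ≤ C * (1 - ⟪x, y⟫)) (hNw : ‖N - w‖ ^ 2 ≤ C * (1 - ⟪x, y⟫)) :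
    CB (bC C e) (dv x N y w e) := by
  have hEE : ⟪e, e⟫ = ‖e‖ ^ 2 := real_inner_self_eq_norm_sq e
  have u1 : ∀ a b : E, ‖a‖ = 1 → ‖b‖ = 1 → |⟪a, b⟫| ≤ 1 := by
    intro a b ha hb
    have := abs_real_inner_le_norm a b
    rwa [ha, hb, mul_one] at this
  have u2 : ∀ a : E, ‖a‖ = 1 → |⟪a, e⟫| ≤ ‖e‖ := by
    intro a ha
    have := abs_real_inner_le_norm a e
    rwa [ha, one_mul] at this
  have hr0 : 0 < √(1 - ⟪x, y⟫) := Real.sqrt_pos.2 (by linarith)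
  have hrs : √(1 - ⟪x, y⟫) ^ 2 = 1 - ⟪x, y⟫ := Real.sq_sqrt (by linarith)
  have hE0 : 0 ≤ ‖e‖ := norm_nonneg e
  have hC0 : 0 ≤ C := zero_le_one.trans hC
  have hyx : ‖y - x‖ ≤ 2 * √(1 - ⟪x, y⟫) := by
    have h1 : ‖y - x‖ ^ 2 = 2 * √(1 - ⟪x, y⟫) ^ 2 := by
      rw [norm_sub_sq_real, hx, hy, real_inner_comm, hrs]
      ring
    have h2 : ‖y - x‖ ^ 2 ≤ (2 * √(1 - ⟪x, y⟫)) ^ 2 := by
      rw [h1, mul_pow]
      have := sq_nonneg √(1 - ⟪x, y⟫)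
      linarith
    exact (pow_le_pow_iff_left₀ (norm_nonneg _) (by positivity) two_ne_zero).1 h2
  have hd1 : |⟪y, e⟫ - ⟪x, e⟫| ≤ 2 * √(1 - ⟪x, y⟫) * ‖e‖ := by
    rw [← inner_sub_left]
    exact (abs_real_inner_le_norm _ _).trans (mul_le_mul_of_nonneg_right hyx hE0)
  have hwN : ‖w - N‖ ≤ C * √(1 - ⟪x, y⟫) := by
    have h2 : ‖w - N‖ ^ 2 ≤ (C * √(1 - ⟪x, y⟫)) ^ 2 := by
      rw [norm_sub_rev, mul_pow, hrs]
      refine hNw.trans (mul_le_mul_of_nonneg_right ?_ (by linarith))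
      exact le_self_pow₀ hC two_ne_zero
    exact (pow_le_pow_iff_left₀ (norm_nonneg _) (by positivity) two_ne_zero).1 h2
  have hd2 : |⟪w, e⟫ - ⟪N, e⟫| ≤ C * √(1 - ⟪x, y⟫) * ‖e‖ := by
    rw [← inner_sub_left]
    exact (abs_real_inner_le_norm _ _).trans (mul_le_mul_of_nonneg_right hwN hE0)
  have hc1 : 1 - ⟪N, w⟫ ≤ C * √(1 - ⟪x, y⟫) ^ 2 := by
    have h1 : ‖N - w‖ ^ 2 = 2 - 2 * ⟪N, w⟫ := by
      rw [norm_sub_sq_real, hN, hw]
      ring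
    rw [h1] at hNw
    rw [hrs]
    have : 0 ≤ C * (1 - ⟪x, y⟫) := mul_nonneg hC0 (by linarith)
    linarith
  have key := cb_real (B := bC C e) hE0 hC rfl hs (u1 _ _ hx hy) (u1 _ _ hx hw) (u1 _ _ hN hy)
    (u1 _ _ hN hw) (u2 _ hN) (u2 _ hw) (u2 _ hx) (u2 _ hy) hrs hr0 rfl hd1 hd2
    (by rw [hrs]; exact hp) (by rw [hrs]; exact ht) hc1
  unfold dv
  rw [hEE]
  exact key

end

end Vale.Agent.P224.UE
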