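import Vale.Agent.P224.UE.Sing3

/-!
Null rows with singular profiles.
-/

namespace Vale.Agent.P224.UE

open MeasureTheory Set Filter Function
open Vale.Agent.P224.SM2 hiding ker
open scoped Topology RealInnerProductSpace ENNReal

set_option linter.unusedSectionVars false

section

variable {X : Type*} [MeasurableSpace X] {E : Type*} [NormedAddCommGroup E]
  [InnerProductSpace ℝ E] [MeasurableSpace E] [BorelSpace E] [SecondCountableTopology E]
  {μ : Measure X} [IsFiniteMeasure μ] {m : ℕ} {p n : X → E}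

lemma dat0_mem (h : FV.Pts p n) (e : E) (q : X × X) : dat p n e q 0 ∈ Icc (-1 : ℝ) 1 :=
  (dat_mem h e q).2

lemma measurable_dat0 (h : FV.Pts p n) (e : E) : Measurable (fun q => dat p n e q 0) :=
  (measurable_pi_apply 0).comp (measurable_dat h e)

/-- the double integral of the conformal kernel is bounded -/
lemma TwoG.cv_le (h : TwoG μ m p n) (hm : 0 < m) (e : E) :
    ∀ T ∈ Ico (0 : ℝ) 1, ∫ q, cv m T (dat p n e q 0) ∂(μ.prod μ) ≤ μ.real univ ^ 2 := by
  intro T hT
  have hi : Integrable (fun q => cv m T (dat p n e q 0)) (μ.prod μ) := by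
    unfold cv
    exact (integrable_ker1 (μ := μ.prod μ) (measurable_dat0 h.toPts e)
      (dat0_mem h.toPts e) hT m).const_mul _
  rw [integral_prod_symm _ hi]
  have hrow := h.toTwoE.conf hm
  have h1 : ∀ z, ∫ x, cv m T (dat p n e (x, z) 0) ∂μ ≤ μ.real univ := by
    intro z
    have h2 := conf_le (μ := μ) (m := m) (s := fun x => ⟪p x, p z⟫) (q := fun x => ⟪n x, p z⟫)
      (h.mp.inner measurable_const) (h.mn.inner measurable_const)
      (fun x => by
        have := abs_real_inner_le_norm (p x) (p z)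
        rw [h.np, h.np, mul_one] at this
        exact abs_le.1 this)
      (fun x => by
        have := abs_real_inner_le_norm (n x) (p z)
        rw [h.nn, h.np, mul_one] at this
        exact abs_le.1 this) (fun T hT => hrow z T hT) hT
    have e1 : ∫ x, cv m T (dat p n e (x, z) 0) ∂μ
        = kp T ^ m * ∫ x, SM2.ker T m ⟪p x, p z⟫ ∂μ := by
      rw [← integral_const_mul]
      rfl
    rw [e1]
    exact h2
  calc ∫ z, ∫ x, cv m T (dat p n e (x, z) 0) ∂μ ∂μ ≤ ∫ _, μ.real univ ∂μ :=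
        integral_mono hi.integral_prod_right (integrable_const _) h1
    _ = μ.real univ ^ 2 := by
        rw [integral_const, smul_eq_mul]
        ring

lemma TwoG.ae_lt (h : TwoG μ m p n) (hm : 0 < m) (e : E) :
    ∀ᵐ q ∂(μ.prod μ), dat p n e q 0 < 1 :=
  ae_lt_one hm (measurable_dat0 h.toPts e) (dat0_mem h.toPts e) (h.cv_le hm e)

lemma TwoG.integrable_sg (h : TwoG μ m p n) (hm : 0 < m) (e : E) {l : ℕ} (hl : l < m) :
    Integrable (fun q => sg l (dat p n e q 0)) (μ.prod μ) :=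
  UE.integrable_sg (measurable_dat0 h.toPts e) (dat0_mem h.toPts e) (h.cv_le hm e) hl

/-- the contact bounds -/
lemma Contact.cb {C : ℝ} (hc : Contact p n C) (h : FV.Pts p n) (e : E) {q : X × X}
    (hs : dat p n e q 0 < 1) : CB (bC (max C 1) e) (dat p n e q) := by
  have h1 := hc q.1 q.2
  have h2 := hc q.2 q.1
  have hle : C ≤ max C 1 := le_max_left _ _
  have hs' : ⟪p q.1, p q.2⟫ < 1 := hs
  have hs0 : 0 ≤ 1 - ⟪p q.1, p q.2⟫ := by linarith
  have h3 := mul_le_mul_of_nonneg_right hle hs0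
  refine cb_dv (h.np _) (h.nn _) (h.np _) (h.nn _) (le_max_right _ _) hs' (h1.1.trans h3) ?_
    (h1.2.trans h3)
  rw [real_inner_comm (n q.2), real_inner_comm (p q.2)]
  rw [real_inner_comm (p q.2)] at h3
  exact h2.1.trans h3

lemma contAt_ker {s : ℝ} (hs : s < 1) (q : ℕ) : ContinuousAt (fun T => SM2.ker T q s) 1 := by
  unfold SM2.ker
  refine ContinuousAt.inv₀ (by fun_prop) ?_
  have : 0 < 1 - 1 * s := by linarith
  exact (pow_pos this q).ne'

lemma contAt_rG (k : Fin 6) (m : ℝ) (a q i j : ℕ) {d : R9} (hd : d 0 < 1) :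
    ContinuousAt (fun T => rG k m (sk T a q) (sk' T a q) i j d) 1 := by
  have h1 := contAt_ker hd q
  have h2 := contAt_ker hd (q + 1)
  unfold rG rowE sk sk'
  fin_cases k <;> simp only <;> fun_prop

lemma measurable_sk (T : ℝ) (a q : ℕ) : Measurable (sk T a q) ∧ Measurable (sk' T a q) := by
  have h1 := measurable_ker T q
  have h2 := measurable_ker T (q + 1)
  unfold sk sk'
  constructor <;> fun_prop

lemma weight_bound {w : ℝ → ℝ → ℝ} (hw : Continuous (uncurry w)) (B : ℝ) :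
    ∃ C, 0 ≤ C ∧ ∀ d ∈ KE B, |w (d 5) (d 7)| ≤ C := by
  obtain ⟨C, hC⟩ := (isCompact_KE B).exists_bound_of_continuousOn (cont_psi hw).continuousOn
  refine ⟨max C 0, le_max_right _ _, fun d hd => ?_⟩
  have := hC d hd
  rw [Real.norm_eq_abs] at this
  exact this.trans (le_max_left _ _)

/-- The rows with a profile `s ^ a (1 - s)⁻ᵠ t ^ i x1 ^ j` are null. -/
theorem TwoG.null_S (h : TwoG μ m p n) (hm : 0 < m) {C : ℝ} (hc : Contact p n C) (e : E)
    (k : Fin 6) {a q i j l : ℕ} (hl : l < m) (hq : 2 * q + 1 ≤ 2 * i + l) {w : ℝ → ℝ → ℝ}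
    (hw : Continuous (uncurry w)) :
    Null μ p n e (fun d => w (d 5) (d 7) * rG k m (sk 1 a q) (sk' 1 a q) i j d) := by
  obtain ⟨Cw, hCw0, hCw⟩ := weight_bound hw (bE e)
  have hB1 := one_le_bC (le_max_right C 1) e
  obtain ⟨D, hD0, hD⟩ := rG_dom k (m := m) (Nat.cast_nonneg m) (j := j) hq hB1
  set Φ : ℝ := (a + 1) * 4 * 2 ^ (q + 1) * (q + 1) with hΦ
  have hΦ0 : 0 ≤ Φ := by positivity
  set f : ℝ → X × X → ℝ := fun T y => w (dat p n e y 5) (dat p n e y 7)
    * rG k m (sk T a q) (sk' T a q) i j (dat p n e y) with hf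
  have hfm : ∀ T, AEStronglyMeasurable (f T) (μ.prod μ) := by
    intro T
    have h1 := measurable_rG k (m : ℝ) (measurable_sk T a q).1 (measurable_sk T a q).2 i j
    exact (((cont_psi hw).measurable.mul h1).comp (measurable_dat h.toPts e)).aestronglyMeasurable
  have hdom : ∀ T ∈ Icc (0 : ℝ) 1, ∀ᵐ y ∂(μ.prod μ),
      ‖f T y‖ ≤ Cw * (D * Φ) * sg l (dat p n e y 0) := by
    intro T hT
    filter_upwards [h.ae_lt hm e] with y hy
    have hcb := hc.cb h.toPts e hy
    have h1 := sk_bound hT a q hcb.s0 hcb.s1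
    have h2 := hD (sk T a q) (sk' T a q) Φ hΦ0 _ hcb h1.1 h1.2
    have h3 := hCw _ (dat_mem h.toPts e y)
    rw [Real.norm_eq_abs, abs_mul]
    calc _ ≤ Cw * (D * Φ * sg l (dat p n e y 0)) := mul_le_mul h3 h2 (abs_nonneg _) hCw0
      _ = _ := by ring
  have hint : Integrable (fun y => Cw * (D * Φ) * sg l (dat p n e y 0)) (μ.prod μ) :=
    (h.integrable_sg hm e hl).const_mul _
  have h01 : (1 : ℝ) ∈ Icc (0 : ℝ) 1 := ⟨zero_le_one, le_rfl⟩
  refine ⟨hint.mono' (hfm 1) (hdom 1 h01), ?_⟩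
  have h0 : ∀ᶠ T in 𝓝[<] (1 : ℝ), T ∈ Ioo (0 : ℝ) 1 := Ioo_mem_nhdsLT one_pos
  have hlim : Tendsto (fun T => ∫ y, f T y ∂(μ.prod μ)) (𝓝[<] 1) (𝓝 (∫ y, f 1 y ∂(μ.prod μ))) := by
    refine tendsto_integral_filter_of_dominated_convergence _
      (Eventually.of_forall hfm) ?_ hint ?_
    · filter_upwards [h0] with T hT
      exact hdom T ⟨hT.1.le, hT.2.le⟩
    · filter_upwards [h.ae_lt hm e] with y hy
      have h1 := (contAt_rG k (m : ℝ) a q i j hy).tendsto.mono_left
        (nhdsWithin_le_nhds (s := Iio (1 : ℝ)))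
      exact h1.const_mul _
  have hz : ∀ᶠ T in 𝓝[<] (1 : ℝ), ∫ y, f T y ∂(μ.prod μ) = 0 := by
    filter_upwards [h0] with T hT
    exact (h.null_sk e ⟨hT.1.le, hT.2⟩ a q k i j hw).2
  exact tendsto_nhds_unique (hlim.congr' hz) tendsto_const_nhds

end

end Vale.Agent.P224.UE
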