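import Vale.Agent.P224.UE.Sing4

/-!
The critical profile in dimension four.
-/

namespace Vale.Agent.P224.UE

open MeasureTheory Set Filter Function
open Vale.Agent.P224.SM2 hiding ker
open scoped Topology RealInnerProductSpace ENNReal

set_option linter.unusedSectionVars false

/-- the critical profile -/
noncomputable def cphi (T s : ℝ) : ℝ :=
  T / 3 * ((1 - T ^ 2) * SM2.ker T 3 s + SM2.ker T 2 s + SM2.ker T 1 s)

noncomputable def cphi' (T s : ℝ) : ℝ :=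
  T ^ 2 * ((1 - T ^ 2) * SM2.ker T 4 s + 2 / 3 * SM2.ker T 3 s + 1 / 3 * SM2.ker T 2 s)

lemma ker_eq {T s : ℝ} (hv : 1 - T * s ≠ 0) (q : ℕ) :
    SM2.ker T q s = SM2.ker T (q + 1) s * (1 - T * s) := by
  unfold SM2.ker
  rw [pow_succ]
  field_simp

lemma hasDerivAt_cphi {T s : ℝ} (hv : 1 - T * s ≠ 0) : HasDerivAt (cphi T) (cphi' T s) s := by
  have h1 := hasDerivAt_ker (q := 1) hv
  have h2 := hasDerivAt_ker (q := 2) hv
  have h3 := hasDerivAt_ker (q := 3) hv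
  have h := (((h3.const_mul (1 - T ^ 2)).add h2).add h1).const_mul (T / 3)
  refine h.congr_deriv ?_
  unfold cphi'
  push_cast
  ring

lemma cphi_eq {T s : ℝ} (hv : 1 - T * s ≠ 0) :
    (1 - s ^ 2) * cphi' T s - 4 * s * cphi T s = 1 - (1 - T ^ 2) ^ 2 * SM2.ker T 4 s := by
  have e1 := ker_eq hv 1
  have e2 := ker_eq hv 2
  have e3 := ker_eq hv 3
  have e0 : (1 : ℝ) = SM2.ker T 1 s * (1 - T * s) := by
    rw [← ker_eq hv 0]
    simp [SM2.ker]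
  unfold cphi cphi'
  rw [e1, e2, e3] at *
  linear_combination (-1 : ℝ) * e0

lemma conf_ker_le {T s : ℝ} (hT : T ∈ Icc (0 : ℝ) 1) (hs : s < 1) (q : ℕ) :
    0 ≤ SM2.ker T q s ∧ 0 ≤ (1 - T ^ 2) * SM2.ker T (q + 1) s ∧
      (1 - T ^ 2) * SM2.ker T (q + 1) s ≤ 2 * SM2.ker T q s := by
  have hTs : T * s ≤ T := by
    have := mul_le_mul_of_nonneg_left hs.le hT.1
    linarith
  have hv : 0 < 1 - T * s := by
    rcases hT.2.lt_or_eq with h | h
    · linarith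
    · rw [h]
      linarith
  have hk : ∀ q, 0 ≤ SM2.ker T q s := fun q => by
    unfold SM2.ker
    exact inv_nonneg.2 (pow_nonneg hv.le q)
  have hT2 : 0 ≤ 1 - T ^ 2 := by
    have := pow_le_one₀ hT.1 hT.2 (n := 2)
    linarith
  refine ⟨hk q, mul_nonneg hT2 (hk _), ?_⟩
  have h1 : 1 - T ^ 2 ≤ 2 * (1 - T * s) := by
    have h2 : 1 - T ^ 2 ≤ 2 * (1 - T) := by
      have := sq_nonneg (1 - T)
      linarith
    linarith
  calc (1 - T ^ 2) * SM2.ker T (q + 1) s ≤ (2 * (1 - T * s)) * SM2.ker T (q + 1) s :=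
        mul_le_mul_of_nonneg_right h1 (hk _)
    _ = 2 * SM2.ker T q s := by
        rw [ker_eq hv.ne' q]
        ring

lemma cphi_bound {T s : ℝ} (hT : T ∈ Icc (0 : ℝ) 1) (hs0 : -1 ≤ s) (hs : s < 1) :
    |cphi T s| ≤ 32 * (√(1 - s) ^ 4)⁻¹ ∧ |cphi' T s| ≤ 32 * (√(1 - s) ^ 6)⁻¹ := by
  set r := √(1 - s) with hr
  have hr0 : 0 < r := Real.sqrt_pos.2 (by linarith)
  have hrs : r ^ 2 = 1 - s := Real.sq_sqrt (by linarith)
  have hκ := fun q => ker_le_r hT.1 hT.2 hr0 hs0 hrs q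
  have hT0 := hT.1
  have hT1 := hT.2
  have hv : 1 - T * s ≤ 2 ∧ 0 < 1 - T * s := by
    constructor
    · have := mul_le_mul_of_nonneg_left hs0 hT.1
      linarith
    · rcases hT.2.lt_or_eq with h | h
      · have := mul_le_mul_of_nonneg_left hs.le hT.1
        linarith
      · rw [h]
        linarith
  obtain ⟨k1, -, -⟩ := conf_ker_le hT hs 1
  obtain ⟨k2, k2', k2''⟩ := conf_ker_le hT hs 2
  obtain ⟨k3, k3', k3''⟩ := conf_ker_le hT hs 3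
  have e1 : SM2.ker T 1 s ≤ 2 * SM2.ker T 2 s := by
    rw [ker_eq hv.2.ne' 1]
    have := mul_le_mul_of_nonneg_left hv.1 k2
    linarith
  have e2 : SM2.ker T 2 s ≤ 2 * SM2.ker T 3 s := by
    rw [ker_eq hv.2.ne' 2]
    have := mul_le_mul_of_nonneg_left hv.1 k3
    linarith
  have h2 := hκ 2
  have h3 := hκ 3
  rw [abs_of_nonneg k2] at h2
  rw [abs_of_nonneg k3] at h3
  norm_num at k2' k2'' k3' k3''
  constructor
  · unfold cphi
    set Q := (1 - T ^ 2) * SM2.ker T 3 s + SM2.ker T 2 s + SM2.ker T 1 s with hQ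
    have hQ0 : 0 ≤ Q := by rw [hQ]; linarith
    have hQ1 : Q ≤ 5 * SM2.ker T 2 s := by rw [hQ]; linarith
    rw [abs_of_nonneg (mul_nonneg (by linarith) hQ0)]
    have h4 : T / 3 * Q ≤ 1 / 3 * (5 * SM2.ker T 2 s) :=
      mul_le_mul (by linarith) hQ1 hQ0 (by norm_num)
    norm_num at h2
    have h5 : 0 ≤ (r ^ 4)⁻¹ := by positivity
    linarith
  · unfold cphi'
    set Q := (1 - T ^ 2) * SM2.ker T 4 s + 2 / 3 * SM2.ker T 3 s + 1 / 3 * SM2.ker T 2 s with hQ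
    have hQ0 : 0 ≤ Q := by rw [hQ]; linarith
    have hQ1 : Q ≤ 4 * SM2.ker T 3 s := by rw [hQ]; linarith
    have hTT : T ^ 2 ≤ 1 := pow_le_one₀ hT0 hT1
    rw [abs_of_nonneg (mul_nonneg (sq_nonneg T) hQ0)]
    have h4 : T ^ 2 * Q ≤ 1 * (4 * SM2.ker T 3 s) :=
      mul_le_mul hTT hQ1 hQ0 zero_le_one
    norm_num at h3
    have h5 : 0 ≤ (r ^ 6)⁻¹ := by positivity
    linarith

/-- domination at the diagonal -/
def Dom (B : ℝ) (l : ℕ) (g : ℝ → R9 → ℝ) : Prop :=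
  ∃ D, 0 ≤ D ∧ ∀ T ∈ Icc (0 : ℝ) 1, ∀ d, CB B d → |g T d| ≤ D * sg l (d 0)

lemma Dom.add {B : ℝ} {l : ℕ} {f g : ℝ → R9 → ℝ} (hf : Dom B l f) (hg : Dom B l g) :
    Dom B l (fun T d => f T d + g T d) := by
  obtain ⟨D1, h1, h1'⟩ := hf
  obtain ⟨D2, h2, h2'⟩ := hg
  refine ⟨D1 + D2, add_nonneg h1 h2, fun T hT d hd => ?_⟩
  have := abs_add_le (f T d) (g T d)
  have := h1' T hT d hd
  have := h2' T hT d hd
  rw [add_mul]
  linarith

lemma Dom.sub {B : ℝ} {l : ℕ} {f g : ℝ → R9 → ℝ} (hf : Dom B l f) (hg : Dom B l g) :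
    Dom B l (fun T d => f T d - g T d) := by
  obtain ⟨D1, h1, h1'⟩ := hf
  obtain ⟨D2, h2, h2'⟩ := hg
  refine ⟨D1 + D2, add_nonneg h1 h2, fun T hT d hd => ?_⟩
  have := abs_sub (f T d) (g T d)
  have := h1' T hT d hd
  have := h2' T hT d hd
  rw [add_mul]
  linarith

lemma Dom.mul {B : ℝ} {l : ℕ} {f : ℝ → R9 → ℝ} (hf : Dom B l f) {g : R9 → ℝ} {M : ℝ} (hM : 0 ≤ M)
    (hg : ∀ d, CB B d → |g d| ≤ M) : Dom B l (fun T d => g d * f T d) := by
  obtain ⟨D1, h1, h1'⟩ := hf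
  refine ⟨M * D1, mul_nonneg hM h1, fun T hT d hd => ?_⟩
  rw [abs_mul, mul_assoc]
  exact mul_le_mul (hg d hd) (h1' T hT d hd) (abs_nonneg _) hM

lemma Dom.neg {B : ℝ} {l : ℕ} {f : ℝ → R9 → ℝ} (hf : Dom B l f) :
    Dom B l (fun T d => -f T d) := by
  obtain ⟨D1, h1, h1'⟩ := hf
  refine ⟨D1, h1, fun T hT d hd => ?_⟩
  rw [abs_neg]
  exact h1' T hT d hd

lemma Dom.base {B : ℝ} {l a b : ℕ} (hab : b ≤ a + l) {f g : ℝ → R9 → ℝ} {Φ M : ℝ} (hΦ : 0 ≤ Φ)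
    (hM : 0 ≤ M) (hf : ∀ T ∈ Icc (0 : ℝ) 1, ∀ d, CB B d → |f T d| ≤ Φ * (√(1 - d 0) ^ b)⁻¹)
    (hg : ∀ T ∈ Icc (0 : ℝ) 1, ∀ d, CB B d → |g T d| ≤ M * √(1 - d 0) ^ a) :
    Dom B l (fun T d => f T d * g T d) := by
  refine ⟨Φ * M * 2 ^ (a + l), by positivity, fun T hT d hd => ?_⟩
  set r := √(1 - d 0) with hr
  have hr0 : 0 < r := Real.sqrt_pos.2 (by linarith [hd.s1])
  have hr2 : r ≤ 2 := by
    rw [hr, Real.sqrt_le_left (by norm_num)]
    linarith [hd.s0]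
  have h1 := hf T hT d hd
  have h2 := hg T hT d hd
  rw [abs_mul]
  calc |f T d| * |g T d| ≤ (Φ * (r ^ b)⁻¹) * (M * r ^ a) :=
        mul_le_mul h1 h2 (abs_nonneg _) (by positivity)
    _ = Φ * M * (r ^ a * (r ^ b)⁻¹) := by ring
    _ ≤ Φ * M * (2 ^ (a + l) * (r ^ l)⁻¹) := by
        have := rpow_key (a := a) (b := b) (l := l) hr0 hr2 hab
        gcongr
    _ = Φ * M * 2 ^ (a + l) * sg l (d 0) := by
        unfold sg
        ring

/-- the coefficient of the flux -/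
def sgm (k : Fin 6) (d : R9) : ℝ :=
  match k with
  | 0 => 1
  | 3 => -d 3
  | 4 => -d 4
  | _ => 0

/-- the regular part of the critical rows -/
noncomputable def Zc (k : Fin 6) (j : ℕ) (T : ℝ) (d : R9) : ℝ :=
  rG k 4 (cphi T) (cphi' T) 0 j d
    - sgm k d * d 6 ^ j * (1 - (1 - T ^ 2) ^ 2 * SM2.ker T 4 (d 0))

lemma Zc_dom {B : ℝ} (hB : 1 ≤ B) (k : Fin 6) (hk : k = 0 ∨ k = 3 ∨ k = 4) (j : ℕ) :
    Dom B 3 (Zc k j) := by
  have hB0 : 0 ≤ B := zero_le_one.trans hB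
  have hvp : ∀ T ∈ Icc (0 : ℝ) 1, ∀ d, CB B d → 1 - T * d 0 ≠ 0 := by
    intro T hT d hd
    have h1 := hd.s1
    rcases hT.2.lt_or_eq with h | h
    · have := mul_le_mul_of_nonneg_left h1.le hT.1
      have h2 : 0 < 1 - T * d 0 := by linarith
      exact h2.ne'
    · rw [h]
      have h2 : 0 < 1 - 1 * d 0 := by linarith
      exact h2.ne'
  have hφ : ∀ T ∈ Icc (0 : ℝ) 1, ∀ d, CB B d → |cphi T (d 0)| ≤ 32 * (√(1 - d 0) ^ 4)⁻¹ :=
    fun T hT d hd => (cphi_bound hT hd.s0 hd.s1).1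
  have hφ' : ∀ T ∈ Icc (0 : ℝ) 1, ∀ d, CB B d → |cphi' T (d 0)| ≤ 32 * (√(1 - d 0) ^ 6)⁻¹ :=
    fun T hT d hd => (cphi_bound hT hd.s0 hd.s1).2
  have hx : ∀ j, ∀ d, CB B d → |d 6 ^ j| ≤ B ^ j := fun j d hd => by
    rw [abs_pow]
    exact pow_le_pow_left₀ (abs_nonneg _) (hd.b 6) j
  have hxj : ∀ d, CB B d → |(j : ℝ) * d 6 ^ (j - 1)| ≤ j * B ^ (j - 1) := fun d hd => by
    rw [abs_mul, Nat.abs_cast]
    exact mul_le_mul_of_nonneg_left (hx _ d hd) (Nat.cast_nonneg j)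
  have hr : ∀ d, CB B d → 0 < √(1 - d 0) ∧ √(1 - d 0) ^ 2 = 1 - d 0 := fun d hd =>
    ⟨Real.sqrt_pos.2 (by linarith [hd.s1]), Real.sq_sqrt (by linarith [hd.s1])⟩
  have hp : ∀ d, CB B d → |d 2| ≤ B * √(1 - d 0) ^ 2 := fun d hd => by
    rw [(hr d hd).2]
    exact hd.p
  have ht : ∀ d, CB B d → |d 1| ≤ B * √(1 - d 0) ^ 2 := fun d hd => by
    rw [(hr d hd).2]
    exact hd.t
  have mulb : ∀ {X Y M N : ℝ} {r : ℝ} {a b : ℕ}, 0 < r → 0 ≤ M → |X| ≤ M * r ^ a →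
      |Y| ≤ N * r ^ b → |X * Y| ≤ M * N * r ^ (a + b) := by
    intro X Y M N r a b hr0 hM h1 h2
    rw [abs_mul]
    calc |X| * |Y| ≤ (M * r ^ a) * (N * r ^ b) :=
          mul_le_mul h1 h2 (abs_nonneg _) (by positivity)
      _ = M * N * r ^ (a + b) := by ring
  have b0 : ∀ i d, CB B d → |d i| ≤ B * √(1 - d 0) ^ 0 := fun i d hd => by
    rw [pow_zero, mul_one]
    exact hd.b i
  have a3 : ∀ d, CB B d → |d 7 - d 0 * d 6 - d 2 * d 4| ≤ B * √(1 - d 0) ^ 1 := fun d hd => by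
    rw [pow_one]
    exact hd.A3
  have a4 : ∀ d, CB B d → |d 7 - d 0 * d 6| ≤ B * √(1 - d 0) ^ 1 := fun d hd => by
    rw [pow_one]
    exact hd.A4
  have d3 : ∀ d, CB B d → |d 5 - d 1 * d 6 - d 3 * d 4| ≤ B * √(1 - d 0) ^ 1 := fun d hd => by
    rw [pow_one]
    exact hd.D3
  have gg : ∀ d, CB B d → |d 8 - d 6 ^ 2 - d 4 ^ 2| ≤ B * √(1 - d 0) ^ 0 := fun d hd => by
    rw [pow_zero, mul_one]
    exact hd.G
  have base : ∀ (b : ℕ) (f : ℝ → ℝ → ℝ), (∀ T ∈ Icc (0 : ℝ) 1, ∀ d, CB B d →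
      |f T (d 0)| ≤ 32 * (√(1 - d 0) ^ b)⁻¹) → ∀ (a : ℕ) (g : R9 → ℝ) (M : ℝ), 0 ≤ M →
      b ≤ a + 3 → (∀ d, CB B d → |g d| ≤ M * √(1 - d 0) ^ a) →
      Dom B 3 (fun T d => f T (d 0) * g d) := by
    intro b f hf a g M hM hab hg
    exact Dom.base (f := fun T d => f T (d 0)) (g := fun _ d => g d) hab (by norm_num) hM hf
      (fun _ _ d hd => hg d hd)
  have bφ := base 4 cphi hφ
  have bφ' := base 6 cphi' hφ'
  have congr : ∀ {g g' : ℝ → R9 → ℝ}, Dom B 3 g' → (∀ T ∈ Icc (0 : ℝ) 1, ∀ d, CB B d →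
      g T d = g' T d) → Dom B 3 g := by
    intro g g' h1 h2
    obtain ⟨D, hD, hD'⟩ := h1
    exact ⟨D, hD, fun T hT d hd => by rw [h2 T hT d hd]; exact hD' T hT d hd⟩
  have hA3 : Dom B 3 (fun T d => j * d 6 ^ (j - 1)
      * (cphi T (d 0) * (d 7 - d 0 * d 6 - d 2 * d 4))) :=
    (bφ 1 _ B hB0 (by norm_num) a3).mul (by positivity) hxj
  rcases hk with rfl | rfl | rfl
  · have h1 : Dom B 3 (fun T d => d 6 ^ j * (cphi' T (d 0) * (d 2 * d 2))) :=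
      (bφ' 4 _ (B * B) (by positivity) (by norm_num) fun d hd =>
        mulb (hr d hd).1 hB0 (hp d hd) (hp d hd)).mul (by positivity) (hx j)
    refine congr (h1.neg.add hA3) fun T hT d hd => ?_
    have h3 := cphi_eq (hvp T hT d hd)
    unfold Zc rG rowE sgm
    simp only [pow_zero, one_mul, Nat.cast_zero, zero_mul, mul_zero]
    linear_combination (d 6 ^ j) * h3
  · have h1 : Dom B 3 (fun T d => d 6 ^ j * (cphi' T (d 0) * (d 0 * (d 2 * d 1)))) :=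
      (bφ' 4 _ (B * (B * B)) (by positivity) (by norm_num) fun d hd =>
        mulb (a := 0) (b := 4) (hr d hd).1 hB0 (b0 0 d hd)
          (mulb (hr d hd).1 hB0 (hp d hd) (ht d hd))).mul (by positivity) (hx j)
    have h2 : Dom B 3 (fun T d => d 6 ^ j * (cphi T (d 0) * (d 2 * d 1))) :=
      (bφ 4 _ (B * B) (by positivity) (by norm_num) fun d hd =>
        mulb (hr d hd).1 hB0 (hp d hd) (ht d hd)).mul (by positivity) (hx j)
    have h4 : Dom B 3 (fun T d => j * d 6 ^ (j - 1)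
        * (cphi T (d 0) * (d 2 * (d 5 - d 1 * d 6 - d 3 * d 4)))) :=
      (bφ 3 _ (B * B) (by positivity) (by norm_num) fun d hd =>
        mulb (hr d hd).1 hB0 (hp d hd) (d3 d hd)).mul (by positivity) hxj
    have h5 : Dom B 3 (fun T d => d 3 * (j * d 6 ^ (j - 1)
        * (cphi T (d 0) * (d 7 - d 0 * d 6 - d 2 * d 4)))) := hA3.mul hB0 fun d hd => hd.b 3
    refine congr ((((h1.neg).sub (h2.mul (g := fun _ => 4) (M := 4) (by norm_num)
      (fun d _ => by norm_num))).add h4).sub h5) fun T hT d hd => ?_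
    have h3 := cphi_eq (hvp T hT d hd)
    unfold Zc rG rowE sgm
    simp only [pow_zero, one_mul, Nat.cast_zero, zero_mul, mul_zero]
    linear_combination (-(d 3) * d 6 ^ j) * h3
  · have h1 : Dom B 3 (fun T d => d 6 ^ j * (cphi' T (d 0) * (d 2 * (d 7 - d 0 * d 6)))) :=
      (bφ' 3 _ (B * B) (by positivity) (by norm_num) fun d hd =>
        mulb (hr d hd).1 hB0 (hp d hd) (a4 d hd)).mul (by positivity) (hx j)
    have h2 : Dom B 3 (fun T d => d 6 ^ j * (cphi T (d 0) * (d 2 * d 6))) :=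
      (bφ 2 _ (B * B) (by positivity) (by norm_num) fun d hd =>
        mulb (b := 0) (hr d hd).1 hB0 (hp d hd) (b0 6 d hd)).mul (by positivity) (hx j)
    have h4 : Dom B 3 (fun T d => j * d 6 ^ (j - 1)
        * (cphi T (d 0) * (d 2 * (d 8 - d 6 ^ 2 - d 4 ^ 2)))) :=
      (bφ 2 _ (B * B) (by positivity) (by norm_num) fun d hd =>
        mulb (b := 0) (hr d hd).1 hB0 (hp d hd) (gg d hd)).mul (by positivity) hxj
    have h5 : Dom B 3 (fun T d => d 4 * (j * d 6 ^ (j - 1)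
        * (cphi T (d 0) * (d 7 - d 0 * d 6 - d 2 * d 4)))) := hA3.mul hB0 fun d hd => hd.b 4
    refine congr (((h1.sub (h2.mul (g := fun _ => 4) (M := 4) (by norm_num)
      (fun d _ => by norm_num))).add h4).sub h5) fun T hT d hd => ?_
    have h3 := cphi_eq (hvp T hT d hd)
    unfold Zc rG rowE sgm
    simp only [pow_zero, one_mul, Nat.cast_zero, zero_mul, mul_zero]
    linear_combination (-(d 4) * d 6 ^ j) * h3

end Vale.Agent.P224.UE
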