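import Vale.Agent.P224.UE.Sing6

/-!
The critical profile in general dimension.
-/

namespace Vale.Agent.P224.UE

open MeasureTheory Set Filter Function Module Vale.Agent.P224
open Vale.Agent.P224.SM2 hiding ker
open scoped Topology RealInnerProductSpace ENNReal ContDiff Manifold

set_option linter.unusedSectionVars false

/-- the critical profile at level `T` -/
noncomputable def ph (m : ℕ) (T s : ℝ) : ℝ := ∫ τ in (0 : ℝ)..T, kp τ ^ (m - 2) * SM2.ker τ m s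

noncomputable def ph' (m : ℕ) (T s : ℝ) : ℝ :=
  ∫ τ in (0 : ℝ)..T, kp τ ^ (m - 2) * (m * τ * SM2.ker τ (m + 1) s)

lemma continuous_kp : Continuous kp := by
  unfold kp
  fun_prop

lemma v_pos {τ s : ℝ} (hτ : τ ∈ Icc (0 : ℝ) 1) (hs : s < 1) : 0 < 1 - τ * s := by
  rcases hτ.2.lt_or_eq with h | h
  · have := mul_le_mul_of_nonneg_left hs.le hτ.1
    linarith
  · rw [h]
    linarith

lemma contOn_ker_tau {s : ℝ} (hs : s < 1) (q : ℕ) :
    ContinuousOn (fun τ => SM2.ker τ q s) (Icc 0 1) := by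
  unfold SM2.ker
  exact ContinuousOn.inv₀ (by fun_prop) fun τ hτ => pow_ne_zero _ (v_pos hτ hs).ne'

lemma contOn_ph1 (m : ℕ) {s : ℝ} (hs : s < 1) :
    ContinuousOn (fun τ => kp τ ^ (m - 2) * SM2.ker τ m s) (Icc 0 1) := by
  have h1 := continuous_kp.continuousOn (s := Icc (0 : ℝ) 1)
  have h2 := contOn_ker_tau hs m
  exact (h1.pow _).mul h2

lemma contOn_ph2 (m : ℕ) {s : ℝ} (hs : s < 1) :
    ContinuousOn (fun τ => kp τ ^ (m - 2) * (m * τ * SM2.ker τ (m + 1) s)) (Icc 0 1) := by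
  have h1 := continuous_kp.continuousOn (s := Icc (0 : ℝ) 1)
  have h2 := contOn_ker_tau hs (m + 1)
  exact (h1.pow _).mul ((continuousOn_const.mul continuousOn_id).mul h2)

lemma ii_of {f : ℝ → ℝ} (hf : ContinuousOn f (Icc 0 1)) {T : ℝ} (hT : T ∈ Icc (0 : ℝ) 1) :
    IntervalIntegrable f volume 0 T := by
  refine ContinuousOn.intervalIntegrable ?_
  rw [uIcc_of_le hT.1]
  exact hf.mono (Icc_subset_Icc_right hT.2)

lemma tendsto_prim {f : ℝ → ℝ} (hf : ContinuousOn f (Icc 0 1)) :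
    Tendsto (fun T => ∫ τ in (0 : ℝ)..T, f τ) (𝓝[<] 1) (𝓝 (∫ τ in (0 : ℝ)..1, f τ)) := by
  have h1 : IntegrableOn f (uIcc 0 1) := by
    rw [uIcc_of_le zero_le_one]
    exact hf.integrableOn_Icc
  have h2 := intervalIntegral.continuousOn_primitive_interval h1
  have h3 : (1 : ℝ) ∈ uIcc (0 : ℝ) 1 := right_mem_uIcc
  have h4 := h2 1 h3
  refine h4.tendsto.mono_left ?_
  rw [uIcc_of_le zero_le_one]
  refine nhdsWithin_le_iff.2 ?_
  have h0 : ∀ᶠ T in 𝓝[<] (1 : ℝ), T ∈ Ioo (0 : ℝ) 1 := Ioo_mem_nhdsLT one_pos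
  filter_upwards [h0] with T hT
  exact ⟨hT.1.le, hT.2.le⟩

/-- the differential equation of the critical profile -/
lemma ph_ode {m : ℕ} (hm : 2 ≤ m) {T s : ℝ} (hT : T ∈ Icc (0 : ℝ) 1) (hs0 : -1 ≤ s) (hs : s < 1) :
    (1 - s ^ 2) * ph' m T s - m * s * ph m T s = 1 - cv m T s := by
  have i1 := ii_of (contOn_ph1 m hs) hT
  have i2 := ii_of (contOn_ph2 m hs) hT
  unfold ph ph'
  rw [← intervalIntegral.integral_const_mul, ← intervalIntegral.integral_const_mul,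
    ← intervalIntegral.integral_sub (i2.const_mul _) (i1.const_mul _)]
  have hcv : ContinuousOn (fun τ => cv m τ s) (Icc 0 T) := by
    have h1 := continuous_kp.continuousOn (s := Icc (0 : ℝ) 1)
    have h2 := contOn_ker_tau hs m
    have h3 : ContinuousOn (fun τ => cv m τ s) (Icc 0 1) := (h1.pow _).mul h2
    exact h3.mono (Icc_subset_Icc_right hT.2)
  have key := intervalIntegral.integral_eq_sub_of_hasDerivAt_of_le (a := 0) (b := T)
    (f := fun τ => -cv m τ s)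
    (f' := fun τ => (1 - s ^ 2) * (kp τ ^ (m - 2) * (m * τ * SM2.ker τ (m + 1) s))
      - m * s * (kp τ ^ (m - 2) * SM2.ker τ m s)) hT.1 hcv.neg ?_
    ((i2.const_mul _).sub (i1.const_mul _))
  · rw [key]
    have h0 : cv m 0 s = 1 := by
      unfold cv
      rw [kp_zero]
      simp [SM2.ker]
    rw [h0]
    ring
  · intro τ hτ
    have hτ' : τ ∈ Ico (0 : ℝ) 1 := ⟨hτ.1.le, hτ.2.trans_le hT.2⟩
    have h1 := (hasDerivAt_cv (m := m) hτ' ⟨hs0, hs.le⟩).neg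
    refine h1.congr_deriv ?_
    have hv := (v_pos ⟨hτ'.1, hτ'.2.le⟩ hs).ne'
    have hk := ker_eq hv m
    have hkp : kp τ ^ m = kp τ ^ (m - 2) * (1 - τ ^ 2) := by
      rw [← kp_sq hτ', ← pow_add, Nat.sub_add_cancel hm]
    have h3 := (one_sub_sq_pos hτ').ne'
    unfold cv'
    rw [hk, hkp]
    field_simp
    ring

/-- the basic integral bound -/
lemma int_v_le {b : ℕ} (hb : 1 ≤ b) {T s : ℝ} (hT : T ∈ Icc (0 : ℝ) 1) (hs0 : -1 ≤ s)
    (hs : s < 1) :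
    ∫ τ in (0 : ℝ)..T, (√(1 - τ * s) ^ (b + 2))⁻¹ ≤ 2 ^ (2 * b + 4) * (√(1 - s) ^ b)⁻¹ := by
  set r := √(1 - s) with hr
  have hr0 : 0 < r := Real.sqrt_pos.2 (by linarith)
  have hr2 : r ≤ 2 := by
    rw [hr, Real.sqrt_le_left (by norm_num)]
    linarith
  have hcv : ContinuousOn (fun τ => (√(1 - τ * s) ^ (b + 2))⁻¹) (Icc 0 1) := by
    refine ContinuousOn.inv₀ (by fun_prop) fun τ hτ => ?_
    exact pow_ne_zero _ (Real.sqrt_pos.2 (v_pos hτ hs)).ne'
  have hii := ii_of hcv hT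
  by_cases hs2 : s < 1 / 2
  · have h1 : ∀ τ ∈ Icc (0 : ℝ) T, (√(1 - τ * s) ^ (b + 2))⁻¹ ≤ 2 ^ (b + 2) := by
      intro τ hτ
      have hτ1 : τ ≤ 1 := hτ.2.trans hT.2
      have hv : 1 / 4 ≤ 1 - τ * s := by
        by_cases h : 0 ≤ s
        · have := mul_le_mul_of_nonneg_right hτ1 h
          linarith
        · push Not at h
          have := mul_nonneg hτ.1 (neg_nonneg.2 h.le)
          linarith
      have hv2 : 1 / 2 ≤ √(1 - τ * s) := by
        rw [Real.le_sqrt' (by norm_num)]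
        linarith
      calc (√(1 - τ * s) ^ (b + 2))⁻¹ ≤ ((1 / 2 : ℝ) ^ (b + 2))⁻¹ :=
            inv_anti₀ (by positivity) (pow_le_pow_left₀ (by norm_num) hv2 _)
        _ = 2 ^ (b + 2) := by
            rw [one_div, inv_pow, inv_inv]
    have h2 : ∫ τ in (0 : ℝ)..T, (√(1 - τ * s) ^ (b + 2))⁻¹ ≤ ∫ _τ in (0 : ℝ)..T, (2 : ℝ) ^ (b + 2) :=
      intervalIntegral.integral_mono_on hT.1 hii intervalIntegrable_const h1
    rw [intervalIntegral.integral_const, smul_eq_mul, sub_zero] at h2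
    have h3 : (1 : ℝ) ≤ 2 ^ b * (r ^ b)⁻¹ := by
      rw [← div_eq_mul_inv, le_div_iff₀ (pow_pos hr0 b), one_mul]
      exact pow_le_pow_left₀ hr0.le hr2 b
    calc _ ≤ T * 2 ^ (b + 2) := h2
      _ ≤ 1 * 2 ^ (b + 2) := mul_le_mul_of_nonneg_right hT.2 (by positivity)
      _ = 2 ^ (b + 2) * 1 := by ring
      _ ≤ 2 ^ (b + 2) * (2 ^ b * (r ^ b)⁻¹) := mul_le_mul_of_nonneg_left h3 (by positivity)
      _ = 2 ^ (2 * b + 2) * (r ^ b)⁻¹ := by
          rw [← mul_assoc, ← pow_add]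
          congr 2
          omega
      _ ≤ 2 ^ (2 * b + 4) * (r ^ b)⁻¹ := by
          refine mul_le_mul_of_nonneg_right ?_ (by positivity)
          exact pow_le_pow_right₀ (by norm_num) (by omega)
  · push Not at hs2
    have hs0' : 0 < s := by linarith
    have hb0 : (0 : ℝ) < b := by exact_mod_cast hb
    have hd : ∀ τ ∈ uIcc 0 T, HasDerivAt (fun τ => (√(1 - τ * s) ^ b)⁻¹)
        (b * s / 2 * (√(1 - τ * s) ^ (b + 2))⁻¹) τ := by
      intro τ hτ
      rw [uIcc_of_le hT.1] at hτ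
      have hv := v_pos ⟨hτ.1, hτ.2.trans hT.2⟩ hs
      have hsq := Real.sqrt_pos.2 hv
      have hsq2 : √(1 - τ * s) ^ 2 = 1 - τ * s := Real.sq_sqrt hv.le
      have h1 : HasDerivAt (fun τ => 1 - τ * s) (-s) τ := by
        simpa using ((hasDerivAt_id τ).mul_const s).const_sub 1
      have h2 := ((h1.sqrt hv.ne').fun_pow b).fun_inv (pow_ne_zero b hsq.ne')
      refine h2.congr_deriv ?_
      obtain ⟨b', rfl⟩ : ∃ b', b = b' + 1 := ⟨b - 1, by omega⟩
      simp only [Nat.add_sub_cancel]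
      push_cast
      field_simp
      ring
    have hii2 : IntervalIntegrable (fun τ => b * s / 2 * (√(1 - τ * s) ^ (b + 2))⁻¹) volume 0 T :=
      hii.const_mul _
    have h1 := intervalIntegral.integral_eq_sub_of_hasDerivAt hd hii2
    rw [intervalIntegral.integral_const_mul] at h1
    have h2 : (√(1 - T * s) ^ b)⁻¹ ≤ (r ^ b)⁻¹ := by
      refine inv_anti₀ (pow_pos hr0 b) (pow_le_pow_left₀ hr0.le ?_ b)
      refine Real.sqrt_le_sqrt ?_
      have := mul_le_mul_of_nonneg_right hT.2 hs0'.le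
      linarith
    have h3 : 0 ≤ (√(1 - 0 * s) ^ b)⁻¹ := by positivity
    have h4 : b * s / 2 * ∫ τ in (0 : ℝ)..T, (√(1 - τ * s) ^ (b + 2))⁻¹ ≤ (r ^ b)⁻¹ := by
      rw [h1]
      linarith
    have h5 : 0 ≤ ∫ τ in (0 : ℝ)..T, (√(1 - τ * s) ^ (b + 2))⁻¹ :=
      intervalIntegral.integral_nonneg hT.1 fun τ _ => by positivity
    have h6 : (1 : ℝ) / 4 ≤ b * s / 2 := by
      have : (1 : ℝ) ≤ b := by exact_mod_cast hb
      nlinarith
    have h7 := mul_le_mul_of_nonneg_right h6 h5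
    have h8 : (4 : ℝ) ≤ 2 ^ (2 * b + 4) := by
      calc (4 : ℝ) = 2 ^ 2 := by norm_num
        _ ≤ _ := pow_le_pow_right₀ (by norm_num) (by omega)
    have h9 : 0 ≤ (r ^ b)⁻¹ := by positivity
    have h10 := mul_le_mul_of_nonneg_right h8 h9
    linarith

lemma kp_le_sqrt {τ s : ℝ} (hτ : τ ∈ Icc (0 : ℝ) 1) (hs : s < 1) :
    kp τ ≤ 2 * √(1 - τ * s) := by
  have hv := v_pos hτ hs
  have h1 : kp τ ≤ √(4 * (1 - τ * s)) := by
    unfold kp
    apply Real.sqrt_le_sqrt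
    have h2 := mul_le_mul_of_nonneg_left hs.le hτ.1
    nlinarith [sq_nonneg (1 - τ), hτ.2]
  have h2 : √(4 * (1 - τ * s)) = 2 * √(1 - τ * s) := by
    rw [Real.sqrt_mul (by norm_num), show (4 : ℝ) = 2 ^ 2 by norm_num,
      Real.sqrt_sq (by norm_num)]
  rwa [h2] at h1

lemma kp_nonneg (τ : ℝ) : 0 ≤ kp τ := Real.sqrt_nonneg _

lemma ker_sqrt {τ s : ℝ} (hv : 0 < 1 - τ * s) (q : ℕ) :
    SM2.ker τ q s = (√(1 - τ * s) ^ (2 * q))⁻¹ := by
  unfold SM2.ker
  rw [pow_mul, Real.sq_sqrt hv.le]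

/-- the bounds of the critical profile -/
lemma ph_bound {m : ℕ} (hm : 2 ≤ m) {T s : ℝ} (hT : T ∈ Icc (0 : ℝ) 1) (hs0 : -1 ≤ s)
    (hs : s < 1) :
    |ph m T s| ≤ (m * 2 ^ (3 * m + 8)) * (√(1 - s) ^ m)⁻¹ ∧
    |ph' m T s| ≤ (m * 2 ^ (3 * m + 8)) * (√(1 - s) ^ (m + 2))⁻¹ := by
  have hm0 : (1 : ℝ) ≤ m := by exact_mod_cast (by omega : 1 ≤ m)
  have hvc : ∀ b : ℕ, ContinuousOn (fun τ => (√(1 - τ * s) ^ (b + 2))⁻¹) (Icc 0 1) := fun b =>
    ContinuousOn.inv₀ (by fun_prop) fun τ hτ =>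
      pow_ne_zero _ (Real.sqrt_pos.2 (v_pos hτ hs)).ne'
  have hr0 : 0 < √(1 - s) := Real.sqrt_pos.2 (by linarith)
  constructor
  · unfold ph
    have h0 : 0 ≤ ∫ τ in (0 : ℝ)..T, kp τ ^ (m - 2) * SM2.ker τ m s := by
      refine intervalIntegral.integral_nonneg hT.1 fun τ hτ => ?_
      have hv := v_pos ⟨hτ.1, hτ.2.trans hT.2⟩ hs
      rw [ker_sqrt hv]
      have := kp_nonneg τ
      positivity
    rw [abs_of_nonneg h0]
    have h1 : ∀ τ ∈ Icc (0 : ℝ) T, kp τ ^ (m - 2) * SM2.ker τ m s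
        ≤ 2 ^ (m - 2) * (√(1 - τ * s) ^ (m + 2))⁻¹ := by
      intro τ hτ
      have hτ' : τ ∈ Icc (0 : ℝ) 1 := ⟨hτ.1, hτ.2.trans hT.2⟩
      have hv := v_pos hτ' hs
      have hsq := Real.sqrt_pos.2 hv
      rw [ker_sqrt hv]
      have h2 := pow_le_pow_left₀ (kp_nonneg τ) (kp_le_sqrt hτ' hs) (m - 2)
      calc kp τ ^ (m - 2) * (√(1 - τ * s) ^ (2 * m))⁻¹
          ≤ (2 * √(1 - τ * s)) ^ (m - 2) * (√(1 - τ * s) ^ (2 * m))⁻¹ := by gcongr
        _ = 2 ^ (m - 2) * (√(1 - τ * s) ^ (m + 2))⁻¹ := by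
            have e1 : √(1 - τ * s) ^ (2 * m) = √(1 - τ * s) ^ (m - 2) * √(1 - τ * s) ^ (m + 2) := by
              rw [← pow_add]
              congr 1
              omega
            rw [e1, mul_pow]
            field_simp
    have h2 := intervalIntegral.integral_mono_on hT.1 (ii_of (contOn_ph1 m hs) hT)
      ((ii_of (hvc m) hT).const_mul (2 ^ (m - 2))) h1
    rw [intervalIntegral.integral_const_mul] at h2
    have h3 := int_v_le (b := m) (by omega) hT hs0 hs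
    have h4 : (0 : ℝ) ≤ (√(1 - s) ^ m)⁻¹ := by positivity
    calc _ ≤ 2 ^ (m - 2) * ∫ τ in (0 : ℝ)..T, (√(1 - τ * s) ^ (m + 2))⁻¹ := h2
      _ ≤ 2 ^ (m - 2) * (2 ^ (2 * m + 4) * (√(1 - s) ^ m)⁻¹) :=
          mul_le_mul_of_nonneg_left h3 (by positivity)
      _ = 2 ^ (3 * m + 2) * (√(1 - s) ^ m)⁻¹ := by
          rw [← mul_assoc, ← pow_add]
          congr 2
          omega
      _ ≤ (m * 2 ^ (3 * m + 8)) * (√(1 - s) ^ m)⁻¹ := by
          refine mul_le_mul_of_nonneg_right ?_ h4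
          have h5 : (2 : ℝ) ^ (3 * m + 2) ≤ 2 ^ (3 * m + 8) :=
            pow_le_pow_right₀ (by norm_num) (by omega)
          have h6 : (0 : ℝ) ≤ 2 ^ (3 * m + 8) := by positivity
          nlinarith
  · unfold ph'
    have h0 : 0 ≤ ∫ τ in (0 : ℝ)..T, kp τ ^ (m - 2) * (m * τ * SM2.ker τ (m + 1) s) := by
      refine intervalIntegral.integral_nonneg hT.1 fun τ hτ => ?_
      have hv := v_pos ⟨hτ.1, hτ.2.trans hT.2⟩ hs
      rw [ker_sqrt hv]
      have := kp_nonneg τ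
      have := hτ.1
      positivity
    rw [abs_of_nonneg h0]
    have h1 : ∀ τ ∈ Icc (0 : ℝ) T, kp τ ^ (m - 2) * (m * τ * SM2.ker τ (m + 1) s)
        ≤ (m * 2 ^ (m - 2)) * (√(1 - τ * s) ^ (m + 2 + 2))⁻¹ := by
      intro τ hτ
      have hτ' : τ ∈ Icc (0 : ℝ) 1 := ⟨hτ.1, hτ.2.trans hT.2⟩
      have hv := v_pos hτ' hs
      have hsq := Real.sqrt_pos.2 hv
      rw [ker_sqrt hv]
      have h2 := pow_le_pow_left₀ (kp_nonneg τ) (kp_le_sqrt hτ' hs) (m - 2)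
      calc kp τ ^ (m - 2) * (m * τ * (√(1 - τ * s) ^ (2 * (m + 1)))⁻¹)
          ≤ (2 * √(1 - τ * s)) ^ (m - 2) * (m * 1 * (√(1 - τ * s) ^ (2 * (m + 1)))⁻¹) := by
            have := hτ'.1
            have := hτ'.2
            gcongr
        _ = (m * 2 ^ (m - 2)) * (√(1 - τ * s) ^ (m + 2 + 2))⁻¹ := by
            have e1 : √(1 - τ * s) ^ (2 * (m + 1))
                = √(1 - τ * s) ^ (m - 2) * √(1 - τ * s) ^ (m + 2 + 2) := by
              rw [← pow_add]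
              congr 1
              omega
            rw [e1, mul_pow]
            field_simp
    have h2 := intervalIntegral.integral_mono_on hT.1 (ii_of (contOn_ph2 m hs) hT)
      ((ii_of (hvc (m + 2)) hT).const_mul (m * 2 ^ (m - 2))) h1
    rw [intervalIntegral.integral_const_mul] at h2
    have h3 := int_v_le (b := m + 2) (by omega) hT hs0 hs
    calc _ ≤ (m * 2 ^ (m - 2)) * ∫ τ in (0 : ℝ)..T, (√(1 - τ * s) ^ (m + 2 + 2))⁻¹ := h2
      _ ≤ (m * 2 ^ (m - 2)) * (2 ^ (2 * (m + 2) + 4) * (√(1 - s) ^ (m + 2))⁻¹) :=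
          mul_le_mul_of_nonneg_left h3 (by positivity)
      _ = m * 2 ^ (3 * m + 6) * (√(1 - s) ^ (m + 2))⁻¹ := by
          have e1 : (2 : ℝ) ^ (3 * m + 6) = 2 ^ (m - 2) * 2 ^ (2 * (m + 2) + 4) := by
            rw [← pow_add]
            congr 1
            omega
          rw [e1]
          ring
      _ ≤ (m * 2 ^ (3 * m + 8)) * (√(1 - s) ^ (m + 2))⁻¹ := by
          refine mul_le_mul_of_nonneg_right ?_ (by positivity)
          refine mul_le_mul_of_nonneg_left ?_ (by linarith)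
          exact pow_le_pow_right₀ (by norm_num) (by omega)

end Vale.Agent.P224.UE
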