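import Vale.Agent.P224.UE.Sing7

/-!
The critical rows in general dimension.
-/

namespace Vale.Agent.P224.UE

open MeasureTheory Set Filter Function Module Vale.Agent.P224
open Vale.Agent.P224.SM2 hiding ker
open scoped Topology RealInnerProductSpace ENNReal ContDiff Manifold

set_option linter.unusedSectionVars false

/-- the coefficient of the function in the row -/
noncomputable def cA (k : Fin 6) (m : ℝ) (i j : ℕ) (d : R9) : ℝ :=
  rG k m (fun _ => 1) (fun _ => 0) i j d

/-- the coefficient of the derivative in the row -/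
noncomputable def cB (k : Fin 6) (m : ℝ) (i j : ℕ) (d : R9) : ℝ :=
  rG k m (fun _ => 0) (fun _ => 1) i j d

lemma rG_form (k : Fin 6) (m : ℝ) (φ φ' : ℝ → ℝ) (i j : ℕ) (d : R9) :
    rG k m φ φ' i j d = cA k m i j d * φ (d 0) + cB k m i j d * φ' (d 0) := by
  unfold cA cB rG rowE
  fin_cases k <;> simp only <;> ring

lemma measurable_kerT (q : ℕ) : Measurable (fun z : ℝ × ℝ => SM2.ker z.1 q z.2) := by
  unfold SM2.ker
  fun_prop

lemma measurable_ph (m : ℕ) (T : ℝ) : Measurable (ph m T) := by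
  unfold ph intervalIntegral
  have h1 : StronglyMeasurable (uncurry fun (s τ : ℝ) => kp τ ^ (m - 2) * SM2.ker τ m s) := by
    have h2 : Measurable (fun z : ℝ × ℝ => kp z.2 ^ (m - 2) * SM2.ker z.2 m z.1) :=
      ((measurable_kp.comp measurable_snd).pow_const _).mul
        ((measurable_kerT m).comp (measurable_snd.prodMk measurable_fst))
    exact h2.stronglyMeasurable
  exact (h1.integral_prod_right.measurable).sub (h1.integral_prod_right.measurable)

lemma measurable_ph' (m : ℕ) (T : ℝ) : Measurable (ph' m T) := by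
  unfold ph' intervalIntegral
  have h1 : StronglyMeasurable (uncurry fun (s τ : ℝ) =>
      kp τ ^ (m - 2) * (m * τ * SM2.ker τ (m + 1) s)) := by
    have h2 : Measurable (fun z : ℝ × ℝ => kp z.2 ^ (m - 2)
        * (m * z.2 * SM2.ker z.2 (m + 1) z.1)) :=
      ((measurable_kp.comp measurable_snd).pow_const _).mul
        ((measurable_const.mul measurable_snd).mul
          ((measurable_kerT (m + 1)).comp (measurable_snd.prodMk measurable_fst)))
    exact h2.stronglyMeasurable
  exact (h1.integral_prod_right.measurable).sub (h1.integral_prod_right.measurable)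

section

variable {X : Type*} [MeasurableSpace X] {E : Type*} [NormedAddCommGroup E]
  [InnerProductSpace ℝ E] [MeasurableSpace E] [BorelSpace E] [SecondCountableTopology E]
  {μ : Measure X} [IsFiniteMeasure μ] {m : ℕ} {p n : X → E}

/-- the rows of the critical profile are null below level one -/
lemma TwoG.null_ph (h : TwoG μ m p n) (e : E) {T : ℝ} (hT : T ∈ Ioo (0 : ℝ) 1) (k : Fin 6)
    (i j : ℕ) {w : ℝ → ℝ → ℝ} (hw : Continuous (uncurry w)) :
    Null μ p n e (fun d => w (d 5) (d 7) * rG k m (ph m T) (ph' m T) i j d) := by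
  have hT' : T ∈ Ico (0 : ℝ) 1 := ⟨hT.1.le, hT.2⟩
  set g : ℝ → R9 → ℝ := fun τ d => kp τ ^ (m - 2) * (w (d 5) (d 7) * rT k m τ m i j d) with hg
  have hrT : ∀ τ d, rT k m τ m i j d
      = cA k m i j d * SM2.ker τ m (d 0) + cB k m i j d * (m * τ * SM2.ker τ (m + 1) (d 0)) := by
    intro τ d
    rw [← rG_form k m (SM2.ker τ m) (fun s => m * τ * SM2.ker τ (m + 1) s)]
    rfl
  -- pointwise
  have hpt : ∀ q, w (dat p n e q 5) (dat p n e q 7)
      * rG k m (ph m T) (ph' m T) i j (dat p n e q) = ∫ τ in (0 : ℝ)..T, g τ (dat p n e q) := by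
    intro q
    have hs := dat0_mem h.toPts e q
    have hk : ∀ a : ℕ, ContinuousOn (fun τ => SM2.ker τ a (dat p n e q 0)) (Icc 0 T) := by
      intro a
      unfold SM2.ker
      refine ContinuousOn.inv₀ (by fun_prop) fun τ hτ => pow_ne_zero _ ?_
      exact (one_sub_pos' ⟨hτ.1, hτ.2.trans_lt hT.2⟩ hs.2).ne'
    have c1 : ContinuousOn (fun τ => kp τ ^ (m - 2) * SM2.ker τ m (dat p n e q 0)) (Icc 0 T) :=
      (continuous_kp.continuousOn.pow _).mul (hk m)
    have c2 : ContinuousOn (fun τ => kp τ ^ (m - 2)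
        * (m * τ * SM2.ker τ (m + 1) (dat p n e q 0))) (Icc 0 T) :=
      (continuous_kp.continuousOn.pow _).mul ((continuousOn_const.mul continuousOn_id).mul
        (hk (m + 1)))
    have i1 : IntervalIntegrable _ volume 0 T := ContinuousOn.intervalIntegrable (by
      rw [uIcc_of_le hT.1.le]; exact c1)
    have i2 : IntervalIntegrable _ volume 0 T := ContinuousOn.intervalIntegrable (by
      rw [uIcc_of_le hT.1.le]; exact c2)
    rw [rG_form]
    unfold ph ph'
    rw [← intervalIntegral.integral_const_mul, ← intervalIntegral.integral_const_mul,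
      ← intervalIntegral.integral_add (i1.const_mul _) (i2.const_mul _),
      ← intervalIntegral.integral_const_mul]
    refine intervalIntegral.integral_congr fun τ _ => ?_
    simp only [hg, hrT]
    ring
  -- measurability and bounds
  have hgm : Measurable (fun z : ℝ × R9 => g z.1 z.2) := by
    have h1 := measurable_kerT m
    have h2 := measurable_kerT (m + 1)
    have h5 : Measurable (fun z : ℝ × R9 => w (z.2 5) (z.2 7)) :=
      (cont_psi hw).measurable.comp measurable_snd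
    have h3 : Measurable (fun z : ℝ × R9 => SM2.ker z.1 m (z.2 0)) :=
      h1.comp (measurable_fst.prodMk ((measurable_pi_apply 0).comp measurable_snd))
    have h4 : Measurable (fun z : ℝ × R9 => SM2.ker z.1 (m + 1) (z.2 0)) :=
      h2.comp (measurable_fst.prodMk ((measurable_pi_apply 0).comp measurable_snd))
    have hA : Measurable (cA k m i j) := measurable_rG k m measurable_const measurable_const i j
    have hB : Measurable (cB k m i j) := measurable_rG k m measurable_const measurable_const i j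
    have hA2 : Measurable (fun z : ℝ × R9 => cA k m i j z.2) := hA.comp measurable_snd
    have hB2 : Measurable (fun z : ℝ × R9 => cB k m i j z.2) := hB.comp measurable_snd
    have hk2 : Measurable (fun z : ℝ × R9 => kp z.1 ^ (m - 2)) :=
      (measurable_kp.comp measurable_fst).pow_const _
    have e1 : (fun z : ℝ × R9 => g z.1 z.2) = fun z => kp z.1 ^ (m - 2) * (w (z.2 5) (z.2 7)
        * (cA k m i j z.2 * SM2.ker z.1 m (z.2 0)
          + cB k m i j z.2 * (m * z.1 * SM2.ker z.1 (m + 1) (z.2 0)))) := by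
      funext z
      simp only [hg, hrT]
    rw [e1]
    fun_prop
  obtain ⟨C, hC⟩ : ∃ C, ∀ z ∈ Icc (0 : ℝ) T ×ˢ KE (bE e), ‖g z.1 z.2‖ ≤ C := by
    refine (isCompact_Icc.prod (isCompact_KE (bE e))).exists_bound_of_continuousOn ?_
    have hsub : (Icc (0 : ℝ) T ×ˢ KE (bE e)) ⊆ Ico 0 1 ×ˢ KE (bE e) :=
      prod_mono (fun τ hτ => ⟨hτ.1, hτ.2.trans_lt hT.2⟩) subset_rfl
    have h1 := (contOn_kerE2 m (bE e)).mono hsub
    have h2 := (contOn_kerE2 (m + 1) (bE e)).mono hsub
    have h5 : Continuous (fun z : ℝ × R9 => w (z.2 5) (z.2 7)) := (cont_psi hw).comp continuous_snd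
    have hk2 : Continuous (fun z : ℝ × R9 => kp z.1 ^ (m - 2)) :=
      (continuous_kp.comp continuous_fst).pow _
    have hA : Continuous (fun z : ℝ × R9 => cA k m i j z.2) := by
      unfold cA rG rowE
      fin_cases k <;> simp only <;> fun_prop
    have hB : Continuous (fun z : ℝ × R9 => cB k m i j z.2) := by
      unfold cB rG rowE
      fin_cases k <;> simp only <;> fun_prop
    have e1 : (fun z : ℝ × R9 => g z.1 z.2) = fun z => kp z.1 ^ (m - 2) * (w (z.2 5) (z.2 7)
        * (cA k m i j z.2 * SM2.ker z.1 m (z.2 0)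
          + cB k m i j z.2 * (m * z.1 * SM2.ker z.1 (m + 1) (z.2 0)))) := by
      funext z
      simp only [hg, hrT]
    rw [e1]
    exact hk2.continuousOn.mul (h5.continuousOn.mul ((hA.continuousOn.mul h1).add
      (hB.continuousOn.mul ((continuousOn_const.mul continuousOn_fst).mul h2))))
  set ν : Measure ℝ := volume.restrict (Ioc 0 T) with hν
  have hprod : Integrable (uncurry fun (q : X × X) (τ : ℝ) => g τ (dat p n e q))
      ((μ.prod μ).prod ν) := by
    have hm1 : Measurable (fun z : (X × X) × ℝ => g z.2 (dat p n e z.1)) :=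
      hgm.comp (measurable_snd.prodMk ((measurable_dat h.toPts e).comp measurable_fst))
    refine Integrable.of_bound hm1.aestronglyMeasurable C ?_
    have h1 : (μ.prod μ).prod ν = ((μ.prod μ).prod volume).restrict (univ ×ˢ Ioc 0 T) := by
      rw [hν, ← Measure.prod_restrict, Measure.restrict_univ]
    rw [h1]
    filter_upwards [ae_restrict_mem (MeasurableSet.univ.prod measurableSet_Ioc)] with z hz
    exact hC (z.2, dat p n e z.1) ⟨⟨hz.2.1.le, hz.2.2⟩, dat_mem h.toPts e _⟩
  have hpt2 : ∀ q, ∫ τ in (0 : ℝ)..T, g τ (dat p n e q) = ∫ τ, g τ (dat p n e q) ∂ν := by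
    intro q
    rw [intervalIntegral.integral_of_le hT.1.le]
  refine ⟨?_, ?_⟩
  · simp only [hpt, hpt2]
    exact hprod.integral_prod_left
  · simp only [hpt, hpt2]
    rw [integral_integral_swap hprod]
    have hz : ∀ᵐ τ ∂ν, ∫ q, g τ (dat p n e q) ∂(μ.prod μ) = 0 := by
      filter_upwards [ae_restrict_mem measurableSet_Ioc] with τ hτ
      have h1 := (h.null_row e (T := τ) ⟨hτ.1, hτ.2.trans_lt hT.2⟩ k m i j hw).2
      simp only [hg]
      rw [integral_const_mul, h1, mul_zero]
    rw [integral_congr_ae hz, integral_zero]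

end

/-- the regular part of the critical rows -/
noncomputable def Zm (m : ℕ) (k : Fin 6) (j : ℕ) (T : ℝ) (d : R9) : ℝ :=
  rG k m (ph m T) (ph' m T) 0 j d - sgm k d * d 6 ^ j * (1 - cv m T (d 0))

lemma Zm_dom {m : ℕ} (hm : 2 ≤ m) {B : ℝ} (hB : 1 ≤ B) (k : Fin 6) (hk : k = 0 ∨ k = 3 ∨ k = 4)
    (j : ℕ) : Dom B (m - 1) (Zm m k j) := by
  have hB0 : 0 ≤ B := zero_le_one.trans hB
  set Φ : ℝ := m * 2 ^ (3 * m + 8) with hΦ
  have hΦ0 : 0 ≤ Φ := by positivity
  have hφ : ∀ T ∈ Icc (0 : ℝ) 1, ∀ d, CB B d → |ph m T (d 0)| ≤ Φ * (√(1 - d 0) ^ m)⁻¹ :=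
    fun T hT d hd => (ph_bound hm hT hd.s0 hd.s1).1
  have hφ' : ∀ T ∈ Icc (0 : ℝ) 1, ∀ d, CB B d → |ph' m T (d 0)| ≤ Φ * (√(1 - d 0) ^ (m + 2))⁻¹ :=
    fun T hT d hd => (ph_bound hm hT hd.s0 hd.s1).2
  have hx : ∀ j, ∀ d, CB B d → |d 6 ^ j| ≤ B ^ j := fun j d hd => by
    rw [abs_pow]
    exact pow_le_pow_left₀ (abs_nonneg _) (hd.b 6) j
  have hxj : ∀ d, CB B d → |(j : ℝ) * d 6 ^ (j - 1)| ≤ j * B ^ (j - 1) := fun d hd => by
    rw [abs_mul, Nat.abs_cast]
    exact mul_le_mul_of_nonneg_left (hx _ d hd) (Nat.cast_nonneg j)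
  have hr : ∀ d, CB B d → 0 < √(1 - d 0) ∧ √(1 - d 0) ^ 2 = 1 - d 0 := fun d hd =>
    ⟨Real.sqrt_pos.2 (by linarith [hd.s1]), Real.sq_sqrt (by linarith [hd.s1])⟩
  have hp : ∀ d, CB B d → |d 2| ≤ B * √(1 - d 0) ^ 2 := fun d hd => by
    rw [(hr d hd).2]
    exact hd.p
  have ht : ∀ d, CB B d → |d 1| ≤ B * √(1 - d 0) ^ 2 := fun d hd => by
    rw [(hr d hd).2]
    exact hd.t
  have mulb : ∀ {X Y M N : ℝ} {r : ℝ} {a b : ℕ}, 0 < r → 0 ≤ M → |X| ≤ M * r ^ a →
      |Y| ≤ N * r ^ b → |X * Y| ≤ M * N * r ^ (a + b) := by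
    intro X Y M N r a b hr0 hM h1 h2
    rw [abs_mul]
    calc |X| * |Y| ≤ (M * r ^ a) * (N * r ^ b) :=
          mul_le_mul h1 h2 (abs_nonneg _) (by positivity)
      _ = M * N * r ^ (a + b) := by ring
  have b0 : ∀ i d, CB B d → |d i| ≤ B * √(1 - d 0) ^ 0 := fun i d hd => by
    rw [pow_zero, mul_one]
    exact hd.b i
  have a3 : ∀ d, CB B d → |d 7 - d 0 * d 6 - d 2 * d 4| ≤ B * √(1 - d 0) ^ 1 := fun d hd => by
    rw [pow_one]
    exact hd.A3
  have a4 : ∀ d, CB B d → |d 7 - d 0 * d 6| ≤ B * √(1 - d 0) ^ 1 := fun d hd => by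
    rw [pow_one]
    exact hd.A4
  have d3 : ∀ d, CB B d → |d 5 - d 1 * d 6 - d 3 * d 4| ≤ B * √(1 - d 0) ^ 1 := fun d hd => by
    rw [pow_one]
    exact hd.D3
  have gg : ∀ d, CB B d → |d 8 - d 6 ^ 2 - d 4 ^ 2| ≤ B * √(1 - d 0) ^ 0 := fun d hd => by
    rw [pow_zero, mul_one]
    exact hd.G
  have base : ∀ (b : ℕ) (f : ℝ → ℝ → ℝ), (∀ T ∈ Icc (0 : ℝ) 1, ∀ d, CB B d →
      |f T (d 0)| ≤ Φ * (√(1 - d 0) ^ b)⁻¹) → ∀ (a : ℕ) (g : R9 → ℝ) (M : ℝ), 0 ≤ M →
      b ≤ a + (m - 1) → (∀ d, CB B d → |g d| ≤ M * √(1 - d 0) ^ a) →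
      Dom B (m - 1) (fun T d => f T (d 0) * g d) := by
    intro b f hf a g M hM hab hg
    exact Dom.base (f := fun T d => f T (d 0)) (g := fun _ d => g d) hab hΦ0 hM hf
      (fun _ _ d hd => hg d hd)
  have bφ := base m (ph m) hφ
  have bφ' := base (m + 2) (ph' m) hφ'
  have congr : ∀ {g g' : ℝ → R9 → ℝ}, Dom B (m - 1) g' → (∀ T ∈ Icc (0 : ℝ) 1, ∀ d, CB B d →
      g T d = g' T d) → Dom B (m - 1) g := by
    intro g g' h1 h2
    obtain ⟨D, hD, hD'⟩ := h1
    exact ⟨D, hD, fun T hT d hd => by rw [h2 T hT d hd]; exact hD' T hT d hd⟩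
  have hA3 : Dom B (m - 1) (fun T d => j * d 6 ^ (j - 1)
      * (ph m T (d 0) * (d 7 - d 0 * d 6 - d 2 * d 4))) :=
    (bφ 1 _ B hB0 (by omega) a3).mul (by positivity) hxj
  rcases hk with rfl | rfl | rfl
  · have h1 : Dom B (m - 1) (fun T d => d 6 ^ j * (ph' m T (d 0) * (d 2 * d 2))) :=
      (bφ' 4 _ (B * B) (by positivity) (by omega) fun d hd =>
        mulb (hr d hd).1 hB0 (hp d hd) (hp d hd)).mul (by positivity) (hx j)
    refine congr (h1.neg.add hA3) fun T hT d hd => ?_
    have h3 := ph_ode hm hT hd.s0 hd.s1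
    unfold Zm rG rowE sgm
    simp only [pow_zero, one_mul, Nat.cast_zero, zero_mul, mul_zero]
    linear_combination (d 6 ^ j) * h3
  · have h1 : Dom B (m - 1) (fun T d => d 6 ^ j * (ph' m T (d 0) * (d 0 * (d 2 * d 1)))) :=
      (bφ' 4 _ (B * (B * B)) (by positivity) (by omega) fun d hd =>
        mulb (a := 0) (b := 4) (hr d hd).1 hB0 (b0 0 d hd)
          (mulb (hr d hd).1 hB0 (hp d hd) (ht d hd))).mul (by positivity) (hx j)
    have h2 : Dom B (m - 1) (fun T d => d 6 ^ j * (ph m T (d 0) * (d 2 * d 1))) :=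
      (bφ 4 _ (B * B) (by positivity) (by omega) fun d hd =>
        mulb (hr d hd).1 hB0 (hp d hd) (ht d hd)).mul (by positivity) (hx j)
    have h4 : Dom B (m - 1) (fun T d => j * d 6 ^ (j - 1)
        * (ph m T (d 0) * (d 2 * (d 5 - d 1 * d 6 - d 3 * d 4)))) :=
      (bφ 3 _ (B * B) (by positivity) (by omega) fun d hd =>
        mulb (hr d hd).1 hB0 (hp d hd) (d3 d hd)).mul (by positivity) hxj
    have h5 : Dom B (m - 1) (fun T d => d 3 * (j * d 6 ^ (j - 1)
        * (ph m T (d 0) * (d 7 - d 0 * d 6 - d 2 * d 4)))) := hA3.mul hB0 fun d hd => hd.b 3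
    refine congr ((((h1.neg).sub (h2.mul (g := fun _ => (m : ℝ)) (M := m) (by positivity)
      (fun d _ => by simp))).add h4).sub h5) fun T hT d hd => ?_
    have h3 := ph_ode hm hT hd.s0 hd.s1
    unfold Zm rG rowE sgm
    simp only [pow_zero, one_mul, Nat.cast_zero, zero_mul, mul_zero]
    linear_combination (-(d 3) * d 6 ^ j) * h3
  · have h1 : Dom B (m - 1) (fun T d => d 6 ^ j * (ph' m T (d 0) * (d 2 * (d 7 - d 0 * d 6)))) :=
      (bφ' 3 _ (B * B) (by positivity) (by omega) fun d hd =>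
        mulb (hr d hd).1 hB0 (hp d hd) (a4 d hd)).mul (by positivity) (hx j)
    have h2 : Dom B (m - 1) (fun T d => d 6 ^ j * (ph m T (d 0) * (d 2 * d 6))) :=
      (bφ 2 _ (B * B) (by positivity) (by omega) fun d hd =>
        mulb (b := 0) (hr d hd).1 hB0 (hp d hd) (b0 6 d hd)).mul (by positivity) (hx j)
    have h4 : Dom B (m - 1) (fun T d => j * d 6 ^ (j - 1)
        * (ph m T (d 0) * (d 2 * (d 8 - d 6 ^ 2 - d 4 ^ 2)))) :=
      (bφ 2 _ (B * B) (by positivity) (by omega) fun d hd =>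
        mulb (b := 0) (hr d hd).1 hB0 (hp d hd) (gg d hd)).mul (by positivity) hxj
    have h5 : Dom B (m - 1) (fun T d => d 4 * (j * d 6 ^ (j - 1)
        * (ph m T (d 0) * (d 7 - d 0 * d 6 - d 2 * d 4)))) := hA3.mul hB0 fun d hd => hd.b 4
    refine congr (((h1.sub (h2.mul (g := fun _ => (m : ℝ)) (M := m) (by positivity)
      (fun d _ => by simp))).add h4).sub h5) fun T hT d hd => ?_
    have h3 := ph_ode hm hT hd.s0 hd.s1
    unfold Zm rG rowE sgm
    simp only [pow_zero, one_mul, Nat.cast_zero, zero_mul, mul_zero]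
    linear_combination (-(d 4) * d 6 ^ j) * h3

section

variable {X : Type*} [MeasurableSpace X] {E : Type*} [NormedAddCommGroup E]
  [InnerProductSpace ℝ E] [MeasurableSpace E] [BorelSpace E] [SecondCountableTopology E]
  {μ : Measure X} [IsFiniteMeasure μ] {m : ℕ} {p n : X → E} {C S : ℝ}

/-- The rows with the critical profile in general dimension. -/
theorem EmbD.crit_M (h : EmbD μ m p n C S) (hm : 2 ≤ m) (e : E) {k : Fin 6}
    (hk : k = 0 ∨ k = 3 ∨ k = 4) (j : ℕ) {w : ℝ → ℝ → ℝ} (hw : Continuous (uncurry w)) :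
    Val μ p n e (fun d => w (d 5) (d 7) * rG k m (ph m 1) (ph' m 1) 0 j d)
      (S * fluxV μ p n e w k j) := by
  have hm0 : 0 < m := by omega
  have hG := h.toTwoG
  obtain ⟨Cw, hCw0, hCw⟩ := weight_bound hw (bE e)
  have hB1 := one_le_bC (le_max_right C 1) e
  obtain ⟨D, hD0, hD⟩ := Zm_dom hm hB1 k hk j
  have hwc := cont_psi hw
  have hsc := continuous_sgm k
  -- the bounded part
  set g : R9 → ℝ := fun d => w (d 5) (d 7) * (sgm k d * d 6 ^ j) with hg
  have hgc : Continuous g := by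
    simp only [hg]
    fun_prop
  have hgi : Integrable (fun y => g (dat p n e y)) (μ.prod μ) :=
    integrable_param _ (measurable_dat h.toPts e) (isCompact_KE (bE e))
      (dat_mem h.toPts e) hgc.measurable hgc.continuousOn
  -- the dominated part
  set f : ℝ → X × X → ℝ := fun T y => w (dat p n e y 5) (dat p n e y 7)
    * Zm m k j T (dat p n e y) with hf
  have hmφ : ∀ T, Measurable (ph m T) := measurable_ph m
  have hmφ' : ∀ T, Measurable (ph' m T) := measurable_ph' m
  have hZm : ∀ T, Measurable (Zm m k j T) := by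
    intro T
    have h1 := measurable_rG k m (hmφ T) (hmφ' T) 0 j
    have h2 : Measurable (fun d : R9 => cv m T (d 0)) :=
      (measurable_cv m T).comp (measurable_pi_apply 0)
    have h3 := hsc.measurable
    unfold Zm
    fun_prop
  have hfm : ∀ T, AEStronglyMeasurable (f T) (μ.prod μ) := fun T =>
    ((hwc.measurable.mul (hZm T)).comp (measurable_dat h.toPts e)).aestronglyMeasurable
  have hdom : ∀ T ∈ Icc (0 : ℝ) 1, ∀ᵐ y ∂(μ.prod μ),
      ‖f T y‖ ≤ Cw * D * sg (m - 1) (dat p n e y 0) := by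
    intro T hT
    filter_upwards [hG.ae_lt hm0 e] with y hy
    have hcb := h.contact.cb h.toPts e hy
    have h2 := hD T hT _ hcb
    have h3 := hCw _ (dat_mem h.toPts e y)
    rw [Real.norm_eq_abs, abs_mul]
    calc _ ≤ Cw * (D * sg (m - 1) (dat p n e y 0)) := mul_le_mul h3 h2 (abs_nonneg _) hCw0
      _ = _ := by ring
  have hint : Integrable (fun y => Cw * D * sg (m - 1) (dat p n e y 0)) (μ.prod μ) :=
    (hG.integrable_sg hm0 e (by omega)).const_mul _
  have h01 : (1 : ℝ) ∈ Icc (0 : ℝ) 1 := ⟨zero_le_one, le_rfl⟩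
  have hf1 : Integrable (f 1) (μ.prod μ) := hint.mono' (hfm 1) (hdom 1 h01)
  have h0 : ∀ᶠ T in 𝓝[<] (1 : ℝ), T ∈ Ioo (0 : ℝ) 1 := Ioo_mem_nhdsLT one_pos
  have hlim : Tendsto (fun T => ∫ y, f T y ∂(μ.prod μ)) (𝓝[<] 1) (𝓝 (∫ y, f 1 y ∂(μ.prod μ))) := by
    refine tendsto_integral_filter_of_dominated_convergence _
      (Eventually.of_forall hfm) ?_ hint ?_
    · filter_upwards [h0] with T hT
      exact hdom T ⟨hT.1.le, hT.2.le⟩
    · filter_upwards [hG.ae_lt hm0 e] with y hy
      have cφ := tendsto_prim (contOn_ph1 m hy)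
      have cφ' := tendsto_prim (contOn_ph2 m hy)
      have cc : Tendsto (fun T => cv m T (dat p n e y 0)) (𝓝[<] 1)
          (𝓝 (cv m 1 (dat p n e y 0))) := by
        have h1 : ContinuousAt (fun T => cv m T (dat p n e y 0)) 1 := by
          have h2 := contAt_ker hy m
          have h3 := continuous_kp.continuousAt (x := (1 : ℝ))
          unfold cv
          exact (h3.pow m).mul h2
        exact h1.tendsto.mono_left nhdsWithin_le_nhds
      have e1 : ∀ T, Zm m k j T (dat p n e y) = (cA k m 0 j (dat p n e y) * ph m T (dat p n e y 0)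
          + cB k m 0 j (dat p n e y) * ph' m T (dat p n e y 0))
          - sgm k (dat p n e y) * dat p n e y 6 ^ j * (1 - cv m T (dat p n e y 0)) := by
        intro T
        unfold Zm
        rw [rG_form]
      simp only [hf, e1]
      exact (((cφ.const_mul _).add (cφ'.const_mul _)).sub
        ((tendsto_const_nhds.sub cc).const_mul _)).const_mul _
  -- the flux
  have hfl := h.flux e g hgc
  have hdiag : ∀ y, g (dat p n e (y, y)) = w ⟪n y, e⟫ ⟪p y, e⟫
      * (sgm k (dat p n e (y, y)) * ⟪p y, e⟫ ^ j) := fun y => rfl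
  simp only [hdiag] at hfl
  -- the identity for `T < 1`
  have hz : ∀ᶠ T in 𝓝[<] (1 : ℝ), ∫ q, g (dat p n e q) * cv m T (dat p n e q 0) ∂(μ.prod μ)
      = ∫ q, g (dat p n e q) ∂(μ.prod μ) + ∫ y, f T y ∂(μ.prod μ) := by
    filter_upwards [h0] with T hT
    have hT' : T ∈ Ico (0 : ℝ) 1 := ⟨hT.1.le, hT.2⟩
    have hnull := hG.null_ph e hT k 0 j hw
    have hcvi : Integrable (fun q => g (dat p n e q) * cv m T (dat p n e q 0)) (μ.prod μ) := by
      refine integrable_param _ (measurable_dat h.toPts e) (isCompact_KE (bE e))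
        (dat_mem h.toPts e) (f := fun d => g d * cv m T (d 0))
        (hgc.measurable.mul ((measurable_cv m T).comp (measurable_pi_apply 0))) ?_
      have h1 := contOn_kerE hT' m (bE e)
      unfold cv
      exact hgc.continuousOn.mul (continuousOn_const.mul h1)
    have hfi : Integrable (f T) (μ.prod μ) := hint.mono' (hfm T) (hdom T ⟨hT.1.le, hT.2.le⟩)
    have e1 : ∀ q, w (dat p n e q 5) (dat p n e q 7)
        * rG k m (ph m T) (ph' m T) 0 j (dat p n e q)
        = (g (dat p n e q) + f T q) - g (dat p n e q) * cv m T (dat p n e q 0) := by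
      intro q
      simp only [hg, hf, Zm]
      ring
    have h2 := hnull.2
    simp only [e1] at h2
    have hsum : Integrable (fun q => g (dat p n e q) + f T q) (μ.prod μ) := hgi.add hfi
    rw [integral_sub hsum hcvi, integral_add hgi hfi] at h2
    linarith
  have hlim2 := (hlim.const_add (∫ q, g (dat p n e q) ∂(μ.prod μ)))
  have heq := tendsto_nhds_unique (hfl.congr' hz) hlim2
  have hkp1 : kp 1 = 0 := by simp [kp]
  have e2 : ∀ q, w (dat p n e q 5) (dat p n e q 7) * rG k m (ph m 1) (ph' m 1) 0 j (dat p n e q)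
      = g (dat p n e q) + f 1 q := by
    intro q
    simp only [hg, hf, Zm, cv, hkp1, zero_pow hm0.ne', zero_mul]
    ring
  refine ⟨?_, ?_⟩
  · simp only [e2]
    exact hgi.add hf1
  · simp only [e2]
    rw [integral_add hgi hf1, ← heq]
    rfl

end

end Vale.Agent.P224.UE
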