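import Vale.Agent.P224.UE.Sing8
import Vale.Agent.P224.SM2.Ana1

/-!
The critical profile in even dimension.
-/

namespace Vale.Agent.P224.UE

open MeasureTheory Set Filter Function Module Vale.Agent.P224
open Vale.Agent.P224.SM2 hiding ker
open scoped Topology RealInnerProductSpace ENNReal ContDiff Manifold

set_option linter.unusedSectionVars false

lemma hasDerivAt_ph (m : ℕ) {s : ℝ} (hs : s < 1) : HasDerivAt (ph m 1) (ph' m 1 s) s := by
  have hv : ∀ s ∈ Iio (1 : ℝ), ∀ τ ∈ Icc (0 : ℝ) 1, 1 - τ * s ≠ 0 := fun s hs τ hτ =>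
    (v_pos hτ hs).ne'
  have hk : ∀ q : ℕ, ContinuousOn (uncurry fun (s τ : ℝ) => SM2.ker τ q s)
      (Iio 1 ×ˢ Icc 0 1) := by
    intro q
    unfold SM2.ker Function.uncurry
    refine ContinuousOn.inv₀ (by fun_prop) ?_
    rintro ⟨s, τ⟩ ⟨h1, h2⟩
    exact pow_ne_zero _ (hv s h1 τ h2)
  have hkp : ContinuousOn (uncurry fun (_ τ : ℝ) => kp τ ^ (m - 2)) (Iio 1 ×ˢ Icc 0 1) :=
    ((continuous_kp.comp continuous_snd).pow _).continuousOn
  have key := SM2.deriv_interval (b := 1) zero_le_one (S := Iio 1) isOpen_Iio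
    (g := fun s τ => kp τ ^ (m - 2) * SM2.ker τ m s)
    (g' := fun s τ => kp τ ^ (m - 2) * (m * τ * SM2.ker τ (m + 1) s))
    (hkp.mul (hk m))
    (hkp.mul ((continuousOn_const.mul continuousOn_snd).mul (hk (m + 1))))
    (fun s hs τ hτ => (hasDerivAt_ker (q := m) (hv s hs τ hτ)).const_mul _)
    (T₀ := s) hs
  exact key

/-- the critical profile is determined by the equation -/
lemma ph_unique {m : ℕ} (hm : 2 ≤ m) {f f' : ℝ → ℝ}
    (hf : ∀ s ∈ Ico (-1 : ℝ) 1, HasDerivAt f (f' s) s)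
    (hode : ∀ s ∈ Ico (-1 : ℝ) 1, (1 - s ^ 2) * f' s - m * s * f s = 1) :
    ∀ s ∈ Ico (-1 : ℝ) 1, ph m 1 s = f s ∧ ph' m 1 s = f' s := by
  have hm0 : 0 < m := by omega
  have hd : ∀ s ∈ Ico (-1 : ℝ) 1, HasDerivAt (fun s => ph m 1 s - f s) (ph' m 1 s - f' s) s :=
    fun s hs => (hasDerivAt_ph m hs.2).sub (hf s hs)
  have hodep : ∀ s ∈ Ico (-1 : ℝ) 1, (1 - s ^ 2) * ph' m 1 s - m * s * ph m 1 s = 1 := by
    intro s hs
    have h1 := ph_ode hm (T := 1) ⟨zero_le_one, le_rfl⟩ hs.1 hs.2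
    have h2 : cv m 1 s = 0 := by
      unfold cv
      rw [show kp 1 = 0 by simp [kp], zero_pow hm0.ne', zero_mul]
    rw [h1, h2, sub_zero]
  have hzero : ∀ s ∈ Ioo (-1 : ℝ) 1, ph m 1 s - f s = 0 := by
    intro s hs
    have hle : (-1 : ℝ) ≤ s := hs.1.le
    have hcont : ContinuousOn (fun s => kp s ^ m * (ph m 1 s - f s)) (Icc (-1) s) := by
      intro x hx
      have h1 := (hd x ⟨hx.1, hx.2.trans_lt hs.2⟩).continuousAt.continuousWithinAt
        (s := Icc (-1 : ℝ) s)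
      exact (continuous_kp.continuousAt.continuousWithinAt.pow m).mul h1
    have hder : ∀ x ∈ Ioo (-1 : ℝ) s,
        HasDerivAt (fun s => kp s ^ m * (ph m 1 s - f s)) 0 x := by
      intro x hx
      have hx1 : x < 1 := hx.2.trans hs.2
      have hpos : 0 < 1 - x ^ 2 := by nlinarith [hx.1]
      have hk0 : 0 < kp x := Real.sqrt_pos.2 hpos
      have hk2 : kp x ^ 2 = 1 - x ^ 2 := Real.sq_sqrt hpos.le
      have h1 : HasDerivAt (fun T : ℝ => 1 - T ^ 2) (-(2 * x)) x := by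
        simpa using (hasDerivAt_pow 2 x).const_sub 1
      have h2 : HasDerivAt (fun s => kp s ^ m) (m * kp x ^ (m - 1) * (-(2 * x) / (2 * kp x))) x :=
        (h1.sqrt hpos.ne').fun_pow m
      have h3 := h2.fun_mul (hd x ⟨hx.1.le, hx1⟩)
      refine h3.congr_deriv ?_
      have e1 := hodep x ⟨hx.1.le, hx1⟩
      have e2 := hode x ⟨hx.1.le, hx1⟩
      have e3 : (1 - x ^ 2) * (ph' m 1 x - f' x) = m * x * (ph m 1 x - f x) := by linarith
      obtain ⟨m', rfl⟩ : ∃ m', m = m' + 1 := ⟨m - 1, by omega⟩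
      simp only [Nat.add_sub_cancel]
      have e4 : kp x ^ (m' + 1) * (ph' (m' + 1) 1 x - f' x)
          = kp x ^ m' * ((1 - x ^ 2) * (ph' (m' + 1) 1 x - f' x)) / kp x := by
        rw [← hk2, pow_succ]
        field_simp
      rw [e4, e3]
      field_simp
      ring
    have key := intervalIntegral.integral_eq_sub_of_hasDerivAt_of_le hle hcont hder
      intervalIntegrable_const
    rw [intervalIntegral.integral_const, smul_zero] at key
    have h1 : kp (-1) = 0 := by simp [kp]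
    rw [h1, zero_pow hm0.ne', zero_mul, sub_zero] at key
    have hpos : 0 < 1 - s ^ 2 := by nlinarith [hs.1, hs.2]
    have hk0 : 0 < kp s := Real.sqrt_pos.2 hpos
    exact (mul_eq_zero.1 key.symm).resolve_left (pow_pos hk0 m).ne'
  have hzero' : ∀ s ∈ Ico (-1 : ℝ) 1, ph m 1 s - f s = 0 := by
    intro s hs
    rcases hs.1.eq_or_lt with h | h
    · have h1 : Tendsto (fun s => ph m 1 s - f s) (𝓝[>] s) (𝓝 (ph m 1 s - f s)) :=
        (hd s hs).continuousAt.tendsto.mono_left nhdsWithin_le_nhds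
      have h2 : ∀ᶠ x in 𝓝[>] s, ph m 1 x - f x = 0 := by
        filter_upwards [Ioo_mem_nhdsGT hs.2] with x hx
        exact hzero x ⟨by rw [h]; exact hx.1, hx.2⟩
      exact tendsto_nhds_unique (h1.congr' h2) tendsto_const_nhds
    · exact hzero s ⟨h, hs.2⟩
  intro s hs
  refine ⟨sub_eq_zero.1 (hzero' s hs), ?_⟩
  have h1 : HasDerivWithinAt (fun s => ph m 1 s - f s) (ph' m 1 s - f' s) (Ici s) s :=
    (hd s hs).hasDerivWithinAt
  have h2 : HasDerivWithinAt (fun s => ph m 1 s - f s) 0 (Ici s) s := by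
    have h3 : HasDerivWithinAt (fun _ : ℝ => (0 : ℝ)) 0 (Ici s) s := hasDerivWithinAt_const _ _ _
    refine h3.congr_of_eventuallyEq ?_ (hzero' s hs)
    filter_upwards [Ico_mem_nhdsGE hs.2] with x hx
    exact hzero' x ⟨hs.1.trans hx.1, hx.2⟩
  have h4 := (uniqueDiffWithinAt_Ici s).eq_deriv _ h1 h2
  exact sub_eq_zero.1 h4

/-- the explicit critical profile -/
def PhE (m h : ℕ) (γ : ℕ → ℝ) : Prop :=
  ∀ s ∈ Ico (-1 : ℝ) 1, ph m 1 s = ∑ j ∈ Finset.range h, γ (j + 1) * SM2.ker 1 (j + 1) s ∧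
    ph' m 1 s = ∑ j ∈ Finset.range h, γ (j + 1) * (((j : ℝ) + 1) * SM2.ker 1 (j + 2) s)

/-- The critical profile in even dimension. -/
theorem phE_even {h : ℕ} (hh : 1 ≤ h) {γ : ℕ → ℝ} (h1 : ((2 * h : ℕ) - 1 : ℝ) * γ 1 = 1)
    (hr : ∀ j, 1 ≤ j → j < h →
      ((2 * h : ℕ) - j - 1 : ℝ) * γ (j + 1) = ((2 * h : ℕ) - 2 * j : ℝ) * γ j) :
    PhE (2 * h) h γ := by
  refine ph_unique (by omega) ?_ ?_
  · intro s hs
    have hv : (1 : ℝ) - 1 * s ≠ 0 := by
      have : 0 < 1 - 1 * s := by linarith [hs.2]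
      exact this.ne'
    have h2 : HasDerivAt (fun s => ∑ j ∈ Finset.range h, γ (j + 1) * SM2.ker 1 (j + 1) s)
        (∑ j ∈ Finset.range h, γ (j + 1) * (((j + 1 : ℕ) : ℝ) * 1 * SM2.ker 1 (j + 1 + 1) s)) s :=
      HasDerivAt.fun_sum fun j _ => (hasDerivAt_ker (q := j + 1) hv).const_mul _
    refine h2.congr_deriv ?_
    refine Finset.sum_congr rfl fun j _ => ?_
    push_cast
    ring
  · intro s hs
    have hv : (1 : ℝ) - 1 * s ≠ 0 := by
      have : 0 < 1 - 1 * s := by linarith [hs.2]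
      exact this.ne'
    have hk := fun q => ker_eq hv q
    have h0 : (1 : ℝ) = SM2.ker 1 0 s := by simp [SM2.ker]
    -- telescoping
    have key : ∀ n, n + 1 ≤ h → (1 - s ^ 2) * ∑ j ∈ Finset.range (n + 1),
        γ (j + 1) * (((j : ℝ) + 1) * SM2.ker 1 (j + 2) s)
        - ((2 * h : ℕ) : ℝ) * s * ∑ j ∈ Finset.range (n + 1), γ (j + 1) * SM2.ker 1 (j + 1) s
        = 1 - ((2 * h : ℕ) - 2 * ((n : ℝ) + 1)) * γ (n + 1) * SM2.ker 1 (n + 1) s := by
      intro n
      induction n with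
      | zero =>
        intro _
        simp only [zero_add, Finset.range_one, Finset.sum_singleton, Nat.cast_zero]
        have e1 := hk 0
        have e2 := hk 1
        simp only [zero_add] at e1
        simp only [Nat.reduceAdd] at e2
        rw [← h0] at e1
        linear_combination (-(1 + s) * γ 1) * e2 - (((2 * h : ℕ) : ℝ) - 1) * γ 1 * e1 + h1
      | succ n ih =>
        intro hn
        have ih' := ih (by omega)
        rw [Finset.sum_range_succ, Finset.sum_range_succ (fun j => γ (j + 1) * SM2.ker 1 (j + 1) s)]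
        have e1 := hk (n + 1)
        have e2 := hk (n + 1 + 1)
        have e3 := hr (n + 1) (by omega) (by omega)
        push_cast at e3 ih' ⊢
        linear_combination ih' - (((n : ℝ) + 1 + 1) * (1 + s) * γ (n + 1 + 1)) * e2
          - ((2 * (h : ℝ) - n - 2) * γ (n + 1 + 1)) * e1 + SM2.ker 1 (n + 1) s * e3
    obtain ⟨n, rfl⟩ : ∃ n, h = n + 1 := ⟨h - 1, by omega⟩
    have h3 := key n le_rfl
    rw [h3]
    push_cast
    ring

end Vale.Agent.P224.UE
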