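import Vale.Agent.P224.UE.FunE
import Vale.Agent.P224.UE.LimE

/-!
The tail of the flow near the diagonal.
-/

namespace Vale.Agent.P224.UE

open MeasureTheory Set Filter Function
open Vale.Agent.P224.SM2 hiding ker
open scoped Topology RealInnerProductSpace

set_option linter.unusedSectionVars false

/-- the first row with the kernel of power `m` -/
lemma rT0_eq {m : ℕ} {T : ℝ} {d : R9} (hv : 1 - T * d 0 ≠ 0) :
    rT 0 m T m 0 0 d = m * SM2.ker T (m + 1) (d 0) * (T - d 0 - T * d 2 ^ 2) := by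
  have h2 : SM2.ker T m (d 0) = SM2.ker T (m + 1) (d 0) * (1 - T * d 0) := by
    unfold SM2.ker
    rw [pow_succ]
    field_simp
  unfold rT rowT rowE
  simp only
  rw [h2]
  simp only [pow_zero, one_mul, Nat.cast_zero, zero_mul]
  ring

/-- the closed row with the kernel of power `m` -/
lemma rT3_eq {m : ℕ} {T : ℝ} {d : R9} (hv : 1 - T * d 0 ≠ 0) :
    rT 3 m T m 0 0 d = m * SM2.ker T (m + 1) (d 0) * (d 3 * (d 0 - T) - d 1 * d 2) := by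
  have h2 : SM2.ker T m (d 0) = SM2.ker T (m + 1) (d 0) * (1 - T * d 0) := by
    unfold SM2.ker
    rw [pow_succ]
    field_simp
  unfold rT rowT rowE
  simp only
  rw [h2]
  simp only [pow_zero, one_mul, Nat.cast_zero, zero_mul]
  ring

/-- the weight of the tail functional -/
noncomputable def tw (β χ : ℝ) (ψ : ℝ → ℝ → ℝ) (d : R9) : ℝ :=
  (1 + β * d 3) * (1 + d 8 - 2 * d 5) + χ * d 8 * (1 - β * d 3) + ψ (d 5) (d 7)

/-- the quadratic form of the tail -/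
lemma tail_form {T β χ p t X Y Z D : ℝ} (hβ0 : 0 ≤ β) (hβT : β ≤ T) (hX : 0 ≤ X) (hY : 0 ≤ Y)
    (hZ : 0 ≤ Z) (hχ : 0 ≤ χ) (hXY : X - Y = 2 * D) (hD : D ^ 2 ≤ 2 * χ * Z * (X + Y)) :
    0 ≤ T * (X * p ^ 2 + Y * t ^ 2) - β * (X + Y) * (p * t)
      + χ * Z * (T * (p ^ 2 + t ^ 2) + 2 * β * (p * t)) := by
  have hXp : 0 ≤ X * p ^ 2 + Y * t ^ 2 + χ * Z * (p ^ 2 + t ^ 2) := by positivity
  have h1 : β * (X * p ^ 2 + Y * t ^ 2 + χ * Z * (p ^ 2 + t ^ 2))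
      ≤ T * (X * p ^ 2 + Y * t ^ 2 + χ * Z * (p ^ 2 + t ^ 2)) :=
    mul_le_mul_of_nonneg_right hβT hXp
  have h2 : 0 ≤ X * p ^ 2 + Y * t ^ 2 + χ * Z * (p ^ 2 + t ^ 2) - (X + Y) * (p * t)
      + 2 * (χ * Z) * (p * t) := by
    have e1 : X * p ^ 2 + Y * t ^ 2 + χ * Z * (p ^ 2 + t ^ 2) - (X + Y) * (p * t)
      + 2 * (χ * Z) * (p * t)
      = (X + Y) / 2 * (p - t) ^ 2 + D * ((p - t) * (p + t)) + χ * Z * (p + t) ^ 2 := by
      have hX' : X = (X + Y) / 2 + D := by linarith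
      have hY' : Y = (X + Y) / 2 - D := by linarith
      generalize hS : (X + Y) / 2 = S at hX' hY' ⊢
      rw [hX', hY']
      ring
    rw [e1]
    have hXY0 : 0 ≤ X + Y := add_nonneg hX hY
    have hcz : 0 ≤ χ * Z := mul_nonneg hχ hZ
    rcases hXY0.eq_or_lt with h | h
    · have hD0 : D ^ 2 ≤ 0 := by rw [← h, mul_zero] at hD; exact hD
      have hD1 : D = 0 := by
        have := le_antisymm hD0 (sq_nonneg D)
        exact pow_eq_zero_iff (two_ne_zero) |>.1 this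
      rw [hD1, ← h]
      have : 0 ≤ χ * Z * (p + t) ^ 2 := by positivity
      linarith
    · have e2 : (X + Y) / 2 * (p - t) ^ 2 + D * ((p - t) * (p + t)) + χ * Z * (p + t) ^ 2
          = (X + Y) / 2 * ((p - t) + D / (X + Y) * (p + t)) ^ 2
            + (2 * χ * Z * (X + Y) - D ^ 2) / (2 * (X + Y)) * (p + t) ^ 2 := by
        field_simp
        ring
      rw [e2]
      have h3 : 0 ≤ (2 * χ * Z * (X + Y) - D ^ 2) / (2 * (X + Y)) :=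
        div_nonneg (by linarith) (by linarith)
      positivity
  have h3 := mul_nonneg hβ0 h2
  nlinarith [h1, h3]

section

variable {X : Type*} [MeasurableSpace X] {E : Type*} [NormedAddCommGroup E]
  [InnerProductSpace ℝ E] [MeasurableSpace E] [BorelSpace E] [SecondCountableTopology E]
  {μ : Measure X} [IsFiniteMeasure μ] {m : ℕ} {p n : X → E}

lemma Null.antisymm {e : E} {f : R9 → ℝ}
    (hf : Integrable (fun q => f (dat p n e q)) (μ.prod μ)) :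
    Null μ p n e (fun d => f d - f (sw9 d)) := by
  have h2 : Integrable (fun q => f (sw9 (dat p n e q))) (μ.prod μ) := by
    simp only [sw_dat]
    exact hf.swap
  refine ⟨hf.sub h2, ?_⟩
  rw [integral_sub hf h2]
  simp only [sw_dat]
  rw [sub_eq_zero]
  exact (integral_prod_swap (μ := μ) (ν := μ) (fun q => f (dat p n e q))).symm

/-- the monotone functional on a final interval -/
theorem TwoE.antitone_from (h : TwoE μ m p n) (e : E) {T₁ : ℝ} (hT₁ : T₁ ∈ Ico (0 : ℝ) 1)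
    {g g' : ℝ → R9 → ℝ}
    (hgm : ∀ T, Measurable (g T)) (hg'm : ∀ T, Measurable (g' T))
    (hgc : ContinuousOn (uncurry g) (Ico 0 1 ×ˢ KE (bE e)))
    (hg'c : ContinuousOn (uncurry g') (Ioo 0 1 ×ˢ KE (bE e)))
    (hd : ∀ T ∈ Ioo (0 : ℝ) 1, ∀ k ∈ KE (bE e), HasDerivAt (fun T => g T k) (g' T k) T)
    (hR : ∀ T ∈ Ioo T₁ 1, ∃ R : R9 → ℝ, Null μ p n e R ∧
      ∀ x N y w : E, ‖x‖ = 1 → ‖N‖ = 1 → ‖y‖ = 1 → ‖w‖ = 1 → ⟪x, N⟫ = 0 → ⟪y, w⟫ = 0 →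
        g' T (dv x N y w e) ≤ R (dv x N y w e)) :
    AntitoneOn (fun T => ∫ q, g T (dat p n e q) ∂(μ.prod μ)) (Ico T₁ 1) := by
  have hder : ∀ T ∈ Ioo (0 : ℝ) 1, HasDerivAt (fun T => ∫ q, g T (dat p n e q) ∂(μ.prod μ))
      (∫ q, g' T (dat p n e q) ∂(μ.prod μ)) T := fun T hT =>
    deriv_param (μ.prod μ) (measurable_dat h.toPts e) (isCompact_KE (bE e))
      (dat_mem h.toPts e) hgm hg'm hgc hg'c hd hT
  have hcont : ContinuousOn (fun T => ∫ q, g T (dat p n e q) ∂(μ.prod μ)) (Ico 0 1) :=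
    contOn_param (μ.prod μ) (measurable_dat h.toPts e) (isCompact_KE (bE e))
      (dat_mem h.toPts e) hgm hgc
  refine antitoneOn_of_deriv_nonpos (convex_Ico T₁ 1)
    (hcont.mono (Ico_subset_Ico_left hT₁.1)) ?_ ?_
  · rw [interior_Ico]
    exact fun T hT => (hder T ⟨hT₁.1.trans_lt hT.1, hT.2⟩).differentiableAt.differentiableWithinAt
  · rw [interior_Ico]
    intro T hT
    have hTI : T ∈ Ioo (0 : ℝ) 1 := ⟨hT₁.1.trans_lt hT.1, hT.2⟩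
    rw [(hder T hTI).deriv]
    obtain ⟨R, hR1, hR2⟩ := hR T hT
    rw [← hR1.2]
    refine integral_mono ?_ hR1.1 fun q => ?_
    · exact integrable_param (μ.prod μ) (measurable_dat h.toPts e) (isCompact_KE (bE e))
        (dat_mem h.toPts e) (hg'm T) (contOn_slice hg'c hTI)
    · exact hR2 _ _ _ _ (h.np _) (h.nn _) (h.np _) (h.nn _) (h.pn _) (h.pn _)

/-- the dissipation of the tail functional before symmetrization -/
noncomputable def tf (m : ℕ) (β χ : ℝ) (ψ : ℝ → ℝ → ℝ) (T : ℝ) (d : R9) : ℝ :=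
  kp T ^ m / (1 - T ^ 2) * m * SM2.ker T (m + 1) (d 0)
      * (T * d 2 ^ 2 * ((1 + d 8 - 2 * d 5) + χ * d 8 + ψ (d 5) (d 7))
        - β * (d 1 * d 2) * ((1 + d 8 - 2 * d 5) - χ * d 8))

lemma cont_psi {ψ : ℝ → ℝ → ℝ} (hψ : Continuous (uncurry ψ)) :
    Continuous (fun d : R9 => ψ (d 5) (d 7)) := by
  have h57 : Continuous (fun d : R9 => (d 5, d 7)) := by fun_prop
  exact hψ.comp h57

lemma cont_tw (β χ : ℝ) {ψ : ℝ → ℝ → ℝ} (hψ : Continuous (uncurry ψ)) :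
    Continuous (tw β χ ψ) := by
  have hψc := cont_psi hψ
  unfold tw
  fun_prop

lemma integrable_tf (h : FV.Pts p n) (e : E) (β χ : ℝ) {ψ : ℝ → ℝ → ℝ}
    (hψ : Continuous (uncurry ψ)) {T : ℝ} (hT : T ∈ Ico (0 : ℝ) 1) :
    Integrable (fun q => tf m β χ ψ T (dat p n e q)) (μ.prod μ) := by
  have hψc := cont_psi hψ
  refine integrable_param (μ.prod μ) (measurable_dat h e) (isCompact_KE (bE e))
    (dat_mem h e) ?_ ?_
  · have h1 := (measurable_ker T (m + 1))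
    have h2 := hψc.measurable
    unfold tf
    fun_prop
  · have h1 := contOn_kerE hT (m + 1) (bE e)
    have h2 := hψc.continuousOn (s := KE (bE e))
    unfold tf
    fun_prop

/-- the symmetrized dissipation is nonnegative -/
lemma tf_nonneg {β χ : ℝ} {ψ : ℝ → ℝ → ℝ} {T : ℝ} (hT : T ∈ Ioo (0 : ℝ) 1) (hβ0 : 0 ≤ β)
    (hβ : β ≤ T) (hχ0 : 0 ≤ χ) (hψ0 : ∀ a b, 0 ≤ ψ a b) {x N y w e : E}
    (hχ : ⟪N - w, e⟫ ^ 2 ≤ 2 * χ * ‖e‖ ^ 2 * (‖N - e‖ ^ 2 + ‖w - e‖ ^ 2))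
    (hx : ‖x‖ = 1) (hN : ‖N‖ = 1) (hy : ‖y‖ = 1) (hw : ‖w‖ = 1) :
    0 ≤ tf m β χ ψ T (dv x N y w e) + tf m β χ ψ T (sw9 (dv x N y w e)) := by
  have hT' : T ∈ Ico (0 : ℝ) 1 := ⟨hT.1.le, hT.2⟩
  have hE2 : ⟪e, e⟫ = ‖e‖ ^ 2 := real_inner_self_eq_norm_sq e
  have hs : ⟪x, y⟫ ∈ Icc (-1 : ℝ) 1 := (dv_mem (e := e) hx hN hy hw).2
  have hk := ker_nonneg hT' hs (m + 1)
  have hXv : ‖w - e‖ ^ 2 = 1 + ‖e‖ ^ 2 - 2 * ⟪w, e⟫ := by
    rw [norm_sub_sq_real, hw]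
    ring
  have hYv : ‖N - e‖ ^ 2 = 1 + ‖e‖ ^ 2 - 2 * ⟪N, e⟫ := by
    rw [norm_sub_sq_real, hN]
    ring
  have hDv : ⟪N - w, e⟫ = ⟪N, e⟫ - ⟪w, e⟫ := inner_sub_left _ _ _
  have hform := tail_form (T := T) (β := β) (χ := χ) (p := ⟪N, y⟫)
    (t := ⟪x, w⟫) (X := ‖w - e‖ ^ 2) (Y := ‖N - e‖ ^ 2) (Z := ‖e‖ ^ 2)
    (D := ⟪N - w, e⟫) hβ0 hβ (by positivity) (by positivity) (by positivity) hχ0
    (by rw [hXv, hYv, hDv]; ring) (by rw [add_comm (‖w - e‖ ^ 2)]; exact hχ)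
  rw [hXv, hYv] at hform
  have hψ1 := hψ0 ⟪w, e⟫ ⟪y, e⟫
  have hψ2 := hψ0 ⟪N, e⟫ ⟪x, e⟫
  have hTp : 0 ≤ T * (ψ ⟪w, e⟫ ⟪y, e⟫ * ⟪N, y⟫ ^ 2 + ψ ⟪N, e⟫ ⟪x, e⟫ * ⟪x, w⟫ ^ 2) := by
    have := hT.1.le
    positivity
  have e1 : tf m β χ ψ T (dv x N y w e) + tf m β χ ψ T (sw9 (dv x N y w e))
      = kp T ^ m / (1 - T ^ 2) * m * SM2.ker T (m + 1) ⟪x, y⟫
        * ((T * ((1 + ‖e‖ ^ 2 - 2 * ⟪w, e⟫) * ⟪N, y⟫ ^ 2
            + (1 + ‖e‖ ^ 2 - 2 * ⟪N, e⟫) * ⟪x, w⟫ ^ 2)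
          - β * ((1 + ‖e‖ ^ 2 - 2 * ⟪w, e⟫) + (1 + ‖e‖ ^ 2 - 2 * ⟪N, e⟫)) * (⟪N, y⟫ * ⟪x, w⟫)
          + χ * ‖e‖ ^ 2 * (T * (⟪N, y⟫ ^ 2 + ⟪x, w⟫ ^ 2) + 2 * β * (⟪N, y⟫ * ⟪x, w⟫)))
          + T * (ψ ⟪w, e⟫ ⟪y, e⟫ * ⟪N, y⟫ ^ 2 + ψ ⟪N, e⟫ ⟪x, e⟫ * ⟪x, w⟫ ^ 2)) := by
    have s0 : sw9 (dv x N y w e) 0 = ⟪x, y⟫ := rfl
    have s1 : sw9 (dv x N y w e) 1 = ⟪N, y⟫ := rfl
    have s2 : sw9 (dv x N y w e) 2 = ⟪x, w⟫ := rfl
    have s5 : sw9 (dv x N y w e) 5 = ⟪N, e⟫ := rfl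
    have s7 : sw9 (dv x N y w e) 7 = ⟪x, e⟫ := rfl
    have s8 : sw9 (dv x N y w e) 8 = ‖e‖ ^ 2 := hE2
    have r0 : dv x N y w e 0 = ⟪x, y⟫ := rfl
    have r1 : dv x N y w e 1 = ⟪x, w⟫ := rfl
    have r2 : dv x N y w e 2 = ⟪N, y⟫ := rfl
    have r5 : dv x N y w e 5 = ⟪w, e⟫ := rfl
    have r7 : dv x N y w e 7 = ⟪y, e⟫ := rfl
    have r8 : dv x N y w e 8 = ‖e‖ ^ 2 := hE2
    unfold tf
    rw [s0, s1, s2, s5, s7, s8, r0, r1, r2, r5, r7, r8]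
    ring
  rw [e1]
  have hm0 : (0 : ℝ) ≤ m := Nat.cast_nonneg m
  have hκ0 : 0 ≤ kp T ^ m / (1 - T ^ 2) :=
    div_nonneg (pow_nonneg (kp_pos hT').le _) (one_sub_sq_pos hT').le
  exact mul_nonneg (by positivity) (add_nonneg hform hTp)

/-- the tail functional is nonincreasing -/
theorem TwoE.tail (h : TwoE μ m p n) (e : E) {β χ T₁ : ℝ} (hT₁ : T₁ ∈ Ico (0 : ℝ) 1)
    (hβ0 : 0 ≤ β) (hβ : β ≤ T₁) (hχ0 : 0 ≤ χ)
    (hχ : ∀ N w : E, ‖N‖ = 1 → ‖w‖ = 1 →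
      ⟪N - w, e⟫ ^ 2 ≤ 2 * χ * ‖e‖ ^ 2 * (‖N - e‖ ^ 2 + ‖w - e‖ ^ 2))
    {ψ : ℝ → ℝ → ℝ} (hψ : Continuous (uncurry ψ)) (hψ0 : ∀ a b, 0 ≤ ψ a b) :
    AntitoneOn (fun T => ∫ q, cv m T (dat p n e q 0) * tw β χ ψ (dat p n e q) ∂(μ.prod μ))
      (Ico T₁ 1) := by
  have htw := cont_tw β χ hψ
  refine h.antitone_from e hT₁ (g := fun T d => cv m T (d 0) * tw β χ ψ d)
    (g' := fun T d => cv' m T (d 0) * tw β χ ψ d) ?_ ?_ ?_ ?_ ?_ ?_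
  · exact fun T => ((measurable_cv m T).comp (measurable_pi_apply 0)).mul htw.measurable
  · exact fun T => ((measurable_cv' m T).comp (measurable_pi_apply 0)).mul htw.measurable
  · have h1 : ContinuousOn (fun z : ℝ × R9 => cv m z.1 (z.2 0)) (Ico 0 1 ×ˢ KE (bE e)) :=
      (contOn_cv m).comp (f := fun z : ℝ × R9 => (z.1, z.2 0)) (by fun_prop)
        (fun z hz => ⟨hz.1, hz.2.2⟩)
    exact h1.mul (htw.comp continuous_snd).continuousOn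
  · have h1 : ContinuousOn (fun z : ℝ × R9 => cv' m z.1 (z.2 0)) (Ioo 0 1 ×ˢ KE (bE e)) :=
      (contOn_cv' m).comp (f := fun z : ℝ × R9 => (z.1, z.2 0)) (by fun_prop)
        (fun z hz => ⟨hz.1, hz.2.2⟩)
    exact h1.mul (htw.comp continuous_snd).continuousOn
  · exact fun T hT k hk => (hasDerivAt_cv ⟨hT.1.le, hT.2⟩ hk.2).mul_const _
  · intro T hT
    have hTI : T ∈ Ioo (0 : ℝ) 1 := ⟨hT₁.1.trans_lt hT.1, hT.2⟩
    have hTI' : T ∈ Ico (0 : ℝ) 1 := ⟨hTI.1.le, hTI.2⟩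
    have hTβ : β ≤ T := hβ.trans hT.1.le
    have hN1 : Null μ p n e (fun d => ((1 + ⟪e, e⟫ - 2 * d 5) + χ * ⟪e, e⟫ + ψ (d 5) (d 7))
        * rT 0 m T m 0 0 d) := by
      refine h.null_row e hTI 0 m 0 0 (w := fun a b => (1 + ⟪e, e⟫ - 2 * a) + χ * ⟪e, e⟫ + ψ a b) ?_
      have : Continuous (uncurry ψ) := hψ
      unfold Function.uncurry at this ⊢
      fun_prop
    have hN2 : Null μ p n e (fun d => ((1 + ⟪e, e⟫ - 2 * d 5) - χ * ⟪e, e⟫)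
        * rT 3 m T m 0 0 d) := by
      refine h.null_row e hTI 3 m 0 0 (w := fun a b => (1 + ⟪e, e⟫ - 2 * a) - χ * ⟪e, e⟫) ?_
      unfold Function.uncurry
      fun_prop
    have hN3 := Null.antisymm (μ := μ) (p := p) (n := n) (e := e)
      (integrable_tf (m := m) h.toPts e β χ hψ hTI')
    have hR := (((hN2.const_mul β).sub hN1).const_mul (kp T ^ m / (1 - T ^ 2))).sub
      (hN3.const_mul (1 / 2))
    refine ⟨_, hR, ?_⟩
    intro x N y w hx hN hy hw _ _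
    have hs : dv x N y w e 0 ∈ Icc (-1 : ℝ) 1 := (dv_mem (e := e) hx hN hy hw).2
    have hv : 1 - T * dv x N y w e 0 ≠ 0 := (one_sub_pos' hTI' hs.2).ne'
    have hE : dv x N y w e 8 = ⟪e, e⟫ := rfl
    have hfin := tf_nonneg (m := m) (x := x) (y := y) hTI hβ0 hTβ hχ0 hψ0 (hχ N w hN hw)
      hx hN hy hw
    have e2 : cv' m T (dv x N y w e 0) * tw β χ ψ (dv x N y w e)
        = kp T ^ m / (1 - T ^ 2) * (β * (((1 + ⟪e, e⟫ - 2 * dv x N y w e 5) - χ * ⟪e, e⟫)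
            * rT 3 m T m 0 0 (dv x N y w e))
          - ((1 + ⟪e, e⟫ - 2 * dv x N y w e 5) + χ * ⟪e, e⟫
            + ψ (dv x N y w e 5) (dv x N y w e 7)) * rT 0 m T m 0 0 (dv x N y w e))
          - tf m β χ ψ T (dv x N y w e) := by
      rw [rT0_eq hv, rT3_eq hv]
      unfold tw cv' tf
      rw [hE]
      ring
    rw [e2]
    linarith

end

end Vale.Agent.P224.UE
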